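import Vale.Agent.P325.Alg

/-!
# The algorithm with levels, on lists of natural numbers
-/

namespace Vale.Agent.P325.V2.Alg2

open Vale.Agent.P325.Alg

/-! ### Labels and margins in a leaf -/

/-- total mass of the heavy vertices -/
def heavyL (N : ℕ) (D : List ℕ) (w n : ℕ) : ℕ :=
  sumR N fun v => if 0 < gt D v ∧ w ≤ n ^ 2 * gt D v then gt D v else 0

/-- difference of the scores of the labels `i` and `j` at `u` -/
def diffL (k : ℕ) (p : List ℕ × List ℕ) (u i j : ℕ) : ℕ :=
  (gt p.1 (i + k * u) + gt p.2 (j + k * u)) - (gt p.1 (j + k * u) + gt p.2 (i + k * u))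

/-- scaled margin of the label `i` at `u` -/
def marginAt (k Bq w0 : ℕ) (p : List ℕ × List ℕ) (u i : ℕ) : ℕ :=
  ((List.range k).map fun j => if j = i then Bq else 2 * w0 * diffL k p u i j).foldl min Bq

/-- scaled margins of the labeling `a` -/
def marginL (k N Bq w0 : ℕ) (p : List ℕ × List ℕ) (a : List ℕ) : List ℕ :=
  tab N fun u => marginAt k Bq w0 p u (gt a u)

/-- labels and margins from scores -/
def outL (k N Bq w0 : ℕ) (p : List ℕ × List ℕ) : List ℕ × List ℕ :=
  (labelL k N p, marginL k N Bq w0 p (labelL k N p))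

/-- scores of the certificate `c`; `E, F, D, Q` belong to the label extended graph -/
def scoresL (k N : ℕ) (E : List (ℕ × ℕ)) (F D : List ℕ) (Q T S' S c : ℕ) :
    List ℕ × List ℕ :=
  scoreL (N * k) Q T S' (psiL (N * k) D Q S c)
    (filtL (N * k) E F D Q T S' (psiL (N * k) D Q S c))

/-- common denominator of the margins -/
def denL (Q T S' S : ℕ) : ℕ := S * Q ^ (T * S' + 1)

/-- labels and margins of the certificate `c` -/
def certOutL (k N w0 : ℕ) (E : List (ℕ × ℕ)) (F D : List ℕ) (Q T S' S c : ℕ) :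
    List ℕ × List ℕ :=
  outL k N (denL Q T S' S) w0 (scoresL k N E F D Q T S' S c)

/-- violated weight of the margins -/
def viol2L (C : Cons) (F a A : List ℕ) : ℕ :=
  (C.map fun c => if gt a c.2.1 = gt c.2.2 (gt a c.1) then 0
    else gt F c.1 * gt F c.2.1 * (gt A c.1 * gt A c.2.1)).sum

/-- the objective -/
def objL (H N : ℕ) (C : Cons) (F D : List ℕ) (Bq : ℕ) (o : List ℕ × List ℕ) : ℕ :=
  H * (energyL (baseL C) F o.2 + 4 * viol2L C F o.1 o.2) +
    sumR N fun u => gt D u * (Bq ^ 2 - gt o.2 u ^ 2)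

/-- objective of the certificate `c` -/
def certObjL (H k N w0 : ℕ) (C : Cons) (F D : List ℕ) (Eh : List (ℕ × ℕ)) (Fh Dh : List ℕ)
    (Q T S' S c : ℕ) : ℕ :=
  objL H N C F D (denL Q T S' S) (certOutL k N w0 Eh Fh Dh Q T S' S c)

/-- minimum of the objective over the certificates `< B` (and `0`) -/
def minObjL (H k N w0 : ℕ) (C : Cons) (F D : List ℕ) (Eh : List (ℕ × ℕ)) (Fh Dh : List ℕ)
    (Q T S' S B : ℕ) : ℕ :=
  ((List.range B).map fun c => certObjL H k N w0 C F D Eh Fh Dh Q T S' S c).foldl min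
    (certObjL H k N w0 C F D Eh Fh Dh Q T S' S 0)

/-- a certificate with minimal objective -/
def bestCertL (H k N w0 : ℕ) (C : Cons) (F D : List ℕ) (Eh : List (ℕ × ℕ)) (Fh Dh : List ℕ)
    (Q T S' S B m : ℕ) : ℕ :=
  ((List.range B).find? fun c =>
    decide (certObjL H k N w0 C F D Eh Fh Dh Q T S' S c ≤ m)).getD 0

/-- labels and margins of the best certificate -/
def bestOutL (H k N w0 : ℕ) (C : Cons) (F D : List ℕ) (Eh : List (ℕ × ℕ)) (Fh Dh : List ℕ)
    (Q T S' S B : ℕ) : List ℕ × List ℕ :=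
  certOutL k N w0 Eh Fh Dh Q T S' S
    (bestCertL H k N w0 C F D Eh Fh Dh Q T S' S B
      (minObjL H k N w0 C F D Eh Fh Dh Q T S' S B))

/-- accumulated data: `∑ G²`, `∑ (F² - G'²)`, total variation, violated weight -/
abbrev AccL := List ℕ × List ℕ × ℕ × ℕ

/-- total variation of `G²` -/
def tvL (E : List (ℕ × ℕ)) (G : List ℕ) : ℕ :=
  (E.map fun e => (gt G e.1 ^ 2 - gt G e.2 ^ 2) + (gt G e.2 ^ 2 - gt G e.1 ^ 2)).sum

/-- contribution of a leaf `F`, labels `a`, labelled part `G`, leftover `G'` -/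
def accL (N : ℕ) (C : Cons) (F a G G' : List ℕ) (acc : AccL) : AccL :=
  (tab N fun u => gt acc.1 u + gt G u ^ 2,
    tab N fun u => gt acc.2.1 u + (gt F u ^ 2 - gt G' u ^ 2),
    acc.2.2.1 + tvL (baseL C) G, acc.2.2.2 + costL C G a)

/-- end of the treatment of a leaf with labels and margins `o` -/
def leafFin (N : ℕ) (C : Cons) (F : List ℕ) (o : List ℕ × List ℕ) (Bq : ℕ) (acc : AccL) : AccL :=
  accL N C F o.1 (childLL N F o.2 Bq) (childRL N F o.2 Bq) acc

/-- treatment of a leaf, given the data of the label extended graph -/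
def leafG (H k N : ℕ) (C : Cons) (F D : List ℕ) (n T S' S B : ℕ) (Eh : List (ℕ × ℕ))
    (Fh Dh : List ℕ) (Q : ℕ) (acc : AccL) : AccL :=
  leafFin N C F (bestOutL H k N (heavyL N D D.sum n) C F D Eh Fh Dh Q T S' S B)
    (denL Q T S' S) acc

/-- treatment of a leaf `F` with degrees `D` -/
def leafL2 (H k N : ℕ) (C : Cons) (F D : List ℕ) (n T S' S B : ℕ) (acc : AccL) : AccL :=
  leafG H k N C F D n T S' S B (liftL k C) (hatL k N F) (degL (N * k) (liftL k C) (hatL k N F))
    (QpL (degL (N * k) (liftL k C) (hatL k N F))) acc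

/-! ### The loop of a level -/

/-- states of the loop: active nodes, accumulated data -/
abbrev StL2 := List NodeL × AccL

/-- treatment of a node, `D` = degrees -/
def treatL2 (H k N : ℕ) (C : Cons) (P : Alg.Num) (nd : NodeL) (rest : List NodeL) (acc : AccL)
    (D : List ℕ) : StL2 :=
  if P.J ≤ nd.2.2 ∨ D.sum * P.n < nd.2.1 then (rest, acc)
  else match findL N (baseL C) nd.1 D (QpL D) P.n P.L P.r P.R P.T D.sum with
    | none => (rest, leafL2 H k N C nd.1 D P.n P.T P.S' P.S P.B acc)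
    | some p => (splitL N (baseL C) nd.1 nd.2.1 nd.2.2 rest
        (bumpL N (baseL C) nd.1 D (QpL D) p.1 (min p.2 P.T)), acc)

/-- one step of the loop -/
def loopL2 (H k N : ℕ) (C : Cons) (P : Alg.Num) (s : StL2) : StL2 :=
  match s.1 with
  | [] => s
  | nd :: rest => treatL2 H k N C P nd rest s.2 (degL N (baseL C) nd.1)

/-- initial state of a level with root `h` -/
def initL2 (N : ℕ) (C : Cons) (h S : List ℕ) (aT aV : ℕ) : StL2 :=
  ([(h, (degL N (baseL C) h).sum, 0)], S, tab N fun _ => 0, aT, aV)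

/-! ### Levels -/

/-- states between the levels: leftover, `∑ G²`, total variation, violated weight -/
abbrev LvL := List ℕ × List ℕ × ℕ × ℕ

/-- end of a level -/
def finL (N : ℕ) (h : List ℕ) (f : StL2) : LvL :=
  (tab N fun u => Nat.sqrt (gt h u ^ 2 - gt f.2.2.1 u), f.2.1, f.2.2.2.1, f.2.2.2.2)

/-- a level -/
def levelL (H k N : ℕ) (C : Cons) (P : Alg.Num) (s : LvL) : LvL :=
  if P.n * (degL N (baseL C) s.1).sum < 4 ^ P.b * 4 * C.length then s
  else finL N s.1 ((loopL2 H k N C P)^[P.B] (initL2 N C s.1 s.2.1 s.2.2.1 s.2.2.2))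

/-- the constants of the algorithm -/
structure Cst2 where
  k : ℕ
  q : ℕ
  I : ℕ
  n0 : ℕ
  cq : ℕ
  L0 : ℕ
  CS : ℕ
  C : ℕ

/-- the number `k1` of level `i` -/
def k1At (c : Cst2) (i : ℕ) : ℕ := 48 * 4 ^ c.I * 64 ^ (c.I - i)

/-- the number `H` of level `i` -/
def hAt (c : Cst2) (i : ℕ) : ℕ := 100 * c.q * (32 * k1At c i) * c.cq

/-- the numbers of level `i`, `B` the length of the padding -/
def nums2 (c : Cst2) (n r B i : ℕ) : Alg.Num where
  n := n
  L := Nat.size n
  r := r
  R := 32 * k1At c i * Nat.size n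
  T := 4 * (32 * k1At c i * Nat.size n) * c.cq
  J := 16 * c.q * k1At c i
  b := (8 * (16 * c.q * k1At c 0) + 32) * Nat.size n
  S' := c.L0 * r
  S := c.CS * r ^ 3
  B := B

/-- all levels -/
def levelsL (c : Cst2) (N : ℕ) (C : Cons) (n r B : ℕ) (s : LvL) : LvL :=
  (List.range c.I).foldl (fun s i => levelL (hAt c i) c.k N C (nums2 c n r B i) s) s

/-- the common `b` -/
def bAt (c : Cst2) (n : ℕ) : ℕ := (8 * (16 * c.q * k1At c 0) + 32) * Nat.size n

/-- the final test -/
def acceptL2 (I b : ℕ) (C : Cons) (s : LvL) : Bool :=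
  decide (16 ^ I * ((((baseL C).map fun e => 2 * 4 ^ b - (gt s.2.1 e.1 + gt s.2.1 e.2)).sum) +
    2 * s.2.2.1 + 2 * s.2.2.2) ≤ 8 * 4 ^ b * C.length)

/-- the answer for given numbers -/
def runL2 (c : Cst2) (N : ℕ) (C : Cons) (n r B : ℕ) : Bool :=
  acceptL2 c.I (bAt c n) C (levelsL c N C n r B
    (tab N fun _ => 2 ^ bAt c n, tab N fun _ => 0, 0, 0))

/-- size of the instance plus `n0` -/
def sizeL2 (c : Cst2) (l : List ℕ) : ℕ := l.headD 0 + parseM c.k l + c.n0

/-- the answer with a padding of length `B`; `none` if the padding is too short -/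
def main2 (c : Cst2) (l : List ℕ) (B : ℕ) : Option Bool :=
  match (List.range B).find? (fun r => decide (sizeL2 c l ≤ r ^ (4 * c.q))) with
  | none => none
  | some r => if c.C * r ^ 4 < Nat.size B then
      some (runL2 c (min (l.headD 0) B) (parseC c.k l) (sizeL2 c l) (min r B) B)
    else none

end Vale.Agent.P325.V2.Alg2
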