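import Vale.Agent.P325.V2.Alg2
import Vale.Agent.P325.AlgPT3
import Vale.Agent.Lib.PCP.PT.Arith

/-!
# The algorithm with levels is computable in polynomial time
-/

namespace Vale.Agent.P325.V2.AlgPT

open Vale.Agent.Lib.PolyTime Vale.Agent.P325.Alg Vale.Agent.P325.AlgPT Vale.Agent.P325.AlgPT3
  Vale.Agent.P325.V2.Alg2 Function

variable {A : Set Word} {α : Type*} [Enc α]

section Leaf

variable {H k N M Q T S' S B c s u i j w n w0 Bq m : α → ℕ} {E Eh : α → List (ℕ × ℕ)}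
variable {C : α → Cons} {F D Fh Dh h psi x y l G G' : α → List ℕ} {p o : α → List ℕ × List ℕ}
variable {acc : α → AccL}

theorem pt_heavyL (hN : PT A N) (hNb : PBd N) (hD : PT A D) (hw : PT A w) (hn : PT A n) :
    PT A (fun a => heavyL (N a) (D a) (w a) (n a)) := by
  unfold heavyL
  refine pt_sumR (f := fun a v => if 0 < gt (D a) v ∧ w a ≤ n a ^ 2 * gt (D a) v then gt (D a) v
    else 0) hN hNb ?_
  have h1 : PT A (fun q : α × ℕ => gt (D q.1) q.2) := pt_gt (ptl hD) PT.snd'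
  exact PT.ite (PT.decide_and (PT.lt (PT.const 0) h1)
    (PT.le (ptl hw) (PT.mul (PT.powConst (ptl hn) 2) h1))) h1 (PT.const 0)

theorem pt_diffL (hk : PT A k) (hp : PT A p) (hu : PT A u) (hi : PT A i) (hj : PT A j) :
    PT A (fun a => diffL (k a) (p a) (u a) (i a) (j a)) := by
  unfold diffL
  have e1 : PT A (fun a => i a + k a * u a) := PT.add hi (PT.mul hk hu)
  have e2 : PT A (fun a => j a + k a * u a) := PT.add hj (PT.mul hk hu)
  exact PT.sub (PT.add (pt_gt hp.fst e1) (pt_gt hp.snd e2))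
    (PT.add (pt_gt hp.fst e2) (pt_gt hp.snd e1))

theorem pt_marginAt (hk : PT A k) (hkb : PBd k) (hB : PT A Bq) (hw : PT A w0) (hp : PT A p)
    (hu : PT A u) (hi : PT A i) :
    PT A (fun a => marginAt (k a) (Bq a) (w0 a) (p a) (u a) (i a)) := by
  unfold marginAt
  refine pt_foldMin (PT.map (f := fun a j => if j = i a then Bq a else
    2 * w0 a * diffL (k a) (p a) (u a) (i a) j) (PT.range hk hkb) ?_) hB
  exact PT.ite (PT.eqNat PT.snd' (ptl hi)) (ptl hB) (PT.mul (PT.mul (PT.const 2) (ptl hw))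
    (pt_diffL (ptl hk) (ptl hp) (ptl hu) (ptl hi) PT.snd'))

theorem pt_marginL (hk : PT A k) (hkb : PBd k) (hN : PT A N) (hNb : PBd N) (hB : PT A Bq)
    (hw : PT A w0) (hp : PT A p) (hl : PT A l) :
    PT A (fun a => marginL (k a) (N a) (Bq a) (w0 a) (p a) (l a)) := by
  unfold marginL
  exact pt_tab (f := fun a u => marginAt (k a) (Bq a) (w0 a) (p a) u (gt (l a) u)) hN hNb
    (pt_marginAt (ptl hk) (pbl hkb) (ptl hB) (ptl hw) (ptl hp) PT.snd'
      (pt_gt (ptl hl) PT.snd'))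

theorem pt_outL (hk : PT A k) (hkb : PBd k) (hN : PT A N) (hNb : PBd N) (hB : PT A Bq)
    (hw : PT A w0) (hp : PT A p) :
    PT A (fun a => outL (k a) (N a) (Bq a) (w0 a) (p a)) :=
  PT.pair (pt_labelL hk hkb hN hNb hp)
    (pt_marginL hk hkb hN hNb hB hw hp (pt_labelL hk hkb hN hNb hp))

theorem pt_scoresL (hk : PT A k) (hkb : PBd k) (hN : PT A N) (hNb : PBd N) (hE : PT A E)
    (hF : PT A F) (hD : PT A D) (hQ : PT A Q) (hT : PT A T) (hTb : PBd T) (hS1 : PT A S')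
    (hS1b : PBd S') (hS : PT A S) (hSb : PBd S) (hc : PT A c) :
    PT A (fun a => scoresL (k a) (N a) (E a) (F a) (D a) (Q a) (T a) (S' a) (S a) (c a)) := by
  unfold scoresL
  have hM : PT A (fun a => N a * k a) := PT.mul hN hk
  have hMb : PBd (fun a => N a * k a) := PBd.mul hNb hkb
  have hpsi := pt_psiL hM hMb hD hQ hS hSb hc
  exact pt_scoreL hM hMb hQ hT hTb hS1 hS1b hpsi
    (pt_filtL hM hMb hE hF hD hQ hT hTb hS1 hS1b hpsi)

theorem pt_denL (hQ : PT A Q) (hT : PT A T) (hTb : PBd T) (hS1 : PT A S') (hS1b : PBd S')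
    (hS : PT A S) : PT A (fun a => denL (Q a) (T a) (S' a) (S a)) := by
  unfold denL
  exact PT.mul hS (PT.pow hQ (PT.add (PT.mul hT hS1) (PT.const 1))
    ((hTb.mul hS1b).add (PBd.const 1)))

theorem pt_certOutL (hk : PT A k) (hkb : PBd k) (hN : PT A N) (hNb : PBd N) (hw : PT A w0)
    (hE : PT A E) (hF : PT A F) (hD : PT A D) (hQ : PT A Q) (hT : PT A T) (hTb : PBd T)
    (hS1 : PT A S') (hS1b : PBd S') (hS : PT A S) (hSb : PBd S) (hc : PT A c) :
    PT A (fun a => certOutL (k a) (N a) (w0 a) (E a) (F a) (D a) (Q a) (T a) (S' a) (S a)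
      (c a)) :=
  pt_outL hk hkb hN hNb (pt_denL hQ hT hTb hS1 hS1b hS) hw
    (pt_scoresL hk hkb hN hNb hE hF hD hQ hT hTb hS1 hS1b hS hSb hc)

theorem pt_viol2L (hC : PT A C) (hF : PT A F) (hx : PT A x) (hy : PT A y) :
    PT A (fun a => viol2L (C a) (F a) (x a) (y a)) := by
  unfold viol2L
  refine PT.sum (PT.map (f := fun a (c : ℕ × ℕ × List ℕ) =>
    if gt (x a) c.2.1 = gt c.2.2 (gt (x a) c.1) then 0
    else gt (F a) c.1 * gt (F a) c.2.1 * (gt (y a) c.1 * gt (y a) c.2.1)) hC ?_)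
  exact PT.ite (PT.eqNat (pt_gt (ptl hx) PT.snd'.snd.fst)
    (pt_gt PT.snd'.snd.snd (pt_gt (ptl hx) PT.snd'.fst))) (PT.const 0)
    (PT.mul (PT.mul (pt_gt (ptl hF) PT.snd'.fst) (pt_gt (ptl hF) PT.snd'.snd.fst))
      (PT.mul (pt_gt (ptl hy) PT.snd'.fst) (pt_gt (ptl hy) PT.snd'.snd.fst)))

theorem pt_objL (hH : PT A H) (hN : PT A N) (hNb : PBd N) (hC : PT A C) (hF : PT A F)
    (hD : PT A D) (hB : PT A Bq) (ho : PT A o) :
    PT A (fun a => objL (H a) (N a) (C a) (F a) (D a) (Bq a) (o a)) := by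
  unfold objL
  refine PT.add (PT.mul hH (PT.add (pt_energyL (pt_baseL hC) hF ho.snd)
    (PT.mul (PT.const 4) (pt_viol2L hC hF ho.fst ho.snd)))) ?_
  exact pt_sumR (f := fun a u => gt (D a) u * (Bq a ^ 2 - gt (o a).2 u ^ 2)) hN hNb
    (PT.mul (pt_gt (ptl hD) PT.snd') (PT.sub (PT.powConst (ptl hB) 2)
      (PT.powConst (pt_gt (ptl ho.snd) PT.snd') 2)))

theorem pt_certObjL (hH : PT A H) (hk : PT A k) (hkb : PBd k) (hN : PT A N) (hNb : PBd N)
    (hw : PT A w0) (hC : PT A C) (hF : PT A F) (hD : PT A D) (hE : PT A Eh) (hFh : PT A Fh)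
    (hDh : PT A Dh) (hQ : PT A Q) (hT : PT A T) (hTb : PBd T)
    (hS1 : PT A S') (hS1b : PBd S') (hS : PT A S) (hSb : PBd S) (hc : PT A c) :
    PT A (fun a => certObjL (H a) (k a) (N a) (w0 a) (C a) (F a) (D a) (Eh a) (Fh a) (Dh a) (Q a)
      (T a) (S' a) (S a) (c a)) :=
  pt_objL hH hN hNb hC hF hD (pt_denL hQ hT hTb hS1 hS1b hS)
    (pt_certOutL hk hkb hN hNb hw hE hFh hDh hQ hT hTb hS1 hS1b hS hSb hc)

theorem pt_minObjL (hH : PT A H) (hk : PT A k) (hkb : PBd k) (hN : PT A N) (hNb : PBd N)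
    (hw : PT A w0) (hC : PT A C) (hF : PT A F) (hD : PT A D) (hE : PT A Eh) (hFh : PT A Fh)
    (hDh : PT A Dh) (hQ : PT A Q) (hT : PT A T) (hTb : PBd T)
    (hS1 : PT A S') (hS1b : PBd S') (hS : PT A S) (hSb : PBd S) (hB : PT A B) (hBb : PBd B) :
    PT A (fun a => minObjL (H a) (k a) (N a) (w0 a) (C a) (F a) (D a) (Eh a) (Fh a) (Dh a) (Q a)
      (T a) (S' a) (S a) (B a)) := by
  unfold minObjL
  refine pt_foldMin (PT.map (f := fun a c => certObjL (H a) (k a) (N a) (w0 a) (C a) (F a) (D a)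
    (Eh a) (Fh a) (Dh a) (Q a) (T a) (S' a) (S a) c) (PT.range hB hBb) ?_)
    (pt_certObjL hH hk hkb hN hNb hw hC hF hD hE hFh hDh hQ hT hTb hS1 hS1b hS hSb (PT.const 0))
  exact pt_certObjL (ptl hH) (ptl hk) (pbl hkb) (ptl hN) (pbl hNb) (ptl hw) (ptl hC) (ptl hF)
    (ptl hD) (ptl hE) (ptl hFh) (ptl hDh) (ptl hQ) (ptl hT) (pbl hTb) (ptl hS1) (pbl hS1b)
    (ptl hS) (pbl hSb) PT.snd'

theorem pt_bestCertL (hH : PT A H) (hk : PT A k) (hkb : PBd k) (hN : PT A N) (hNb : PBd N)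
    (hw : PT A w0) (hC : PT A C) (hF : PT A F) (hD : PT A D) (hE : PT A Eh) (hFh : PT A Fh)
    (hDh : PT A Dh) (hQ : PT A Q) (hT : PT A T) (hTb : PBd T)
    (hS1 : PT A S') (hS1b : PBd S') (hS : PT A S) (hSb : PBd S) (hB : PT A B) (hBb : PBd B)
    (hm : PT A m) :
    PT A (fun a => bestCertL (H a) (k a) (N a) (w0 a) (C a) (F a) (D a) (Eh a) (Fh a) (Dh a) (Q a)
      (T a) (S' a) (S a) (B a) (m a)) := by
  unfold bestCertL
  refine PT.optGetD (PT.find? (f := fun a c => decide (certObjL (H a) (k a) (N a) (w0 a) (C a)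
    (F a) (D a) (Eh a) (Fh a) (Dh a) (Q a) (T a) (S' a) (S a) c ≤ m a)) (PT.range hB hBb) ?_)
    (PT.const 0)
  exact PT.le (pt_certObjL (ptl hH) (ptl hk) (pbl hkb) (ptl hN) (pbl hNb) (ptl hw) (ptl hC)
    (ptl hF) (ptl hD) (ptl hE) (ptl hFh) (ptl hDh) (ptl hQ) (ptl hT) (pbl hTb) (ptl hS1)
    (pbl hS1b) (ptl hS) (pbl hSb) PT.snd') (ptl hm)

theorem pt_bestOutL (hH : PT A H) (hk : PT A k) (hkb : PBd k) (hN : PT A N) (hNb : PBd N)
    (hw : PT A w0) (hC : PT A C) (hF : PT A F) (hD : PT A D) (hE : PT A Eh) (hFh : PT A Fh)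
    (hDh : PT A Dh) (hQ : PT A Q) (hT : PT A T) (hTb : PBd T)
    (hS1 : PT A S') (hS1b : PBd S') (hS : PT A S) (hSb : PBd S) (hB : PT A B) (hBb : PBd B) :
    PT A (fun a => bestOutL (H a) (k a) (N a) (w0 a) (C a) (F a) (D a) (Eh a) (Fh a) (Dh a) (Q a)
      (T a) (S' a) (S a) (B a)) :=
  pt_certOutL hk hkb hN hNb hw hE hFh hDh hQ hT hTb hS1 hS1b hS hSb
    (pt_bestCertL hH hk hkb hN hNb hw hC hF hD hE hFh hDh hQ hT hTb hS1 hS1b hS hSb hB hBb
      (pt_minObjL hH hk hkb hN hNb hw hC hF hD hE hFh hDh hQ hT hTb hS1 hS1b hS hSb hB hBb))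

theorem pt_tvL (hE : PT A E) (hG : PT A G) : PT A (fun a => tvL (E a) (G a)) := by
  unfold tvL
  have h1 : PT A (fun q : α × (ℕ × ℕ) => gt (G q.1) q.2.1 ^ 2) :=
    PT.powConst (pt_gt (ptl hG) PT.snd'.fst) 2
  have h2 : PT A (fun q : α × (ℕ × ℕ) => gt (G q.1) q.2.2 ^ 2) :=
    PT.powConst (pt_gt (ptl hG) PT.snd'.snd) 2
  exact PT.sum (PT.map (f := fun a (e : ℕ × ℕ) => (gt (G a) e.1 ^ 2 - gt (G a) e.2 ^ 2) +
    (gt (G a) e.2 ^ 2 - gt (G a) e.1 ^ 2)) hE (PT.add (PT.sub h1 h2) (PT.sub h2 h1)))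

theorem pt_accL (hN : PT A N) (hNb : PBd N) (hC : PT A C) (hF : PT A F) (hx : PT A x)
    (hG : PT A G) (hG' : PT A G') (hacc : PT A acc) :
    PT A (fun a => accL (N a) (C a) (F a) (x a) (G a) (G' a) (acc a)) := by
  unfold accL
  refine PT.pair ?_ (PT.pair ?_ (PT.pair ?_ ?_))
  · exact pt_tab (f := fun a u => gt (acc a).1 u + gt (G a) u ^ 2) hN hNb
      (PT.add (pt_gt (ptl hacc.fst) PT.snd') (PT.powConst (pt_gt (ptl hG) PT.snd') 2))
  · exact pt_tab (f := fun a u => gt (acc a).2.1 u + (gt (F a) u ^ 2 - gt (G' a) u ^ 2)) hN hNb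
      (PT.add (pt_gt (ptl hacc.snd.fst) PT.snd') (PT.sub
        (PT.powConst (pt_gt (ptl hF) PT.snd') 2) (PT.powConst (pt_gt (ptl hG') PT.snd') 2)))
  · exact PT.add hacc.snd.snd.fst (pt_tvL (pt_baseL hC) hG)
  · exact PT.add hacc.snd.snd.snd (pt_costL hC hG hx)

theorem pt_leafFin (hN : PT A N) (hNb : PBd N) (hC : PT A C) (hF : PT A F) (ho : PT A o)
    (hB : PT A Bq) (hacc : PT A acc) :
    PT A (fun a => leafFin (N a) (C a) (F a) (o a) (Bq a) (acc a)) :=
  pt_accL hN hNb hC hF ho.fst (pt_childLL hN hNb hF ho.snd hB) (pt_childRL hN hNb hF ho.snd hB)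
    hacc

theorem pt_leafG (hH : PT A H) (hk : PT A k) (hkb : PBd k) (hN : PT A N) (hNb : PBd N)
    (hC : PT A C) (hF : PT A F) (hD : PT A D) (hn : PT A n) (hT : PT A T) (hTb : PBd T)
    (hS1 : PT A S') (hS1b : PBd S') (hS : PT A S) (hSb : PBd S) (hB : PT A B) (hBb : PBd B)
    (hE : PT A Eh) (hFh : PT A Fh) (hDh : PT A Dh) (hQ : PT A Q) (hacc : PT A acc) :
    PT A (fun a => leafG (H a) (k a) (N a) (C a) (F a) (D a) (n a) (T a) (S' a) (S a) (B a)
      (Eh a) (Fh a) (Dh a) (Q a) (acc a)) :=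
  pt_leafFin hN hNb hC hF (pt_bestOutL hH hk hkb hN hNb (pt_heavyL hN hNb hD (PT.sum hD) hn)
    hC hF hD hE hFh hDh hQ hT hTb hS1 hS1b hS hSb hB hBb) (pt_denL hQ hT hTb hS1 hS1b hS) hacc

theorem pt_leafL2 (hH : PT A H) (hk : PT A k) (hkb : PBd k) (hN : PT A N) (hNb : PBd N)
    (hC : PT A C) (hF : PT A F) (hD : PT A D) (hn : PT A n) (hT : PT A T) (hTb : PBd T)
    (hS1 : PT A S') (hS1b : PBd S') (hS : PT A S) (hSb : PBd S) (hB : PT A B) (hBb : PBd B)
    (hacc : PT A acc) :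
    PT A (fun a => leafL2 (H a) (k a) (N a) (C a) (F a) (D a) (n a) (T a) (S' a) (S a) (B a)
      (acc a)) := by
  have hE := pt_liftL hk hkb hC
  have hh := pt_hatL hk hkb hN hNb hF
  have hDh := pt_degL (PT.mul hN hk) (PBd.mul hNb hkb) hE hh
  exact pt_leafG hH hk hkb hN hNb hC hF hD hn hT hTb hS1 hS1b hS hSb hB hBb hE hh hDh
    (pt_QpL hDh) hacc

end Leaf

/-! ### Bounds -/

theorem sq_le {x β : ℕ} (h : x ≤ β) : x ^ 2 ≤ β * β := by
  rw [pow_two]
  exact Nat.mul_le_mul h h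

theorem tvL_le {E : List (ℕ × ℕ)} {G : List ℕ} {β : ℕ} (h : ∀ y ∈ G, y ≤ β) :
    tvL E G ≤ E.length * (2 * (β * β)) := by
  unfold tvL
  refine (sum_le_of_le (β := 2 * (β * β)) fun y hy => ?_).trans (by rw [List.length_map])
  obtain ⟨e, -, rfl⟩ := List.mem_map.1 hy
  have h1 := sq_le (getD_le h e.1)
  have h2 := sq_le (getD_le h e.2)
  omega

/-- bounds for the accumulated data -/
def AccOk (Λ V : ℕ) (acc : AccL) : Prop :=
  (acc.1.length ≤ Λ ∧ ∀ y ∈ acc.1, y ≤ V) ∧ (acc.2.1.length ≤ Λ ∧ ∀ y ∈ acc.2.1, y ≤ V) ∧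
    acc.2.2.1 ≤ V ∧ acc.2.2.2 ≤ V

theorem AccOk.mono {Λ V V' : ℕ} {acc : AccL} (h : AccOk Λ V acc) (hV : V ≤ V') :
    AccOk Λ V' acc :=
  ⟨⟨h.1.1, fun y hy => (h.1.2 y hy).trans hV⟩, ⟨h.2.1.1, fun y hy => (h.2.1.2 y hy).trans hV⟩,
    h.2.2.1.trans hV, h.2.2.2.trans hV⟩

theorem AccOk.acc {N Λ V W β : ℕ} {C : Cons} {F a G G' : List ℕ} {acc : AccL}
    (h : AccOk Λ V acc) (hN : N ≤ Λ) (hF : ∀ y ∈ F, y ≤ β) (hG : ∀ y ∈ G, y ≤ β)
    (hW : β * β ≤ W) (hW' : C.length * (2 * (β * β)) ≤ W) :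
    AccOk Λ (V + W) (accL N C F a G G' acc) := by
  obtain ⟨⟨-, h2⟩, ⟨-, h4⟩, h5, h6⟩ := h
  refine ⟨⟨by simpa [accL] using (length_tab3 N _).le.trans hN, ?_⟩,
    ⟨by simpa [accL] using (length_tab3 N _).le.trans hN, ?_⟩, ?_, ?_⟩
  · refine tab_le fun x => add_le_add (getD_le h2 x) ((sq_le (getD_le hG x)).trans hW)
  · refine tab_le fun x => add_le_add (getD_le h4 x) ?_
    exact (Nat.sub_le _ _).trans ((sq_le (getD_le hF x)).trans hW)
  · refine add_le_add h5 ((tvL_le hG).trans ?_)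
    have : (baseL C).length = C.length := by simp [baseL]
    rw [this]
    exact hW'
  · refine add_le_add h6 ((costL_le hG).trans (le_trans ?_ hW'))
    exact Nat.mul_le_mul_left _ (by omega)

theorem AccOk.leaf {H k N Λ V W β n T S' S B : ℕ} {C : Cons} {F D : List ℕ} {acc : AccL}
    (h : AccOk Λ V acc) (hN : N ≤ Λ) (hF : ∀ y ∈ F, y ≤ β)
    (hW : β * β ≤ W) (hW' : C.length * (2 * (β * β)) ≤ W) :
    AccOk Λ (V + W) (leafL2 H k N C F D n T S' S B acc) := by
  unfold leafL2 leafG leafFin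
  exact h.acc hN hF (childLL_le3 hF) hW hW'

/-- the size invariant of the loop -/
def Inv2 (Λ β W V i : ℕ) (s : StL2) : Prop :=
  s.1.length ≤ i + 1 ∧ (∀ nd ∈ s.1, nd.1.length ≤ Λ ∧ (∀ y ∈ nd.1, y ≤ β) ∧ nd.2.1 ≤ W ∧
    nd.2.2 ≤ i) ∧ AccOk Λ (V + i * W) s.2

theorem Inv2.loop {H k N Λ : ℕ} {C : Cons} {P : Alg.Num} {β W V i : ℕ} {s : StL2} (hN : N ≤ Λ)
    (hW : N * (β * (C.length * (2 * (2 * β)))) ≤ W) (hW1 : β * β ≤ W)
    (hW2 : C.length * (2 * (β * β)) ≤ W)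
    (h : Inv2 Λ β W V i s) : Inv2 Λ β W V (i + 1) (loopL2 H k N C P s) := by
  obtain ⟨l, acc⟩ := s
  obtain ⟨h1, h2, h3⟩ := h
  have e1 : V + i * W ≤ V + (i + 1) * W := by
    rw [add_mul, one_mul]; omega
  unfold loopL2
  rcases l with _ | ⟨nd, rest⟩
  · exact ⟨by simp, by simp, h3.mono e1⟩
  · dsimp only at h1 h2 h3 ⊢
    have hnd := h2 nd List.mem_cons_self
    have hrest : ∀ nd ∈ rest, nd.1.length ≤ Λ ∧ (∀ y ∈ nd.1, y ≤ β) ∧ nd.2.1 ≤ W ∧
        nd.2.2 ≤ i + 1 := by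
      intro x hx
      obtain ⟨a1, a2, a3, a4⟩ := h2 x (List.mem_cons_of_mem _ hx)
      exact ⟨a1, a2, a3, a4.trans (Nat.le_succ _)⟩
    rw [List.length_cons] at h1
    have hb : (baseL C).length = C.length := by simp [baseL]
    have hs := fun F (hF : ∀ y ∈ F, y ≤ β) => (degL_sum_le (N := N) (E := baseL C) (F := F) hF)
    rw [hb] at hs
    unfold treatL2
    split_ifs with hc
    · exact ⟨by dsimp only; omega, hrest, h3.mono e1⟩
    · rcases findL N (baseL C) nd.1 (degL N (baseL C) nd.1) (QpL (degL N (baseL C) nd.1))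
        P.n P.L P.r P.R P.T (degL N (baseL C) nd.1).sum with _ | p
      · refine ⟨by dsimp only; omega, hrest, ?_⟩
        dsimp only
        rw [add_mul, one_mul, ← add_assoc]
        exact h3.leaf hN hnd.2.1 hW1 hW2
      · dsimp only
        refine ⟨?_, ?_, h3.mono e1⟩
        · simp only [splitL, List.length_cons]
          omega
        · intro x hx
          simp only [splitL, List.mem_cons] at hx
          rcases hx with rfl | rfl | hx
          · exact ⟨(length_tab3 _ _).le.trans hN, childRL_le3 hnd.2.1, hnd.2.2.1,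
              hnd.2.2.2.trans (Nat.le_succ _)⟩
          · refine ⟨(length_tab3 _ _).le.trans hN, childLL_le3 hnd.2.1,
              (hs _ (childLL_le3 hnd.2.1)).trans hW, ?_⟩
            exact Nat.add_le_add_right hnd.2.2.2 1
          · exact hrest x hx

theorem Inv2.iter {H k N Λ : ℕ} {C : Cons} {P : Alg.Num} {β W V : ℕ} {h S : List ℕ} {aT aV : ℕ}
    (hN : N ≤ Λ) (hhΛ : h.length ≤ Λ) (hSΛ : S.length ≤ Λ)
    (hW : N * (β * (C.length * (2 * (2 * β)))) ≤ W) (hW1 : β * β ≤ W)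
    (hW2 : C.length * (2 * (β * β)) ≤ W) (hh : ∀ y ∈ h, y ≤ β) (hS : ∀ y ∈ S, y ≤ V)
    (haT : aT ≤ V) (haV : aV ≤ V) (i : ℕ) :
    Inv2 Λ β W V i ((loopL2 H k N C P)^[i] (initL2 N C h S aT aV)) := by
  induction i with
  | zero =>
    have hb : (baseL C).length = C.length := by simp [baseL]
    refine ⟨by simp [initL2], ?_, ?_⟩
    · intro nd hnd
      simp only [iterate_zero, id_eq, initL2, List.mem_singleton] at hnd
      subst hnd
      refine ⟨hhΛ, hh, ?_, le_rfl⟩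
      have := degL_sum_le (N := N) (E := baseL C) hh
      rw [hb] at this
      exact this.trans hW
    · rw [zero_mul, add_zero]
      refine ⟨⟨hSΛ, hS⟩, ⟨(length_tab3 _ _).le.trans hN, tab_le fun _ => Nat.zero_le _⟩,
        haT, haV⟩
  | succ i ih =>
    rw [iterate_succ_apply']
    exact ih.loop hN hW hW1 hW2

/-- bound for the size of a state -/
theorem Inv2.esize_le {Λ β W V i c : ℕ} {s : StL2} (h : Inv2 Λ β W V i s) (hβ : β < 2 ^ c)
    (hV : V + i * W < 2 ^ c) (hWc : W < 2 ^ c) :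
    esize s ≤ 2 * ((i + 1) * (2 * (2 * (Λ * (2 * c + 1)) + (2 * c + i + 1) + 1) + 1)) +
      (2 * (Λ * (2 * c + 1)) + (2 * (Λ * (2 * c + 1)) + (2 * c + c + 1) + 1) + 1) + 1 := by
  obtain ⟨l, S, S2, aT, aV⟩ := s
  obtain ⟨h1, h2, ⟨h3, h4⟩, ⟨h5, h6⟩, h7, h8⟩ := h
  rw [esize_pair, esize_pair, esize_pair, esize_pair]
  dsimp only at h1 h2 h3 h4 h5 h6 h7 h8
  have e1 : esize aT ≤ c := esize_nat_le (h7.trans_lt hV)
  have e2 : esize aV ≤ c := esize_nat_le (h8.trans_lt hV)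
  have e3 : esize l ≤ l.length * (2 * (2 * (Λ * (2 * c + 1)) + (2 * c + i + 1) + 1) + 1) := by
    refine esize_list_le fun nd hnd => ?_
    obtain ⟨F, wh, j⟩ := nd
    obtain ⟨a1, a2, a3, a4⟩ := h2 _ hnd
    dsimp only at a1 a2 a3 a4
    rw [esize_pair, esize_pair]
    have f1 : esize F ≤ Λ * (2 * c + 1) :=
      (esize_list_le fun y hy => esize_nat_le ((a2 y hy).trans_lt hβ)).trans
        (Nat.mul_le_mul_right _ a1)
    have f2 : esize wh ≤ c := esize_nat_le (a3.trans_lt hWc)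
    have f3 : esize j ≤ i := (esize_nat_le_self j).trans a4
    omega
  have e4 := e3.trans (Nat.mul_le_mul_right _ h1)
  have e5 : esize S ≤ Λ * (2 * c + 1) :=
    (esize_list_le fun y hy => esize_nat_le ((h4 y hy).trans_lt hV)).trans
      (Nat.mul_le_mul_right _ h3)
  have e6 : esize S2 ≤ Λ * (2 * c + 1) :=
    (esize_list_le fun y hy => esize_nat_le ((h6 y hy).trans_lt hV)).trans
      (Nat.mul_le_mul_right _ h5)
  omega

/-! ### A level in polynomial time -/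

section Level

variable {H k N aT aV : α → ℕ} {C : α → Cons} {P : α → Alg.Num} {nd : α → NodeL}
  {rest : α → List NodeL} {D h S : α → List ℕ} {acc : α → AccL}

theorem PT_treatL2 (hH : PT A H) (hk : PT A k) (hkb : PBd k) (hN : PT A N)
    (hNb : PBd N) (hC : PT A C) (hP : PTNum A P) (hnd : PT A nd) (hrest : PT A rest)
    (hacc : PT A acc) (hD : PT A D) :
    PT A fun a => treatL2 (H a) (k a) (N a) (C a) (P a) (nd a) (rest a) (acc a) (D a) := by
  have hE := pt_baseL hC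
  have hF : PT A fun a => (nd a).1 := hnd.fst
  have hQ := pt_QpL hD
  have hw := PT.sum hD
  have hfind := pt_findL hN hNb hE hF hD hQ hP.n hP.L hP.r hP.R hP.T hP.Tb hw
  have hleaf := pt_leafL2 hH hk hkb hN hNb hC hF hD hP.n hP.T hP.Tb hP.S' hP.S'b hP.S hP.Sb hP.B
    hP.Bb hacc
  unfold treatL2
  refine PT.ite (PT.decide_or (PT.le hP.J hnd.snd.snd)
    (PT.lt (PT.mul hw hP.n) hnd.snd.fst)) (hrest.pair hacc) ?_
  refine (PT.optCase (g := fun a p => (splitL (N a) (baseL (C a)) (nd a).1 (nd a).2.1 (nd a).2.2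
    (rest a) (bumpL (N a) (baseL (C a)) (nd a).1 (D a) (QpL (D a)) p.1 (min p.2 (P a).T)),
    acc a)) hfind (hrest.pair hleaf) ?_).congr
    fun a => ?_
  rotate_left
  · rcases findL (N a) (baseL (C a)) (nd a).1 (D a) (QpL (D a)) (P a).n (P a).L (P a).r (P a).R
      (P a).T (D a).sum with _ | p <;> rfl
  have hc := PT.fst' (A := A) (α := α) (β := ℕ × ℕ)
  have hmin : PT A fun p : α × ℕ × ℕ => min p.2.2 (P p.1).T :=
    PT.min PT.snd'.snd (hP.T.comp hc)
  have hminb : PBd fun p : α × ℕ × ℕ => min p.2.2 (P p.1).T :=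
    (hP.Tb.comp hc).mono fun _ => min_le_right _ _
  refine PT.pair (PT_splitL (hN.comp hc) (hNb.comp hc) (hE.comp hc) (hF.comp hc)
    (hnd.snd.fst.comp hc) (hnd.snd.snd.comp hc) (hrest.comp hc) ?_) (hacc.comp hc)
  exact pt_bumpL (hN.comp hc) (hNb.comp hc) (hE.comp hc) (hF.comp hc) (hD.comp hc) (hQ.comp hc)
    PT.snd'.fst hmin hminb

theorem PT_loopL2 {s : α → StL2} (hH : PT A H) (hk : PT A k)
    (hkb : PBd k) (hN : PT A N) (hNb : PBd N) (hC : PT A C) (hP : PTNum A P) (hs : PT A s) :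
    PT A fun a => loopL2 (H a) (k a) (N a) (C a) (P a) (s a) := by
  have hc := PT.fst' (A := A) (α := α) (β := NodeL × List NodeL)
  have hN' : PBd fun p : α × NodeL × List NodeL => N p.1 := hNb.comp hc
  refine (PT.listCase (g := fun a nd rest => treatL2 (H a) (k a) (N a) (C a) (P a) nd rest (s a).2
    (degL (N a) (baseL (C a)) nd.1)) hs.fst hs
    (PT_treatL2 (hH.comp hc) (hk.comp hc) (hkb.comp hc) (hN.comp hc) hN' (hC.comp hc)
      (hP.comp hc) PT.snd'.fst PT.snd'.snd (hs.snd.comp hc)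
      (pt_degL (hN.comp hc) hN' (pt_baseL (hC.comp hc)) PT.snd'.fst.fst))).congr fun a => ?_
  unfold loopL2
  rcases (s a).1 with _ | ⟨nd, rest⟩ <;> rfl

theorem PT_initL2 (hN : PT A N) (hNb : PBd N) (hC : PT A C) (hh : PT A h) (hS : PT A S)
    (haT : PT A aT) (haV : PT A aV) :
    PT A fun a => initL2 (N a) (C a) (h a) (S a) (aT a) (aV a) := by
  unfold initL2
  exact (PT.cons (hh.pair ((PT.sum (pt_degL hN hNb (pt_baseL hC) hh)).pair (PT.const 0)))
    PT.nil).pair (hS.pair ((PT_tab_const hN hNb (PT.const 0)).pair (haT.pair haV)))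

theorem mem_lt_two_pow {l : List ℕ} {y : ℕ} (h : y ∈ l) : y ≤ 2 ^ esize l :=
  (lt_two_pow_esize y).le.trans (Nat.pow_le_pow_right (by norm_num) (esize_le_of_mem h))

theorem PT_iter_loopL2 (hH : PT A H) (hk : PT A k)
    (hkb : PBd k) (hN : PT A N) (hNb : PBd N) (hC : PT A C) (hP : PTNum A P) (hh : PT A h)
    (hS : PT A S) (haT : PT A aT) (haV : PT A aV) :
    PT A fun a => (loopL2 (H a) (k a) (N a) (C a) (P a))^[(P a).B]
      (initL2 (N a) (C a) (h a) (S a) (aT a) (aV a)) := by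
  have hCl := PBd.length hC
  have hhb := hh.pbd
  have hSb := hS.pbd
  have haTb := haT.pbd
  have haVb := haV.pbd
  have hBb := hP.Bb
  have hhl := PBd.length hh
  have hSl := PBd.length hS
  -- the bounds `2 ^ c` for all numbers, `Λ` for the lengths
  set v : α → ℕ := fun a => esize (S a) + esize (aT a) + esize (aV a) with hvdef
  have hvb : PBd v := by
    simp only [hvdef]
    fun_prop
  set b : α → ℕ := fun a => esize (h a) with hbdef
  have hbb : PBd b := hhb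
  set e : α → ℕ := fun a => N a + (b a + (C a).length + 3 + b a) + 1 with hedef
  have heb : PBd e := by
    simp only [hedef]
    fun_prop
  set c : α → ℕ := fun a => v a + (P a).B + e a + 1 with hcdef
  have hcb : PBd c := by
    simp only [hcdef]
    fun_prop
  set Λ : α → ℕ := fun a => N a + (h a).length + (S a).length with hΛdef
  have hΛb : PBd Λ := by
    simp only [hΛdef]
    fun_prop
  set bd : α → ℕ := fun a => 2 * (((P a).B + 1) * (2 * (2 * (Λ a * (2 * c a + 1)) +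
    (2 * c a + (P a).B + 1) + 1) + 1)) + (2 * (Λ a * (2 * c a + 1)) + (2 * (Λ a * (2 * c a + 1)) +
      (2 * c a + c a + 1) + 1) + 1) + 1 with hbd
  have hbdb : PBd bd := by
    simp only [hbd]
    fun_prop
  have hc := PT.fst' (A := A) (α := α) (β := StL2)
  refine PT.iterate' (step := fun a s => loopL2 (H a) (k a) (N a) (C a) (P a) s) hP.B hP.Bb
    (PT_initL2 hN hNb hC hh hS haT haV) (PT_loopL2 (hH.comp hc) (hk.comp hc) (hkb.comp hc)
      (hN.comp hc) (hNb.comp hc) (hC.comp hc) (hP.comp hc) PT.snd') hbdb fun a j hj => ?_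
  set β : ℕ := 2 ^ b a with hβdef
  have hβ1 : 1 ≤ β := Nat.one_le_two_pow
  have hm : (C a).length < 2 ^ (C a).length := Nat.lt_two_pow_self
  have hm1 : 1 ≤ 2 ^ (C a).length := Nat.one_le_two_pow
  have hN1 : N a < 2 ^ N a := Nat.lt_two_pow_self
  have hN2 : 1 ≤ 2 ^ N a := Nat.one_le_two_pow
  set W : ℕ := 2 ^ (N a + (b a + (C a).length + 3 + b a)) with hWdef
  have hWe : W = 2 ^ N a * (β * (2 ^ (C a).length * (2 * (2 * (2 * β))))) := by
    rw [hWdef, hβdef, pow_add, pow_add, pow_add, pow_add]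
    ring
  have hbase : β * (2 ^ (C a).length * (2 * (2 * (2 * β)))) ≤ W := by
    rw [hWe]
    exact Nat.le_mul_of_pos_left _ (by positivity)
  have hW0 : N a * (β * ((C a).length * (2 * (2 * β)))) ≤ W := by
    rw [hWe]
    refine Nat.mul_le_mul hN1.le (Nat.mul_le_mul_left _ (Nat.mul_le_mul hm.le ?_))
    omega
  have hW2 : (C a).length * (2 * (β * β)) ≤ W := by
    refine le_trans ?_ hbase
    calc (C a).length * (2 * (β * β)) ≤ 2 ^ (C a).length * (2 * (β * β)) :=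
          Nat.mul_le_mul_right _ hm.le
      _ ≤ 2 ^ (C a).length * (8 * (β * β)) := Nat.mul_le_mul_left _ (by omega)
      _ = β * (2 ^ (C a).length * (2 * (2 * (2 * β)))) := by ring
  have hW1 : β * β ≤ W := by
    refine le_trans ?_ hbase
    calc β * β ≤ 1 * (8 * (β * β)) := by omega
      _ ≤ 2 ^ (C a).length * (8 * (β * β)) := Nat.mul_le_mul_right _ hm1
      _ = β * (2 ^ (C a).length * (2 * (2 * (2 * β)))) := by ring
  have hWlt : W < 2 ^ e a := by
    rw [hWdef]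
    exact Nat.pow_lt_pow_right (by norm_num) (by simp only [hedef]; omega)
  have hc1 : 2 ^ e a ≤ 2 ^ c a := Nat.pow_le_pow_right (by norm_num) (by simp only [hcdef]; omega)
  have hVle : ∀ x, x ≤ v a → 2 ^ x ≤ 2 ^ v a := fun x hx => Nat.pow_le_pow_right (by norm_num) hx
  have hc2 : 2 ^ v a + j * W < 2 ^ c a := by
    have h2 : j ≤ 2 ^ (P a).B := hj.trans Nat.lt_two_pow_self.le
    have h3 : j * W ≤ 2 ^ (P a).B * 2 ^ e a := Nat.mul_le_mul h2 hWlt.le
    have h4 : 2 ^ c a = 2 * (2 ^ v a * (2 ^ (P a).B * 2 ^ e a)) := by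
      simp only [hcdef]
      rw [pow_succ, pow_add, pow_add]
      ring
    have h5 : 1 ≤ 2 ^ v a := Nat.one_le_two_pow
    have h6 : 1 ≤ 2 ^ (P a).B := Nat.one_le_two_pow
    have h7 : 2 ≤ 2 ^ e a := by
      calc 2 = 2 ^ 1 := rfl
        _ ≤ 2 ^ e a := Nat.pow_le_pow_right (by norm_num) (by simp only [hedef]; omega)
    have h8 : 2 ≤ 2 ^ (P a).B * 2 ^ e a := by nlinarith
    set X := 2 ^ (P a).B * 2 ^ e a
    set Y := 2 ^ v a
    rw [h4]
    nlinarith
  have hβc : β < 2 ^ c a :=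
    Nat.pow_lt_pow_right (by norm_num) (by simp only [hcdef, hedef]; omega)
  have hinv : Inv2 (Λ a) β W (2 ^ v a) j
      ((loopL2 (H a) (k a) (N a) (C a) (P a))^[j] (initL2 (N a) (C a) (h a) (S a) (aT a) (aV a))) := by
    refine Inv2.iter ?_ ?_ ?_ hW0 hW1 hW2 ?_ ?_ ?_ ?_ j
    · simp only [hΛdef]; omega
    · simp only [hΛdef]; omega
    · simp only [hΛdef]; omega
    · exact fun y hy => mem_lt_two_pow hy
    · exact fun y hy => (mem_lt_two_pow hy).trans (hVle _ (by simp only [hvdef]; omega))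
    · exact (lt_two_pow_esize _).le.trans (hVle _ (by simp only [hvdef]; omega))
    · exact (lt_two_pow_esize _).le.trans (hVle _ (by simp only [hvdef]; omega))
  refine (hinv.esize_le hβc hc2 (hWlt.trans_le hc1)).trans ?_
  simp only [hbd]
  gcongr

theorem PT_finL {f : α → StL2} (hN : PT A N) (hNb : PBd N) (hh : PT A h) (hf : PT A f) :
    PT A fun a => finL (N a) (h a) (f a) := by
  unfold finL
  refine PT.pair ?_ (PT.pair hf.snd.fst (PT.pair hf.snd.snd.snd.fst hf.snd.snd.snd.snd))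
  exact pt_tab (f := fun a u => Nat.sqrt (gt (h a) u ^ 2 - gt (f a).2.2.1 u)) hN hNb
    (PT.sqrt (PT.sub (PT.powConst (pt_gt (ptl hh) PT.snd') 2)
      (pt_gt (ptl hf.snd.snd.fst) PT.snd')))

theorem PT_levelL {s : α → LvL} (hH : PT A H) (hk : PT A k)
    (hkb : PBd k) (hN : PT A N) (hNb : PBd N) (hC : PT A C) (hP : PTNum A P) (hs : PT A s) :
    PT A fun a => levelL (H a) (k a) (N a) (C a) (P a) (s a) := by
  unfold levelL
  refine PT.ite (PT.lt (PT.mul hP.n (PT.sum (pt_degL hN hNb (pt_baseL hC) hs.fst)))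
    (PT.mul (PT.mul (PT.pow (PT.const 4) hP.b hP.bb) (PT.const 4)) hC.length)) hs ?_
  exact PT_finL hN hNb hs.fst (PT_iter_loopL2 hH hk hkb hN hNb hC hP hs.fst hs.snd.fst
    hs.snd.snd.fst hs.snd.snd.snd)

end Level

/-! ### All levels -/

theorem PTNum_nums2 (c : Cst2) (i : ℕ) {n r B : α → ℕ} (hn : PT A n) (hr : PT A r)
    (hrb : PBd r) (hB : PT A B) (hBb : PBd B) :
    PTNum A fun a => nums2 c (n a) (r a) (B a) i := by
  have hs : PT A fun a => Nat.size (n a) := hn.natSize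
  have hsb := PBd_size hn
  have hR : PT A fun a => 32 * k1At c i * Nat.size (n a) := PT.mul (PT.const _) hs
  have hRb : PBd fun a => 32 * k1At c i * Nat.size (n a) := (PBd.const _).mul hsb
  exact {
    n := hn
    L := hs
    r := hr
    R := hR
    T := PT.mul (PT.mul (PT.const 4) hR) (PT.const c.cq)
    J := PT.const _
    b := PT.mul (PT.const _) hs
    S' := PT.mul (PT.const c.L0) hr
    S := PT.mul (PT.const c.CS) (PT.powConst hr 3)
    B := hB
    Tb := ((PBd.const 4).mul hRb).mul (PBd.const c.cq)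
    bb := (PBd.const _).mul hsb
    S'b := (PBd.const c.L0).mul hrb
    Sb := (PBd.const c.CS).mul (hrb.pow 3)
    Bb := hBb }

theorem PT_levels (c : Cst2) {N n r B : α → ℕ} {C : α → Cons} (hN : PT A N) (hNb : PBd N)
    (hC : PT A C) (hn : PT A n) (hr : PT A r) (hrb : PBd r) (hB : PT A B) (hBb : PBd B)
    (l : List ℕ) {s : α → LvL} (hs : PT A s) :
    PT A fun a => l.foldl (fun s i => levelL (hAt c i) c.k (N a) (C a)
      (nums2 c (n a) (r a) (B a) i) s) (s a) := by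
  induction l generalizing s with
  | nil => exact hs
  | cons i l ih =>
    simp only [List.foldl_cons]
    exact ih (PT_levelL (PT.const _) (PT.const _) (PBd.const _) hN hNb hC
      (PTNum_nums2 c i hn hr hrb hB hBb) hs)

theorem PT_acceptL2 (I : ℕ) {b : α → ℕ} {C : α → Cons} {s : α → LvL} (hb : PT A b) (hbb : PBd b)
    (hC : PT A C) (hs : PT A s) : PT A fun a => acceptL2 I (b a) (C a) (s a) := by
  unfold acceptL2
  have h4 : PT A fun a => 4 ^ b a := PT.pow (PT.const 4) hb hbb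
  refine PT.le (PT.mul (PT.const _) (PT.add (PT.add (PT.sum (PT.map
    (f := fun a (e : ℕ × ℕ) => 2 * 4 ^ b a - (gt (s a).2.1 e.1 + gt (s a).2.1 e.2))
    (pt_baseL hC) ?_)) (PT.mul (PT.const 2) hs.snd.snd.fst))
    (PT.mul (PT.const 2) hs.snd.snd.snd))) (PT.mul (PT.mul (PT.const 8) h4) hC.length)
  exact PT.sub (PT.mul (PT.const 2) (ptl h4)) (PT.add (pt_gt (ptl hs.snd.fst) PT.snd'.fst)
    (pt_gt (ptl hs.snd.fst) PT.snd'.snd))

theorem PT_runL2 (c : Cst2) {N n r B : α → ℕ} {C : α → Cons} (hN : PT A N) (hNb : PBd N)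
    (hC : PT A C) (hn : PT A n) (hr : PT A r) (hrb : PBd r) (hB : PT A B) (hBb : PBd B) :
    PT A fun a => runL2 c (N a) (C a) (n a) (r a) (B a) := by
  unfold runL2 levelsL
  have hb : PT A fun a => bAt c (n a) := PT.mul (PT.const _) hn.natSize
  have hbb : PBd fun a => bAt c (n a) := (PBd.const _).mul (PBd_size hn)
  exact PT_acceptL2 c.I hb hbb hC (PT_levels c hN hNb hC hn hr hrb hB hBb _
    ((PT_tab_const hN hNb (PT.pow (PT.const 2) hb hbb)).pair
      ((PT_tab_const hN hNb (PT.const 0)).pair ((PT.const 0).pair (PT.const 0)))))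

theorem PT_sizeL2 (c : Cst2) {l : α → List ℕ} (hl : PT A l) : PT A fun a => sizeL2 c (l a) :=
  PT.add (PT.add (hl.headD (PT.const 0)) (PT_parseM (PT.const c.k) hl)) (PT.const c.n0)

/-- **The algorithm is computable in polynomial time**, the padding counted in the input. -/
theorem PT_main2 (c : Cst2) : PT A fun s : List ℕ × Raw => main2 c s.1 s.2.w.length := by
  have hl : PT A fun s : List ℕ × Raw => s.1 := PT.fst'
  have hB : PT A fun s : List ℕ × Raw => s.2.w.length := PT.rawLength PT.snd'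
  have hBb : PBd fun s : List ℕ × Raw => s.2.w.length :=
    (PT.snd' (A := A) (α := List ℕ) (β := Raw)).pbd.mono fun s => (esize_raw s.2).ge
  have hfind : PT A fun s : List ℕ × Raw => (List.range s.2.w.length).find?
      fun r => decide (sizeL2 c s.1 ≤ r ^ (4 * c.q)) :=
    PT.find? (f := fun (s : List ℕ × Raw) r => decide (sizeL2 c s.1 ≤ r ^ (4 * c.q)))
      (PT.range hB hBb) (PT.le (PT_sizeL2 c PT.fst'.fst) (PT.powConst PT.snd' _))
  have hc := PT.fst' (A := A) (α := List ℕ × Raw) (β := ℕ)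
  have hl' : PT A fun p : (List ℕ × Raw) × ℕ => p.1.1 := hl.comp hc
  have hB' : PT A fun p : (List ℕ × Raw) × ℕ => p.1.2.w.length := hB.comp hc
  have hBb' : PBd fun p : (List ℕ × Raw) × ℕ => p.1.2.w.length := hBb.comp hc
  have hN : PT A fun p : (List ℕ × Raw) × ℕ => min (p.1.1.headD 0) p.1.2.w.length :=
    PT.min (hl'.headD (PT.const 0)) hB'
  have hNb : PBd fun p : (List ℕ × Raw) × ℕ => min (p.1.1.headD 0) p.1.2.w.length :=
    hBb'.mono fun _ => min_le_right _ _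
  have hr : PT A fun p : (List ℕ × Raw) × ℕ => min p.2 p.1.2.w.length := PT.min PT.snd' hB'
  have hrb : PBd fun p : (List ℕ × Raw) × ℕ => min p.2 p.1.2.w.length :=
    hBb'.mono fun _ => min_le_right _ _
  have hrun := PT_runL2 c hN hNb (PT_parseC (PT.const c.k) hl') (PT_sizeL2 c hl') hr hrb hB' hBb'
  refine (PT.optCase (g := fun (s : List ℕ × Raw) r => if c.C * r ^ 4 < Nat.size s.2.w.length then
      some (runL2 c (min (s.1.headD 0) s.2.w.length) (parseC c.k s.1)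
        (sizeL2 c s.1) (min r s.2.w.length) s.2.w.length) else none)
    hfind (PT.const none) (PT.ite (PT.lt (PT.mul (PT.const c.C) (PT.powConst PT.snd' 4))
      hB'.natSize) (PT.some hrun) (PT.const none))).congr fun s => ?_
  unfold main2
  rcases (List.range s.2.w.length).find? fun r => decide (sizeL2 c s.1 ≤ r ^ (4 * c.q))
    with _ | r <;> rfl

end Vale.Agent.P325.V2.AlgPT
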