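import Vale.Agent.P325.Reduction

/-!
# From an algorithm with padding to the final statement
-/

namespace Vale.Agent.P325.V2

open Vale.Agent.Lib.PolyTime Vale.Agent.P325.Alg

/-- What is used of an algorithm `main` on instances and padding lengths: it is computable in
polynomial time, it answers when the padding is long enough, and its answers are right. -/
structure Gap (k q C n0 : ℕ) (κ ε : ℝ) (main : List ℕ → ℕ → Option Bool) : Prop where
  hq : 1 ≤ q
  hn0 : 1 ≤ n0
  pt : PT ∅ (fun s : List ℕ × Raw => main s.1 s.2.w.length)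
  some : ∀ (G : Inst k) (r j : ℕ), G.size + n0 ≤ r ^ (4 * q) →
    (∀ r' < r, r' ^ (4 * q) < G.size + n0) → r ≤ G.size + n0 → C * r ^ 4 ≤ j →
    main (codeL G.cons) (2 ^ j) ≠ none
  spec : ∀ (G : Inst k) (B : ℕ) (ans : Bool), main (codeL G.cons) B = Option.some ans →
    (1 - ε ≤ G.val → ans = true) ∧ (G.val ≤ 1 - κ → ans = false)

variable {k q C n0 : ℕ} {κ ε : ℝ} {main : List ℕ → ℕ → Option Bool}

/-- the machine for the gap problem -/
theorem Gap.machine (h : Gap k q C n0 κ ε main) :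
    SolvedIn (Inst.code : Inst k → List Bool) (fun G => G.size)
      (fun G => 1 - ε ≤ G.val) (fun G => G.val ≤ 1 - κ) (1 / q) := by
  obtain ⟨M, e, hM, hM2⟩ := exists_search_tm h.pt
  obtain ⟨C2, hC2⟩ := time_le q e 4 (k + 2) C n0 h.hq
  refine ⟨M, C2, hM, fun G => ?_⟩
  obtain ⟨r, h1, h2, h3⟩ := exists_least (n := G.size + n0) h.hq
  have hne : main (codeL G.cons) (Raw.mk (pad (C * r ^ 4))).w.length ≠ none := by
    show main (codeL G.cons) (pad (C * r ^ 4)).length ≠ none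
    rw [length_pad]
    exact h.some G r _ h1 h2 h3 le_rfl
  obtain ⟨y, j, hj, hy, -, hout⟩ := hM2 (codeL G.cons) (2 ^ (C * r ^ 4)) (C * r ^ 4) le_rfl hne
  refine ⟨y, ((enc (codeL G.cons)).length + 2 ^ (C * r ^ 4) + 2) ^ e, ?_, ?_, ?_⟩
  · refine hC2 G.size _ r _ ?_ ?_ ?_ h2
    · have := List.length_pos_of_ne_nil G.ne
      unfold Inst.size
      omega
    · have := esize_codeL_le G.cons
      exact this
    · exact Nat.pow_le_pow_right (by norm_num) (Nat.le_add_right _ _)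
  · unfold Outputs
    rw [code_eq_enc]
    exact hout
  · exact h.spec G _ y hy

/-- Languages which reduce to the gap problem. -/
theorem Gap.reduction (hg : Gap k q C n0 κ ε main) (L : Set (List Bool))
    (f : List Bool → Inst k) {A b : ℝ} (hb : 0 < b)
    (hf : Nonempty (Turing.TM2ComputableInPolyTime (fun w : List Bool => w)
      (Inst.code : Inst k → List Bool) f))
    (hsize : ∀ x, ((f x).size : ℝ) ≤ A * ((x.length : ℝ) + 1) ^ b)
    (hyes : ∀ x ∈ L, 1 - ε ≤ (f x).val) (hno : ∀ x ∉ L, (f x).val ≤ 1 - κ) :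
    SolvedIn (fun x : List Bool => x) (fun x => (x.length : ℝ) + 1)
      (fun x => x ∈ L) (fun x => x ∉ L) (b * (1 / q)) := by
  have hG : PT ∅ (fun s : Raw × Raw => main (codeL (f s.1.w).cons) s.2.w.length) :=
    hg.pt.comp (((pt_of_tm2 hf).comp (PT.fst' (α := Raw) (β := Raw))).pair PT.snd')
  obtain ⟨M, e, hM, h⟩ := exists_search_tm hG
  obtain ⟨C2, hC2⟩ := time_le_real hg.hq e C n0 hg.hn0 A hb
  refine ⟨M, C2, hM, fun x => ?_⟩
  obtain ⟨r, h1, h2, h3⟩ := exists_least (n := (f x).size + n0) hg.hq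
  have hne : main (codeL (f x).cons) (Raw.mk (pad (C * r ^ 4))).w.length ≠ none := by
    show main (codeL (f x).cons) (pad (C * r ^ 4)).length ≠ none
    rw [length_pad]
    exact hg.some (f x) r _ h1 h2 h3 le_rfl
  obtain ⟨y, j, hj, hy, -, hout⟩ := h (Raw.mk x) (2 ^ (C * r ^ 4)) (C * r ^ 4) le_rfl hne
  have hspec := hg.spec (f x) _ y hy
  exact ⟨y, (x.length + 2 ^ (C * r ^ 4) + 2) ^ e, hC2 x.length (f x).size r (hsize x) h2,
    hout, fun hx => hspec.1 (hyes x hx), fun hx => hspec.2 (hno x hx)⟩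

theorem SolvedIn.mono {ι : Type} {code : ι → List Bool} {len : ι → ℝ} {yes no yes' no' : ι → Prop}
    {a a' : ℝ} (hlen : ∀ x, 1 ≤ len x) (ha : a ≤ a') (hyes : ∀ x, yes' x → yes x)
    (hno : ∀ x, no' x → no x) (h : SolvedIn code len yes no a) :
    SolvedIn code len yes' no' a' := by
  obtain ⟨M, C, hM, hG⟩ := h
  refine ⟨M, C, hM, fun x => ?_⟩
  obtain ⟨ans, t, ht, hA, h1, h2⟩ := hG x
  refine ⟨ans, t, ht.trans ?_, hA, fun hx => h1 (hyes x hx), fun hx => h2 (hno x hx)⟩
  refine Real.rpow_le_rpow_of_exponent_le (by norm_num) ?_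
  exact mul_le_mul_of_nonneg_left (Real.rpow_le_rpow_of_exponent_le (hlen x) ha) (by positivity)

/-- The final statement, from algorithms for the exponents `1 / q`. -/
theorem both_of_gap {g : ℝ → ℝ} (hg : ∀ κ, 0 ≤ g κ) {c0 : ℝ} (hc0 : 0 < c0)
    (h : ∀ (k q : ℕ) (κ : ℝ), 2 ≤ k → 1 ≤ q → 0 < κ → κ ≤ 1 → ∃ (C n0 : ℕ)
      (main : List ℕ → ℕ → Option Bool),
      Gap k q C n0 κ (c0 * g κ / (q * (1 + Real.log q))) main) :
    ∃ c : ℝ, 0 < c ∧ ∀ (k : ℕ) (α κ ε : ℝ), 2 ≤ k → 0 < α → α ≤ 1 →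
      0 < κ → κ ≤ 1 → ε ≤ c * g κ * α / (1 + Real.log (1 / α)) →
      SolvedIn (Inst.code : Inst k → List Bool) (fun G => G.size)
        (fun G => 1 - ε ≤ G.val) (fun G => G.val ≤ 1 - κ) α ∧
      ∀ (L : Set (List Bool)) (f : List Bool → Inst k) (A b : ℝ), 0 < b →
        Nonempty (Turing.TM2ComputableInPolyTime (fun x : List Bool => x)
          (Inst.code : Inst k → List Bool) f) →
        (∀ x, ((f x).size : ℝ) ≤ A * ((x.length : ℝ) + 1) ^ b) →
        (∀ x ∈ L, 1 - ε ≤ (f x).val) → (∀ x ∉ L, (f x).val ≤ 1 - κ) →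
        SolvedIn (fun x : List Bool => x) (fun x => (x.length : ℝ) + 1)
          (fun x => x ∈ L) (fun x => x ∉ L) (b * α) := by
  refine ⟨c0 / 4, by positivity, fun k α κ ε hk hα hα1 hκ hκ1 hε => ?_⟩
  obtain ⟨q, hq, hq1, hq2⟩ := alpha_q hα hα1
  obtain ⟨C, n0, main, hgap⟩ := h k q κ hk hq hκ hκ1
  -- comparison of the values of epsilon
  have heps : ε ≤ c0 * g κ / (q * (1 + Real.log q)) := by
    refine hε.trans ?_
    have hlog : 0 ≤ Real.log (1 / α) := Real.log_nonneg (by rw [one_le_div hα]; exact hα1)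
    have hk3 : 0 ≤ c0 * g κ := mul_nonneg hc0.le (hg κ)
    have h1 := mul_le_mul_of_nonneg_left hq2 hk3
    have e1 : c0 * g κ * (α / (4 * (1 + Real.log (1 / α)))) =
        c0 / 4 * g κ * α / (1 + Real.log (1 / α)) := by
      field_simp
    have e2 : c0 * g κ * (1 / (q * (1 + Real.log q))) =
        c0 * g κ / (q * (1 + Real.log q)) := by
      rw [mul_one_div]
    rw [e1, e2] at h1
    exact h1
  refine ⟨?_, ?_⟩
  · refine SolvedIn.mono (fun G => ?_) hq1 (fun G hG => le_trans (by linarith) hG)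
      (fun G hG => hG) hgap.machine
    have := List.length_pos_of_ne_nil G.ne
    have h1 : 1 ≤ G.size := by unfold Inst.size; omega
    exact_mod_cast h1
  · intro L f A b hb hf hsize hyes hno
    refine SolvedIn.mono (fun x => ?_) (mul_le_mul_of_nonneg_left hq1 hb.le) (fun x hx => hx)
      (fun x hx => hx) (hgap.reduction L f hb hf hsize
        (fun x hx => le_trans (by linarith) (hyes x hx)) hno)
    have : (0 : ℝ) ≤ x.length := Nat.cast_nonneg _
    linarith

end Vale.Agent.P325.V2
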