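import Vale.Agent.P325.V2.Spec2
import Vale.Agent.P325.Round

/-!
# Rounding of partially labelled pieces
-/

namespace Vale.Agent.P325.V2

open Finset Vale.Agent.P325

section Edge

variable {I : Type*} [Fintype I]

/-- the total variation type bound for one constraint, pieces which need not cover -/
theorem edge_bound2 (x y w : I → ℝ) (B : ℝ) (hB : 0 < B) (hx : ∀ i, 0 ≤ x i) (hy : ∀ i, 0 ≤ y i)
    (hw : ∀ i, 0 ≤ w i) (hw1 : ∀ i, w i ≤ 1) (hxB : ∑ i, x i ^ 2 ≤ B) (hyB : ∑ i, y i ^ 2 ≤ B) :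
    ∑ i, (max (x i ^ 2) (y i ^ 2) - min (x i ^ 2) (y i ^ 2) + w i * min (x i ^ 2) (y i ^ 2)) ≤
      ((2 * B - (∑ i, x i ^ 2 + ∑ i, y i ^ 2) + 2 * ∑ i, |x i ^ 2 - y i ^ 2| +
        2 * ∑ i, w i * (x i * y i)) / B) * ∑ i, max (x i ^ 2) (y i ^ 2) := by
  set p := ∑ i, max (x i ^ 2) (y i ^ 2) with hp
  set A := ∑ i, (max (x i ^ 2) (y i ^ 2) - min (x i ^ 2) (y i ^ 2) +
    w i * min (x i ^ 2) (y i ^ 2)) with hA
  set tv := ∑ i, |x i ^ 2 - y i ^ 2| with htv
  set ν := ∑ i, w i * (x i * y i) with hν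
  have hmin : ∀ i, 0 ≤ min (x i ^ 2) (y i ^ 2) := fun i => le_min (sq_nonneg _) (sq_nonneg _)
  have hmm : ∀ i, min (x i ^ 2) (y i ^ 2) ≤ x i * y i := by
    intro i
    rcases le_total (x i) (y i) with h | h
    · refine (min_le_left _ _).trans ?_
      nlinarith [hx i, hy i]
    · refine (min_le_right _ _).trans ?_
      nlinarith [hx i, hy i]
  have h1 : A ≤ tv + ν := by
    rw [hA, htv, hν, ← sum_add_distrib]
    refine sum_le_sum fun i _ => ?_
    rw [max_sub_min_eq_abs']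
    exact add_le_add_right (mul_le_mul_of_nonneg_left (hmm i) (hw i)) _
  have h2 : A ≤ p := by
    rw [hA, hp]
    refine sum_le_sum fun i _ => ?_
    nlinarith [hw1 i, hmin i]
  have hx0 : 0 ≤ ∑ i, x i ^ 2 := sum_nonneg fun i _ => sq_nonneg _
  have hy0 : 0 ≤ ∑ i, y i ^ 2 := sum_nonneg fun i _ => sq_nonneg _
  have h3 : ∑ i, x i ^ 2 ≤ p := sum_le_sum fun i _ => le_max_left _ _
  have h4 : ∑ i, y i ^ 2 ≤ p := sum_le_sum fun i _ => le_max_right _ _
  have htv0 : 0 ≤ tv := sum_nonneg fun i _ => abs_nonneg _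
  have hν0 : 0 ≤ ν := sum_nonneg fun i _ => mul_nonneg (hw i) (mul_nonneg (hx i) (hy i))
  have hp0 : 0 ≤ p := hx0.trans h3
  rw [div_mul_eq_mul_div, le_div_iff₀ hB]
  by_cases hc : B / 2 ≤ p
  · have h5 : A * B ≤ (tv + ν) * B := mul_le_mul_of_nonneg_right h1 hB.le
    have h6 : (tv + ν) * B ≤ (tv + ν) * (2 * p) :=
      mul_le_mul_of_nonneg_left (by linarith) (by positivity)
    have h7 : 0 ≤ (2 * B - (∑ i, x i ^ 2 + ∑ i, y i ^ 2)) * p :=
      mul_nonneg (by linarith) hp0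
    linarith
  · push Not at hc
    have h5 : A * B ≤ p * B := mul_le_mul_of_nonneg_right h2 hB.le
    have h6 : B * p ≤ (2 * B - (∑ i, x i ^ 2 + ∑ i, y i ^ 2) + 2 * tv + 2 * ν) * p :=
      mul_le_mul_of_nonneg_right (by linarith) hp0
    linarith

end Edge

section Lists

variable {V : Type*} {k : ℕ}

theorem castSub {a b : ℕ} : (((a - b) + (b - a) : ℕ) : ℝ) = |(a : ℝ) - b| := by
  rcases le_total a b with h | h
  · rw [Nat.sub_eq_zero_of_le h, Nat.zero_add, Nat.cast_sub h]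
    have h' : (a : ℝ) ≤ b := by exact_mod_cast h
    rw [abs_of_nonpos (by linarith)]
    ring
  · rw [Nat.sub_eq_zero_of_le h, Nat.add_zero, Nat.cast_sub h]
    have h' : (b : ℝ) ≤ a := by exact_mod_cast h
    rw [abs_of_nonneg (by linarith)]

theorem tvN_eq_sum (E : List (Con V k)) (F : V → ℕ) :
    (tvN (base E) F : ℝ) = ∑ j : Fin E.length,
      |(F E[j.1].1 : ℝ) ^ 2 - (F E[j.1].2.1 : ℝ) ^ 2| := by
  rw [Fin.sum_univ_fun_getElem E (fun e => |(F e.1 : ℝ) ^ 2 - (F e.2.1 : ℝ) ^ 2|)]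
  unfold tvN base
  rw [List.map_map]
  induction E with
  | nil => simp
  | cons e E ih =>
    rw [List.map_cons, List.sum_cons, List.map_cons, List.sum_cons, Nat.cast_add, ih]
    congr 1
    have := castSub (a := F e.1 ^ 2) (b := F e.2.1 ^ 2)
    rw [Function.comp_apply]
    rw [this]
    push_cast
    rfl

/-- Rounding of partially labelled pieces: correlated sampling. -/
theorem exists_rounding2 [Fintype V] [DecidableEq V] [NeZero k] (E : List (Con V k))
    (Z : List ((V → ℕ) × (V → Fin k))) (B : ℕ) (hB0 : 0 < B)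
    (hB : ∀ v, (Z.map fun z => z.1 v ^ 2).sum ≤ B) :
    ∃ a : V → Fin k, B * viol E a ≤
      ((base E).map fun e => 2 * B - ((Z.map fun z => z.1 e.1 ^ 2).sum +
        (Z.map fun z => z.1 e.2 ^ 2).sum)).sum +
      2 * (Z.map fun z => tvN (base E) z.1).sum +
      2 * (Z.map fun z => pieceV E z.1 z.2).sum := by
  set m := E.length with hm
  let u : Fin m → V := fun j => (E[j.1]'j.2).1
  let v : Fin m → V := fun j => (E[j.1]'j.2).2.1
  let π : Fin m → Equiv.Perm (Fin k) := fun j => (E[j.1]'j.2).2.2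
  let F : Fin Z.length → V → ℕ := fun i => (Z[i.1]'i.2).1
  let lab : Fin Z.length → V → Fin k := fun i => (Z[i.1]'i.2).2
  let w : Fin m → Fin Z.length → ℝ := fun j i =>
    if lab i (v j) = π j (lab i (u j)) then 0 else 1
  have hw : ∀ j i, 0 ≤ w j i := by
    intro j i
    simp only [w]
    split_ifs <;> norm_num
  have hw1 : ∀ j i, w j i ≤ 1 := by
    intro j i
    simp only [w]
    split_ifs <;> norm_num
  have hBr : (0 : ℝ) < B := by exact_mod_cast hB0
  have hS : ∀ x, (((Z.map fun z => z.1 x ^ 2).sum : ℕ) : ℝ) = ∑ i, ((F i x : ℝ)) ^ 2 := by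
    intro x
    rw [sum_map_cast]
    simp [F]
  have hq : ∀ x, ∑ i, ((F i x : ℝ)) ^ 2 ≤ B := by
    intro x
    rw [← hS x]
    exact_mod_cast hB x
  have hT : ∀ i x, F i x ^ 2 ≤ B := by
    intro i x
    have h1 := hq x
    have h2 : ((F i x : ℝ)) ^ 2 ≤ ∑ i, ((F i x : ℝ)) ^ 2 :=
      single_le_sum (f := fun i => ((F i x : ℝ)) ^ 2) (fun i _ => sq_nonneg _) (mem_univ i)
    have : ((F i x : ℝ)) ^ 2 ≤ B := h2.trans h1
    exact_mod_cast this
  let tv : Fin m → ℝ := fun j => ∑ i, |(F i (u j) : ℝ) ^ 2 - (F i (v j) : ℝ) ^ 2|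
  let ν : Fin m → ℝ := fun j => ∑ i, w j i * ((F i (u j) : ℝ) * F i (v j))
  let c : Fin m → ℝ := fun j => (2 * B - (∑ i, (F i (u j) : ℝ) ^ 2 + ∑ i, (F i (v j) : ℝ) ^ 2) +
    2 * tv j + 2 * ν j) / B
  have htv0 : ∀ j, 0 ≤ tv j := fun j => sum_nonneg fun i _ => abs_nonneg _
  have hν0 : ∀ j, 0 ≤ ν j := fun j => sum_nonneg fun i _ => mul_nonneg (hw j i) (by positivity)
  obtain ⟨a, ha⟩ := exists_labeling u v π c (fun i x => F i x ^ 2) lab B hT (by
    intro j
    have := edge_bound2 (fun i => (F i (u j) : ℝ)) (fun i => (F i (v j) : ℝ)) (w j) B hBr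
      (fun i => Nat.cast_nonneg _) (fun i => Nat.cast_nonneg _) (hw j) (hw1 j) (hq _) (hq _)
    simpa [c, tv, ν, w] using this) (by
    intro j hj
    have e1 : ∑ i, (F i (u j) : ℝ) ^ 2 = 0 := sum_eq_zero fun i _ => by
      have := (hj i).1
      exact_mod_cast this
    have e2 : ∑ i, (F i (v j) : ℝ) ^ 2 = 0 := sum_eq_zero fun i _ => by
      have := (hj i).2
      exact_mod_cast this
    simp only [c]
    rw [e1, e2, one_le_div hBr]
    have := htv0 j
    have := hν0 j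
    linarith)
  refine ⟨a, ?_⟩
  rw [← viol_eq_sum] at ha
  -- the sum of the costs
  have hc : B * ∑ j, c j = ∑ j, (2 * B - (∑ i, (F i (u j) : ℝ) ^ 2 + ∑ i, (F i (v j) : ℝ) ^ 2)) +
      2 * ∑ j, tv j + 2 * ∑ j, ν j := by
    simp only [c]
    rw [← sum_div, mul_div_cancel₀ _ hBr.ne', sum_add_distrib, sum_add_distrib, mul_sum, mul_sum]
  have h1 : ((((base E).map fun e => 2 * B - ((Z.map fun z => z.1 e.1 ^ 2).sum +
      (Z.map fun z => z.1 e.2 ^ 2).sum)).sum : ℕ) : ℝ) =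
      ∑ j, (2 * B - (∑ i, (F i (u j) : ℝ) ^ 2 + ∑ i, (F i (v j) : ℝ) ^ 2)) := by
    unfold base
    rw [List.map_map, sum_map_cast]
    refine sum_congr rfl fun j _ => ?_
    rw [Function.comp_apply, Nat.cast_sub, Nat.cast_add, hS, hS]
    · push_cast; rfl
    · have := hB (E[j.1]).1
      have := hB (E[j.1]).2.1
      simp only
      omega
  have h2 : (((Z.map fun z => tvN (base E) z.1).sum : ℕ) : ℝ) = ∑ j, tv j := by
    rw [sum_map_cast]
    simp_rw [tvN_eq_sum]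
    rw [sum_comm]
  have h3 : (((Z.map fun z => pieceV E z.1 z.2).sum : ℕ) : ℝ) = ∑ j, ν j := by
    rw [sum_map_cast]
    simp_rw [pieceV_eq_sum]
    rw [sum_comm]
  have h4 : (B : ℝ) * viol E a ≤ B * ∑ j, c j := mul_le_mul_of_nonneg_left ha hBr.le
  rw [hc, ← h1, ← h2, ← h3] at h4
  exact_mod_cast h4

end Lists

end Vale.Agent.P325.V2
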