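import Vale.Agent.P325.V2.Reach2

/-!
# Analysis of one level

The leaves `F` of the decomposition of `h` are split by margins `s` (labelled part `partL F s`,
leftover `partR F s`); the leftovers together with the dropped mass form the next function `h'`.
-/

namespace Vale.Agent.P325.V2

open Finset

/-! ### Energies and masses along an edge list -/

section Real
variable {V : Type*}

/-- energy of a function -/
def enR (E : List (V × V)) (f : V → ℝ) : ℝ := (E.map fun e => (f e.1 - f e.2) ^ 2).sum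

/-- mass of a function -/
def msR (E : List (V × V)) (f : V → ℝ) : ℝ := (E.map fun e => 2 * (f e.1 ^ 2 + f e.2 ^ 2)).sum

theorem enR_nonneg (E : List (V × V)) (f : V → ℝ) : 0 ≤ enR E f := by
  refine List.sum_nonneg fun y hy => ?_
  obtain ⟨e, _, rfl⟩ := List.mem_map.1 hy
  positivity

theorem msR_nonneg (E : List (V × V)) (f : V → ℝ) : 0 ≤ msR E f := by
  refine List.sum_nonneg fun y hy => ?_
  obtain ⟨e, _, rfl⟩ := List.mem_map.1 hy
  positivity

theorem sum_map_le {ι : Type*} (Z : List ι) {f g : ι → ℝ} (h : ∀ z ∈ Z, f z ≤ g z) :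
    (Z.map f).sum ≤ (Z.map g).sum := List.sum_le_sum h

theorem sum_map_add' {ι : Type*} (Z : List ι) (f g : ι → ℝ) :
    (Z.map fun z => f z + g z).sum = (Z.map f).sum + (Z.map g).sum := by
  induction Z with
  | nil => simp
  | cons z Z ih => simp only [List.map_cons, List.sum_cons, ih]; ring

theorem sum_map_mul' {ι : Type*} (Z : List ι) (c : ℝ) (f : ι → ℝ) :
    (Z.map fun z => c * f z).sum = c * (Z.map f).sum := by
  induction Z with
  | nil => simp
  | cons z Z ih => simp only [List.map_cons, List.sum_cons, ih]; ring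

/-- exchange of sums over two lists -/
theorem sum_comm' {ι κ : Type*} (Z : List ι) (E : List κ) (f : ι → κ → ℝ) :
    (Z.map fun z => (E.map fun e => f z e).sum).sum =
      (E.map fun e => (Z.map fun z => f z e).sum).sum := by
  induction Z with
  | nil => simp
  | cons z Z ih =>
    simp only [List.map_cons, List.sum_cons, ih]
    rw [← sum_map_add']

/-- Minkowski: the norm of a vector of functions is Lipschitz -/
theorem norm_lip {ι : Type*} (Z : List ι) (x y : ι → ℝ) (a b r t : ℝ) (ha : 0 ≤ a) (hb : 0 ≤ b)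
    (hx : a ^ 2 = r ^ 2 + (Z.map fun z => x z ^ 2).sum)
    (hy : b ^ 2 = t ^ 2 + (Z.map fun z => y z ^ 2).sum) :
    (a - b) ^ 2 ≤ (r - t) ^ 2 + (Z.map fun z => (x z - y z) ^ 2).sum := by
  -- Cauchy-Schwarz
  have hcs : ∀ Z : List ι, ((Z.map fun z => x z * y z).sum) ^ 2 ≤
      (Z.map fun z => x z ^ 2).sum * (Z.map fun z => y z ^ 2).sum := by
    intro Z
    induction Z with
    | nil => simp
    | cons z Z ih =>
      simp only [List.map_cons, List.sum_cons]
      have h1 : 0 ≤ (Z.map fun z => x z ^ 2).sum := by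
        refine List.sum_nonneg fun w hw => ?_
        obtain ⟨e, _, rfl⟩ := List.mem_map.1 hw
        positivity
      have h2 : 0 ≤ (Z.map fun z => y z ^ 2).sum := by
        refine List.sum_nonneg fun w hw => ?_
        obtain ⟨e, _, rfl⟩ := List.mem_map.1 hw
        positivity
      set A := (Z.map fun z => x z ^ 2).sum
      set B := (Z.map fun z => y z ^ 2).sum
      set C := (Z.map fun z => x z * y z).sum
      have h3 : 2 * (x z * y z) * C ≤ x z ^ 2 * B + y z ^ 2 * A := by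
        have h4 : |C| ≤ Real.sqrt A * Real.sqrt B := by
          rw [← Real.sqrt_mul h1, ← Real.sqrt_sq_eq_abs]
          exact Real.sqrt_le_sqrt ih
        have h5 : 2 * (x z * y z) * C ≤ 2 * (|x z| * |y z|) * (Real.sqrt A * Real.sqrt B) := by
          calc 2 * (x z * y z) * C ≤ |2 * (x z * y z) * C| := le_abs_self _
            _ = 2 * (|x z| * |y z|) * |C| := by
              rw [abs_mul, abs_mul, abs_mul]; norm_num
            _ ≤ _ := mul_le_mul_of_nonneg_left h4 (by positivity)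
        have h6 : 0 ≤ (|x z| * Real.sqrt B - |y z| * Real.sqrt A) ^ 2 := sq_nonneg _
        have h7 : Real.sqrt A ^ 2 = A := Real.sq_sqrt h1
        have h8 : Real.sqrt B ^ 2 = B := Real.sq_sqrt h2
        have h9 : |x z| ^ 2 = x z ^ 2 := sq_abs _
        have h10 : |y z| ^ 2 = y z ^ 2 := sq_abs _
        nlinarith
      nlinarith
  have h1 : 0 ≤ (Z.map fun z => x z ^ 2).sum := by
    refine List.sum_nonneg fun w hw => ?_
    obtain ⟨e, _, rfl⟩ := List.mem_map.1 hw
    positivity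
  have h2 : 0 ≤ (Z.map fun z => y z ^ 2).sum := by
    refine List.sum_nonneg fun w hw => ?_
    obtain ⟨e, _, rfl⟩ := List.mem_map.1 hw
    positivity
  have hsum : (Z.map fun z => (x z - y z) ^ 2).sum = (Z.map fun z => x z ^ 2).sum +
      (Z.map fun z => y z ^ 2).sum - 2 * (Z.map fun z => x z * y z).sum := by
    have e : ∀ z, (x z - y z) ^ 2 = (x z ^ 2 + y z ^ 2) + (-2) * (x z * y z) := fun z => by ring
    simp_rw [e]
    rw [sum_map_add', sum_map_add', sum_map_mul']
    ring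
  rw [hsum]
  have h3 := hcs Z
  set A := (Z.map fun z => x z ^ 2).sum
  set B := (Z.map fun z => y z ^ 2).sum
  set C := (Z.map fun z => x z * y z).sum
  -- a b ≥ r t + C
  have h4 : r * t + C ≤ a * b := by
    have h5 : (r * t + C) ^ 2 ≤ (a * b) ^ 2 := by
      rw [mul_pow, hx, hy]
      have h6 : 2 * (r * t) * C ≤ r ^ 2 * B + t ^ 2 * A := by
        have h4 : |C| ≤ Real.sqrt A * Real.sqrt B := by
          rw [← Real.sqrt_mul h1, ← Real.sqrt_sq_eq_abs]
          exact Real.sqrt_le_sqrt h3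
        have h5 : 2 * (r * t) * C ≤ 2 * (|r| * |t|) * (Real.sqrt A * Real.sqrt B) := by
          calc 2 * (r * t) * C ≤ |2 * (r * t) * C| := le_abs_self _
            _ = 2 * (|r| * |t|) * |C| := by
              rw [abs_mul, abs_mul, abs_mul]; norm_num
            _ ≤ _ := mul_le_mul_of_nonneg_left h4 (by positivity)
        have h6 : 0 ≤ (|r| * Real.sqrt B - |t| * Real.sqrt A) ^ 2 := sq_nonneg _
        have h7 : Real.sqrt A ^ 2 = A := Real.sq_sqrt h1
        have h8 : Real.sqrt B ^ 2 = B := Real.sq_sqrt h2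
        have h9 : |r| ^ 2 = r ^ 2 := sq_abs _
        have h10 : |t| ^ 2 = t ^ 2 := sq_abs _
        nlinarith
      nlinarith
    exact (abs_le_of_sq_le_sq' h5 (by positivity)).2
  nlinarith

end Real


/-! ### Cauchy-Schwarz for lists -/

section CS

theorem cs_list {ι : Type*} (Z : List ι) (x y : ι → ℝ) :
    ((Z.map fun z => x z * y z).sum) ^ 2 ≤
      (Z.map fun z => x z ^ 2).sum * (Z.map fun z => y z ^ 2).sum := by
  have h1 : ∀ x : ι → ℝ, 0 ≤ (Z.map fun z => x z ^ 2).sum := fun x => by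
    refine List.sum_nonneg fun w hw => ?_
    obtain ⟨e, _, rfl⟩ := List.mem_map.1 hw
    positivity
  -- apply `norm_lip` is not needed: direct discriminant argument
  set A := (Z.map fun z => x z ^ 2).sum with hA
  set B := (Z.map fun z => y z ^ 2).sum with hB
  set C := (Z.map fun z => x z * y z).sum with hC
  have hq : ∀ t : ℝ, 0 ≤ A * (t * t) + (-2 * C) * t + B := by
    intro t
    have h2 : 0 ≤ (Z.map fun z => (t * x z - y z) ^ 2).sum := by
      refine List.sum_nonneg fun w hw => ?_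
      obtain ⟨e, _, rfl⟩ := List.mem_map.1 hw
      positivity
    have h3 : (Z.map fun z => (t * x z - y z) ^ 2).sum = A * (t * t) + (-2 * C) * t + B := by
      have e : ∀ z, (t * x z - y z) ^ 2 =
          (t * t * (x z ^ 2) + y z ^ 2) + (-2 * t) * (x z * y z) := fun z => by ring
      simp_rw [e]
      rw [sum_map_add', sum_map_add', sum_map_mul', sum_map_mul']
      ring
    linarith
  have := discrim_le_zero hq
  unfold discrim at this
  nlinarith

theorem sum_flatMap_pairs {ι κ : Type*} (Z : List ι) (E : List κ) (f : ι × κ → ℝ) :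
    ((Z.flatMap fun z => E.map fun e => (z, e)).map f).sum =
      (Z.map fun z => (E.map fun e => f (z, e)).sum).sum := by
  induction Z with
  | nil => simp
  | cons z Z ih =>
    rw [List.flatMap_cons, List.map_append, List.sum_append, ih, List.map_cons, List.sum_cons,
      List.map_map]
    rfl

end CS

/-! ### Elementary inequalities -/

theorem floor_diff {a b β : ℝ} {m n : ℕ} (hm : (m : ℝ) ≤ a) (hm' : a < m + 1)
    (hn : (n : ℝ) ≤ b) (hn' : b < n + 1) (ha : a ≤ β) (hb : b ≤ β) :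
    ((m : ℝ) - n) ^ 2 ≤ (a - b) ^ 2 + (2 * β + 1) := by
  have hm0 : (0 : ℝ) ≤ m := Nat.cast_nonneg _
  have hn0 : (0 : ℝ) ≤ n := Nat.cast_nonneg _
  have h1 : |(m : ℝ) - n| ≤ |a - b| + 1 := by
    rw [abs_le]
    have := abs_le.1 (le_refl |a - b|)
    constructor <;> linarith [this.1, this.2]
  have h2 : |a - b| ≤ β := by rw [abs_le]; constructor <;> linarith
  have h3 : ((m : ℝ) - n) ^ 2 ≤ (|a - b| + 1) ^ 2 := by
    rw [← sq_abs ((m : ℝ) - n)]
    exact pow_le_pow_left₀ (abs_nonneg _) h1 2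
  have h4 : |a - b| ^ 2 = (a - b) ^ 2 := sq_abs _
  nlinarith [abs_nonneg (a - b)]

theorem gR_sq_le {s : ℝ} (h0 : 0 ≤ s) (h1 : s ≤ 1) : gR s ^ 2 ≤ 1 - s ^ 2 := by
  unfold gR
  rw [div_pow, div_le_iff₀ (by positivity)]
  have h2 : 0 ≤ 1 - s ^ 2 := by nlinarith
  have h3 : (1 - s ^ 2) ≤ (1 + s ^ 2) ^ 2 := by nlinarith [sq_nonneg s, sq_nonneg (s ^ 2)]
  nlinarith

theorem gL_le_two {s : ℝ} (h0 : 0 ≤ s) : gL s ≤ 2 * s := by
  unfold gL
  exact div_le_self (by positivity) (by nlinarith [sq_nonneg s])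

theorem mass_ineq {x y α α' : ℝ} (h0 : 0 ≤ α) (h1 : α ≤ 1) (h0' : 0 ≤ α') (h1' : α' ≤ 1) :
    2 * (x ^ 2 * α + y ^ 2 * α') ≤
      4 / 3 * ((x - y) ^ 2 + (x * α + y * α') * (x + y)) := by
  have e : 4 / 3 * ((x - y) ^ 2 + (x * α + y * α') * (x + y)) - 2 * (x ^ 2 * α + y ^ 2 * α') =
      (1 - α) * (1 - α') * (4 / 3 * (x - y) ^ 2) +
      α * (1 - α') * (2 / 3 * ((x - y) ^ 2 + y ^ 2)) +
      (1 - α) * α' * (2 / 3 * ((x - y) ^ 2 + x ^ 2)) +
      α * α' * (2 / 3 * (x ^ 2 + y ^ 2)) := by ring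
  have a1 : 0 ≤ 1 - α := by linarith
  have a2 : 0 ≤ 1 - α' := by linarith
  have : 0 ≤ (1 - α) * (1 - α') * (4 / 3 * (x - y) ^ 2) +
      α * (1 - α') * (2 / 3 * ((x - y) ^ 2 + y ^ 2)) +
      (1 - α) * α' * (2 / 3 * ((x - y) ^ 2 + x ^ 2)) +
      α * α' * (2 / 3 * (x ^ 2 + y ^ 2)) := by positivity
  linarith

/-! ### The level -/

section Level

variable {V : Type*} {ι : Type*} (E : List (V × V)) (h : V → ℕ) (Z : List ι) (F : ι → V → ℕ)
  (s : ι → V → ℝ)

/-- the square of the next function before taking square roots -/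
noncomputable def nextSq (v : V) : ℕ :=
  h v ^ 2 - (Z.map fun z => F z v ^ 2 - partR (F z) (s z) v ^ 2).sum

/-- the next function -/
noncomputable def nextH (v : V) : ℕ := Nat.sqrt (nextSq h Z F s v)

/-- the dropped part -/
noncomputable def dropR (v : V) : ℝ :=
  Real.sqrt ((h v : ℝ) ^ 2 - (Z.map fun z => (F z v : ℝ) ^ 2).sum)

variable {h Z F s}

theorem castSum {ι : Type*} (Z : List ι) (f : ι → ℕ) :
    (((Z.map f).sum : ℕ) : ℝ) = (Z.map fun z => (f z : ℝ)).sum := by
  rw [Nat.cast_list_sum, List.map_map]; rfl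

theorem dropR_sq (hsq : ∀ v, (Z.map fun z => F z v ^ 2).sum ≤ h v ^ 2) (v : V) :
    dropR h Z F v ^ 2 = (h v : ℝ) ^ 2 - (Z.map fun z => (F z v : ℝ) ^ 2).sum := by
  unfold dropR
  refine Real.sq_sqrt ?_
  have h1 : (((Z.map fun z => F z v ^ 2).sum : ℕ) : ℝ) ≤ ((h v ^ 2 : ℕ) : ℝ) := by
    exact_mod_cast hsq v
  rw [castSum] at h1
  push_cast at h1
  linarith

theorem nextSq_cast (hs0 : ∀ z ∈ Z, ∀ v, 0 ≤ s z v) (hs1 : ∀ z ∈ Z, ∀ v, s z v ≤ 1)
    (hsq : ∀ v, (Z.map fun z => F z v ^ 2).sum ≤ h v ^ 2) (v : V) :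
    (nextSq h Z F s v : ℝ) = dropR h Z F v ^ 2 +
      (Z.map fun z => (partR (F z) (s z) v : ℝ) ^ 2).sum := by
  have h1 : (Z.map fun z => F z v ^ 2 - partR (F z) (s z) v ^ 2).sum ≤
      (Z.map fun z => F z v ^ 2).sum :=
    List.sum_le_sum fun z _ => Nat.sub_le _ _
  unfold nextSq
  rw [Nat.cast_sub (h1.trans (hsq v)), castSum, dropR_sq hsq]
  have h2 : (Z.map fun z => ((F z v ^ 2 - partR (F z) (s z) v ^ 2 : ℕ) : ℝ)).sum =
      (Z.map fun z => (F z v : ℝ) ^ 2).sum -
        (Z.map fun z => (partR (F z) (s z) v : ℝ) ^ 2).sum := by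
    have h3 : ∀ z ∈ Z, ((F z v ^ 2 - partR (F z) (s z) v ^ 2 : ℕ) : ℝ) =
        (F z v : ℝ) ^ 2 + (-1) * (partR (F z) (s z) v : ℝ) ^ 2 := by
      intro z hz
      have h4 := partR_le (F := F z) (hs0 z hz) (hs1 z hz) v
      rw [Nat.cast_sub (Nat.pow_le_pow_left h4 2)]
      push_cast; ring
    rw [List.map_congr_left h3, sum_map_add', sum_map_mul']
    ring
  rw [h2]
  push_cast
  ring

/-- dropped mass plus energies of the leaves -/
theorem level_base {k1 : ℕ} (hk1 : 0 < k1)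
    (hsq : ∀ v, (Z.map fun z => F z v ^ 2).sum ≤ h v ^ 2)
    (htot : k1 * pieceW E h ≤ pieceW E h + k1 * (Z.map fun z => pieceW E (F z)).sum) :
    msR E (dropR h Z F) + (Z.map fun z => enR E (toR (F z))).sum ≤
      enR E (toR h) + pieceW E h / k1 := by
  have hk : (0 : ℝ) < k1 := by exact_mod_cast hk1
  have h1 : msR E (dropR h Z F) + (Z.map fun z => enR E (toR (F z))).sum =
      enR E (toR h) + pieceW E h - ((Z.map fun z => pieceW E (F z)).sum : ℕ) := by
    have hW : ∀ f : V → ℕ, (pieceW E f : ℝ) = (E.map fun e => ((f e.1 : ℝ) + f e.2) ^ 2).sum := by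
      intro f
      unfold pieceW
      rw [castSum]
      congr 1
      exact List.map_congr_left fun e _ => by push_cast; ring
    rw [castSum]
    simp_rw [hW]
    unfold msR enR toR
    rw [sum_comm' Z E, sum_comm' Z E]
    have hper : ∀ e : V × V, 2 * (dropR h Z F e.1 ^ 2 + dropR h Z F e.2 ^ 2) +
        (Z.map fun z => ((F z e.1 : ℝ) - F z e.2) ^ 2).sum =
        (((h e.1 : ℝ) - h e.2) ^ 2 + ((h e.1 : ℝ) + h e.2) ^ 2) +
        (-1) * (Z.map fun z => ((F z e.1 : ℝ) + F z e.2) ^ 2).sum := by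
      intro e
      rw [dropR_sq hsq, dropR_sq hsq]
      have e1 : ∀ z, ((F z e.1 : ℝ) - F z e.2) ^ 2 =
          ((F z e.1 : ℝ) ^ 2 + (F z e.2 : ℝ) ^ 2) + (-2) * ((F z e.1 : ℝ) * F z e.2) :=
        fun z => by ring
      have e2 : ∀ z, ((F z e.1 : ℝ) + F z e.2) ^ 2 =
          ((F z e.1 : ℝ) ^ 2 + (F z e.2 : ℝ) ^ 2) + 2 * ((F z e.1 : ℝ) * F z e.2) :=
        fun z => by ring
      simp_rw [e1, e2]
      simp only [sum_map_add', sum_map_mul']
      ring
    rw [← sum_map_add']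
    simp_rw [hper]
    rw [sum_map_add', sum_map_add', sum_map_mul']
    ring
  rw [h1]
  have h2 : (k1 : ℝ) * pieceW E h ≤ pieceW E h + k1 * ((Z.map fun z => pieceW E (F z)).sum : ℕ) := by
    exact_mod_cast htot
  have h3 : (pieceW E h : ℝ) ≤ pieceW E h / k1 + ((Z.map fun z => pieceW E (F z)).sum : ℕ) := by
    have h4 : (pieceW E h : ℝ) = (k1 * pieceW E h) / k1 := by field_simp
    have h5 : ((pieceW E h : ℝ) + k1 * ((Z.map fun z => pieceW E (F z)).sum : ℕ)) / k1 =
        pieceW E h / k1 + ((Z.map fun z => pieceW E (F z)).sum : ℕ) := by field_simp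
    rw [← h5]
    conv_lhs => rw [h4]
    exact div_le_div_of_nonneg_right h2 hk.le
  linarith

/-- energies of the two parts of a leaf -/
theorem leaf_en {F : V → ℕ} {s : V → ℝ} {β : ℕ} (hs0 : ∀ v, 0 ≤ s v)
    (hs1 : ∀ v, s v ≤ 1) (hF : ∀ v, F v ≤ β) :
    enR E (fun v => (partL F s v : ℝ)) + enR E (fun v => (partR F s v : ℝ)) ≤
      enR E (toR F) + 4 * (E.map fun e => (F e.1 : ℝ) * F e.2 * (s e.1 - s e.2) ^ 2).sum +
        (4 * β + 2) * E.length := by
  unfold enR toR
  have hlen : (4 * (β : ℝ) + 2) * E.length = (E.map fun _ => 4 * (β : ℝ) + 2).sum := by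
    rw [List.map_const', List.sum_replicate, nsmul_eq_mul]; ring
  rw [hlen, ← sum_map_mul', ← sum_map_add', ← sum_map_add', ← sum_map_add']
  refine sum_map_le E fun e _ => ?_
  have hLa : ∀ v, (F v : ℝ) * gL (s v) ≤ β := fun v =>
    (mul_le_of_le_one_right (Nat.cast_nonneg _) (gL_le_one _)).trans (by exact_mod_cast hF v)
  have hRa : ∀ v, (F v : ℝ) * gR (s v) ≤ β := fun v =>
    (mul_le_of_le_one_right (Nat.cast_nonneg _) (gR_le_one _)).trans (by exact_mod_cast hF v)
  have h1 := floor_diff (partL_le_real (F := F) hs0 e.1) (lt_partL_add_one e.1)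
    (partL_le_real (F := F) hs0 e.2) (lt_partL_add_one e.2) (hLa e.1) (hLa e.2)
  have h2 := floor_diff (partR_le_real (F := F) hs0 hs1 e.1) (lt_partR_add_one e.1)
    (partR_le_real (F := F) hs0 hs1 e.2) (lt_partR_add_one e.2) (hRa e.1) (hRa e.2)
  have h3 := mul_le_mul_of_nonneg_left (gL_gR_inner_ge (s e.1) (s e.2))
    (by positivity : (0 : ℝ) ≤ F e.1 * F e.2)
  have h4 := gL_sq_add_gR_sq (s e.1)
  have h5 := gL_sq_add_gR_sq (s e.2)
  have h6 : ((F e.1 : ℝ) * gL (s e.1) - F e.2 * gL (s e.2)) ^ 2 +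
      ((F e.1 : ℝ) * gR (s e.1) - F e.2 * gR (s e.2)) ^ 2 =
      (F e.1 : ℝ) ^ 2 * (gL (s e.1) ^ 2 + gR (s e.1) ^ 2) +
      (F e.2 : ℝ) ^ 2 * (gL (s e.2) ^ 2 + gR (s e.2) ^ 2) -
      2 * (F e.1 * F e.2 * (gL (s e.1) * gL (s e.2) + gR (s e.1) * gR (s e.2))) := by ring
  rw [h4, h5] at h6
  linarith

section
variable [Fintype V] [DecidableEq V]

theorem energy_eq_map (F : V → ℕ) (s : V → ℝ) :
    energy (GF E F) s = (E.map fun e => (F e.1 : ℝ) * F e.2 * (s e.1 - s e.2) ^ 2).sum :=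
  energy_gform E (toR F) s

theorem sum_deg_mul (F : V → ℕ) (φ : V → ℝ) : ∑ u, deg (GF E F) u * φ u =
    (E.map fun e => ((F e.1 : ℝ) * φ e.1 + F e.2 * φ e.2) * ((F e.1 : ℝ) + F e.2)).sum := by
  have h1 : ∑ u, deg (GF E F) u * φ u =
      Q (gform E) (fun u => (F u : ℝ) * φ u) (toR F) := by
    unfold Q deg
    refine sum_congr rfl fun u _ => ?_
    rw [sum_mul]
    refine sum_congr rfl fun y _ => ?_
    simp only [loc]; ring
  rw [h1, sum_gform_gform]

end

/-- **energy of the next function** -/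
theorem level_en [Fintype V] [DecidableEq V] {k1 β : ℕ} (hk1 : 0 < k1) (hβ : ∀ v, h v ≤ β)
    (hs0 : ∀ z ∈ Z, ∀ v, 0 ≤ s z v) (hs1 : ∀ z ∈ Z, ∀ v, s z v ≤ 1)
    (hF : ∀ z ∈ Z, ∀ v, F z v ≤ β)
    (hsq : ∀ v, (Z.map fun z => F z v ^ 2).sum ≤ h v ^ 2)
    (htot : k1 * pieceW E h ≤ pieceW E h + k1 * (Z.map fun z => pieceW E (F z)).sum) :
    enR E (toR (nextH h Z F s)) ≤ enR E (toR h) + pieceW E h / k1 +
      4 * (Z.map fun z => energy (GF E (F z)) (s z)).sum +
      (2 * β + 1) * E.length * (2 * Z.length + 1) := by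
  have hbase := level_base E hk1 hsq htot
  have h1 : enR E (toR (nextH h Z F s)) ≤ msR E (dropR h Z F) +
      (Z.map fun z => enR E (fun v => (partR (F z) (s z) v : ℝ))).sum +
      (2 * β + 1) * E.length := by
    have hlen : (2 * (β : ℝ) + 1) * E.length = (E.map fun _ => 2 * (β : ℝ) + 1).sum := by
      rw [List.map_const', List.sum_replicate, nsmul_eq_mul]; ring
    unfold enR msR toR
    rw [hlen, sum_comm' Z E, ← sum_map_add', ← sum_map_add']
    refine sum_map_le E fun e _ => ?_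
    have hc := nextSq_cast hs0 hs1 hsq
    have hy : ∀ v, Real.sqrt (nextSq h Z F s v) ≤ β := by
      intro v
      rw [Real.sqrt_le_left (by positivity)]
      have : nextSq h Z F s v ≤ β ^ 2 := by
        refine (Nat.sub_le _ _).trans (Nat.pow_le_pow_left (hβ v) 2)
      exact_mod_cast this
    have h2 := floor_diff (m := nextH h Z F s e.1) (n := nextH h Z F s e.2)
      (a := Real.sqrt (nextSq h Z F s e.1)) (b := Real.sqrt (nextSq h Z F s e.2)) (β := β)
      (Real.nat_sqrt_le_real_sqrt) (Real.real_sqrt_lt_nat_sqrt_succ)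
      (Real.nat_sqrt_le_real_sqrt) (Real.real_sqrt_lt_nat_sqrt_succ) (hy _) (hy _)
    have h3 := norm_lip Z (fun z => (partR (F z) (s z) e.1 : ℝ))
      (fun z => (partR (F z) (s z) e.2 : ℝ)) (Real.sqrt (nextSq h Z F s e.1))
      (Real.sqrt (nextSq h Z F s e.2)) (dropR h Z F e.1) (dropR h Z F e.2)
      (Real.sqrt_nonneg _) (Real.sqrt_nonneg _)
      (by rw [Real.sq_sqrt (Nat.cast_nonneg _)]; exact hc e.1)
      (by rw [Real.sq_sqrt (Nat.cast_nonneg _)]; exact hc e.2)
    have h4 : (dropR h Z F e.1 - dropR h Z F e.2) ^ 2 ≤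
        2 * (dropR h Z F e.1 ^ 2 + dropR h Z F e.2 ^ 2) := by
      nlinarith [sq_nonneg (dropR h Z F e.1 + dropR h Z F e.2)]
    linarith
  have h2 : (Z.map fun z => enR E (fun v => (partR (F z) (s z) v : ℝ))).sum ≤
      (Z.map fun z => enR E (toR (F z))).sum +
      4 * (Z.map fun z => energy (GF E (F z)) (s z)).sum +
      (4 * β + 2) * E.length * Z.length := by
    have hlen : (4 * (β : ℝ) + 2) * E.length * Z.length =
        (Z.map fun _ => (4 * (β : ℝ) + 2) * E.length).sum := by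
      rw [List.map_const', List.sum_replicate, nsmul_eq_mul]; ring
    rw [hlen, ← sum_map_mul', ← sum_map_add', ← sum_map_add']
    refine sum_map_le Z fun z hz => ?_
    have := leaf_en E (hs0 z hz) (hs1 z hz) (hF z hz)
    rw [energy_eq_map]
    have h0 := enR_nonneg E (fun v => (partL (F z) (s z) v : ℝ))
    linarith
  have e1 : (2 * (β : ℝ) + 1) * E.length * (2 * Z.length + 1) =
      (4 * β + 2) * E.length * Z.length + (2 * β + 1) * E.length := by ring
  rw [e1]
  linarith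

/-- energy of the labelled parts -/
theorem level_enL [Fintype V] [DecidableEq V] {k1 β : ℕ} (hk1 : 0 < k1)
    (hs0 : ∀ z ∈ Z, ∀ v, 0 ≤ s z v) (hs1 : ∀ z ∈ Z, ∀ v, s z v ≤ 1)
    (hF : ∀ z ∈ Z, ∀ v, F z v ≤ β)
    (hsq : ∀ v, (Z.map fun z => F z v ^ 2).sum ≤ h v ^ 2)
    (htot : k1 * pieceW E h ≤ pieceW E h + k1 * (Z.map fun z => pieceW E (F z)).sum) :
    (Z.map fun z => enR E (fun v => (partL (F z) (s z) v : ℝ))).sum ≤
      enR E (toR h) + pieceW E h / k1 +
      4 * (Z.map fun z => energy (GF E (F z)) (s z)).sum +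
      (2 * β + 1) * E.length * (2 * Z.length + 1) := by
  have hbase := level_base E hk1 hsq htot
  have h2 : (Z.map fun z => enR E (fun v => (partL (F z) (s z) v : ℝ))).sum ≤
      (Z.map fun z => enR E (toR (F z))).sum +
      4 * (Z.map fun z => energy (GF E (F z)) (s z)).sum +
      (4 * β + 2) * E.length * Z.length := by
    have hlen : (4 * (β : ℝ) + 2) * E.length * Z.length =
        (Z.map fun _ => (4 * (β : ℝ) + 2) * E.length).sum := by
      rw [List.map_const', List.sum_replicate, nsmul_eq_mul]; ring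
    rw [hlen, ← sum_map_mul', ← sum_map_add', ← sum_map_add']
    refine sum_map_le Z fun z hz => ?_
    have := leaf_en E (hs0 z hz) (hs1 z hz) (hF z hz)
    rw [energy_eq_map]
    have h0 := enR_nonneg E (fun v => (partR (F z) (s z) v : ℝ))
    linarith
  have h3 := msR_nonneg E (dropR h Z F)
  have h4 : (0 : ℝ) ≤ (2 * β + 1) * E.length := by positivity
  have e1 : (2 * (β : ℝ) + 1) * E.length * (2 * Z.length + 1) =
      (4 * β + 2) * E.length * Z.length + (2 * β + 1) * E.length := by ring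
  rw [e1]
  linarith

/-- **mass of the next function** -/
theorem level_ms [Fintype V] [DecidableEq V] {k1 : ℕ} (hk1 : 0 < k1)
    (hs0 : ∀ z ∈ Z, ∀ v, 0 ≤ s z v) (hs1 : ∀ z ∈ Z, ∀ v, s z v ≤ 1)
    (hsq : ∀ v, (Z.map fun z => F z v ^ 2).sum ≤ h v ^ 2)
    (htot : k1 * pieceW E h ≤ pieceW E h + k1 * (Z.map fun z => pieceW E (F z)).sum) :
    msR E (toR (nextH h Z F s)) ≤ 4 / 3 * (enR E (toR h) + pieceW E h / k1 +
      (Z.map fun z => ∑ u, deg (GF E (F z)) u * (1 - s z u ^ 2)).sum) := by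
  have hbase := level_base E hk1 hsq htot
  have h1 : msR E (toR (nextH h Z F s)) ≤ msR E (dropR h Z F) +
      (Z.map fun z => msR E (fun v => (partR (F z) (s z) v : ℝ))).sum := by
    unfold msR toR
    rw [sum_comm' Z E, ← sum_map_add']
    refine sum_map_le E fun e _ => ?_
    have hc := nextSq_cast hs0 hs1 hsq
    have hn : ∀ v, (nextH h Z F s v : ℝ) ^ 2 ≤ nextSq h Z F s v := by
      intro v
      have : nextH h Z F s v ^ 2 ≤ nextSq h Z F s v := Nat.sqrt_le' _
      exact_mod_cast this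
    have h2 := hn e.1
    have h3 := hn e.2
    rw [hc] at h2 h3
    have e1 : (Z.map fun z => 2 * ((partR (F z) (s z) e.1 : ℝ) ^ 2 +
        (partR (F z) (s z) e.2 : ℝ) ^ 2)).sum =
        2 * ((Z.map fun z => (partR (F z) (s z) e.1 : ℝ) ^ 2).sum +
        (Z.map fun z => (partR (F z) (s z) e.2 : ℝ) ^ 2).sum) := by
      rw [sum_map_mul', sum_map_add']
    rw [e1]
    linarith
  have h2 : (Z.map fun z => msR E (fun v => (partR (F z) (s z) v : ℝ))).sum ≤
      4 / 3 * ((Z.map fun z => enR E (toR (F z))).sum +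
        (Z.map fun z => ∑ u, deg (GF E (F z)) u * (1 - s z u ^ 2)).sum) := by
    rw [← sum_map_add', ← sum_map_mul']
    refine sum_map_le Z fun z hz => ?_
    rw [sum_deg_mul]
    unfold msR enR toR
    rw [← sum_map_add', ← sum_map_mul']
    refine sum_map_le E fun e _ => ?_
    have hp : ∀ v, (partR (F z) (s z) v : ℝ) ^ 2 ≤ (F z v : ℝ) ^ 2 * (1 - s z v ^ 2) := by
      intro v
      have h3 := partR_le_real (F := F z) (hs0 z hz) (hs1 z hz) v
      calc (partR (F z) (s z) v : ℝ) ^ 2 ≤ (F z v * gR (s z v)) ^ 2 :=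
            pow_le_pow_left₀ (Nat.cast_nonneg _) h3 2
        _ = (F z v : ℝ) ^ 2 * gR (s z v) ^ 2 := by ring
        _ ≤ _ := mul_le_mul_of_nonneg_left (gR_sq_le (hs0 z hz v) (hs1 z hz v)) (sq_nonneg _)
    have h0 : ∀ v, 0 ≤ 1 - s z v ^ 2 := fun v => by
      nlinarith [hs0 z hz v, hs1 z hz v]
    have h0' : ∀ v, 1 - s z v ^ 2 ≤ 1 := fun v => by nlinarith [sq_nonneg (s z v)]
    have h4 := mass_ineq (x := (F z e.1 : ℝ)) (y := F z e.2) (h0 e.1) (h0' e.1) (h0 e.2) (h0' e.2)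
    have h5 := hp e.1
    have h6 := hp e.2
    linarith
  have h3 := msR_nonneg E (dropR h Z F)
  linarith

/-- **total variation of the labelled parts** -/
theorem level_tv [Fintype V] [DecidableEq V] {k1 β : ℕ} (hk1 : 0 < k1)
    (hs0 : ∀ z ∈ Z, ∀ v, 0 ≤ s z v) (hs1 : ∀ z ∈ Z, ∀ v, s z v ≤ 1)
    (hF : ∀ z ∈ Z, ∀ v, F z v ≤ β)
    (hsq : ∀ v, (Z.map fun z => F z v ^ 2).sum ≤ h v ^ 2)
    (htot : k1 * pieceW E h ≤ pieceW E h + k1 * (Z.map fun z => pieceW E (F z)).sum) :
    (Z.map fun z => (E.map fun e =>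
      |(partL (F z) (s z) e.1 : ℝ) ^ 2 - (partL (F z) (s z) e.2 : ℝ) ^ 2|).sum).sum ≤
      Real.sqrt (enR E (toR h) + pieceW E h / k1 +
        4 * (Z.map fun z => energy (GF E (F z)) (s z)).sum +
        (2 * β + 1) * E.length * (2 * Z.length + 1)) * Real.sqrt (msR E (toR h)) := by
  have hen := level_enL E hk1 hs0 hs1 hF hsq htot
  set G : ι → V → ℝ := fun z v => (partL (F z) (s z) v : ℝ) with hG
  have hG0 : ∀ z v, 0 ≤ G z v := fun z v => Nat.cast_nonneg _
  -- Cauchy-Schwarz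
  have hcs := cs_list (Z.flatMap fun z => E.map fun e => (z, e))
    (fun p : ι × (V × V) => |G p.1 p.2.1 - G p.1 p.2.2|)
    (fun p => G p.1 p.2.1 + G p.1 p.2.2)
  rw [sum_flatMap_pairs, sum_flatMap_pairs, sum_flatMap_pairs] at hcs
  have e1 : (Z.map fun z => (E.map fun e => |G z e.1 - G z e.2| * (G z e.1 + G z e.2)).sum).sum =
      (Z.map fun z => (E.map fun e => |G z e.1 ^ 2 - G z e.2 ^ 2|).sum).sum := by
    congr 1
    refine List.map_congr_left fun z _ => ?_
    congr 1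
    refine List.map_congr_left fun e _ => ?_
    have : |G z e.1 ^ 2 - G z e.2 ^ 2| = |(G z e.1 - G z e.2) * (G z e.1 + G z e.2)| := by
      congr 1; ring
    rw [this, abs_mul, abs_of_nonneg (add_nonneg (hG0 z e.1) (hG0 z e.2))]
  have e2 : (Z.map fun z => (E.map fun e => |G z e.1 - G z e.2| ^ 2).sum).sum =
      (Z.map fun z => enR E (G z)).sum := by
    congr 1
    refine List.map_congr_left fun z _ => ?_
    unfold enR
    congr 1
    exact List.map_congr_left fun e _ => sq_abs _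
  have e3 : (Z.map fun z => (E.map fun e => (G z e.1 + G z e.2) ^ 2).sum).sum ≤
      msR E (toR h) := by
    rw [sum_comm' Z E]
    unfold msR toR
    refine sum_map_le E fun e _ => ?_
    have hv : ∀ v, (Z.map fun z => G z v ^ 2).sum ≤ (h v : ℝ) ^ 2 := by
      intro v
      have h1 : (Z.map fun z => G z v ^ 2).sum ≤ (Z.map fun z => (F z v : ℝ) ^ 2).sum := by
        refine sum_map_le Z fun z hz => ?_
        have h2 : partL (F z) (s z) v ≤ F z v := partL_le (hs0 z hz) v
        have h3 : (partL (F z) (s z) v : ℝ) ≤ F z v := by exact_mod_cast h2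
        exact pow_le_pow_left₀ (Nat.cast_nonneg _) h3 2
      have h4 : (((Z.map fun z => F z v ^ 2).sum : ℕ) : ℝ) ≤ ((h v ^ 2 : ℕ) : ℝ) := by
        exact_mod_cast hsq v
      rw [castSum] at h4
      push_cast at h4
      linarith
    have h5 : (Z.map fun z => (G z e.1 + G z e.2) ^ 2).sum ≤
        (Z.map fun z => 2 * (G z e.1 ^ 2 + G z e.2 ^ 2)).sum := by
      refine sum_map_le Z fun z _ => ?_
      nlinarith [sq_nonneg (G z e.1 - G z e.2)]
    rw [sum_map_mul', sum_map_add'] at h5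
    have := hv e.1
    have := hv e.2
    linarith
  have e4 : ∀ p : ι × (V × V), (fun z => (E.map fun e =>
      (fun p : ι × (V × V) => |G p.1 p.2.1 - G p.1 p.2.2|) (z, e) *
      (fun p : ι × (V × V) => G p.1 p.2.1 + G p.1 p.2.2) (z, e)).sum) p.1 =
      (E.map fun e => |G p.1 e.1 - G p.1 e.2| * (G p.1 e.1 + G p.1 e.2)).sum := fun p => rfl
  simp only at hcs
  rw [e1, e2] at hcs
  have hTV0 : 0 ≤ (Z.map fun z => (E.map fun e => |G z e.1 ^ 2 - G z e.2 ^ 2|).sum).sum := by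
    refine List.sum_nonneg fun w hw => ?_
    obtain ⟨z, _, rfl⟩ := List.mem_map.1 hw
    refine List.sum_nonneg fun w hw => ?_
    obtain ⟨e, _, rfl⟩ := List.mem_map.1 hw
    exact abs_nonneg _
  have hen0 : 0 ≤ (Z.map fun z => enR E (G z)).sum := by
    refine List.sum_nonneg fun w hw => ?_
    obtain ⟨z, _, rfl⟩ := List.mem_map.1 hw
    exact enR_nonneg _ _
  rw [← Real.sqrt_mul (hen0.trans hen)]
  refine Real.le_sqrt_of_sq_le (hcs.trans ?_)
  exact mul_le_mul hen e3 (by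
    refine List.sum_nonneg fun w hw => ?_
    obtain ⟨z, _, rfl⟩ := List.mem_map.1 hw
    refine List.sum_nonneg fun w hw => ?_
    obtain ⟨e, _, rfl⟩ := List.mem_map.1 hw
    positivity) (hen0.trans hen)

/-- conservation, upper bound -/
theorem level_sq_le (hs0 : ∀ z ∈ Z, ∀ v, 0 ≤ s z v) (hs1 : ∀ z ∈ Z, ∀ v, s z v ≤ 1)
    (hsq : ∀ v, (Z.map fun z => F z v ^ 2).sum ≤ h v ^ 2) (v : V) :
    (Z.map fun z => partL (F z) (s z) v ^ 2).sum + nextH h Z F s v ^ 2 ≤ h v ^ 2 := by
  have h1 : nextH h Z F s v ^ 2 ≤ nextSq h Z F s v := Nat.sqrt_le' _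
  have h2 : (Z.map fun z => partL (F z) (s z) v ^ 2).sum ≤
      (Z.map fun z => F z v ^ 2 - partR (F z) (s z) v ^ 2).sum := by
    refine List.sum_le_sum fun z hz => ?_
    have := part_sq_add_sq (F := F z) (hs0 z hz) (hs1 z hz) v
    omega
  have h3 : (Z.map fun z => F z v ^ 2 - partR (F z) (s z) v ^ 2).sum ≤
      (Z.map fun z => F z v ^ 2).sum :=
    List.sum_le_sum fun z _ => Nat.sub_le _ _
  have h4 := hsq v
  unfold nextSq at h1
  omega

/-- conservation, lower bound -/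
theorem le_level_sq {β : ℕ} (hβ : ∀ v, h v ≤ β) (hs0 : ∀ z ∈ Z, ∀ v, 0 ≤ s z v)
    (hs1 : ∀ z ∈ Z, ∀ v, s z v ≤ 1) (hF : ∀ z ∈ Z, ∀ v, F z v ≤ β)
    (_hsq : ∀ v, (Z.map fun z => F z v ^ 2).sum ≤ h v ^ 2) (v : V) :
    h v ^ 2 ≤ (Z.map fun z => partL (F z) (s z) v ^ 2).sum + nextH h Z F s v ^ 2 +
      (4 * Z.length + 2) * β := by
  have h1 : nextSq h Z F s v ≤ nextH h Z F s v ^ 2 + 2 * β := by
    have h2 : nextSq h Z F s v ≤ nextH h Z F s v * nextH h Z F s v +
        nextH h Z F s v + nextH h Z F s v := Nat.sqrt_le_add _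
    have h3 : nextH h Z F s v ≤ β := by
      have h4 : nextH h Z F s v ^ 2 ≤ nextSq h Z F s v := Nat.sqrt_le' _
      have h5 : nextSq h Z F s v ≤ h v ^ 2 := Nat.sub_le _ _
      have h6 : nextH h Z F s v ^ 2 ≤ h v ^ 2 := h4.trans h5
      exact (Nat.pow_le_pow_iff_left (by norm_num)).1 h6 |>.trans (hβ v)
    have h4 : nextH h Z F s v ^ 2 = nextH h Z F s v * nextH h Z F s v := by ring
    omega
  have h2 : (Z.map fun z => F z v ^ 2 - partR (F z) (s z) v ^ 2).sum ≤
      (Z.map fun z => partL (F z) (s z) v ^ 2).sum + 4 * β * Z.length := by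
    have hlen : 4 * β * Z.length = (Z.map fun _ => 4 * β).sum := by
      rw [List.map_const', List.sum_replicate, smul_eq_mul]; ring
    rw [hlen, ← List.sum_map_add]
    refine List.sum_le_sum fun z hz => ?_
    -- F² ≤ G² + G'² + 4β
    have hLa : (F z v : ℝ) * gL (s z v) ≤ β :=
      (mul_le_of_le_one_right (Nat.cast_nonneg _) (gL_le_one _)).trans
        (by exact_mod_cast hF z hz v)
    have hRa : (F z v : ℝ) * gR (s z v) ≤ β :=
      (mul_le_of_le_one_right (Nat.cast_nonneg _) (gR_le_one _)).trans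
        (by exact_mod_cast hF z hz v)
    have a1 := lt_partL_add_one (F := F z) (s := s z) v
    have a2 := lt_partR_add_one (F := F z) (s := s z) v
    have b1 := partL_le_real (F := F z) (hs0 z hz) v
    have b2 := partR_le_real (F := F z) (hs0 z hz) (hs1 z hz) v
    have c1 := gL_sq_add_gR_sq (s z v)
    have d1 : (0 : ℝ) ≤ partL (F z) (s z) v := Nat.cast_nonneg _
    have d2 : (0 : ℝ) ≤ partR (F z) (s z) v := Nat.cast_nonneg _
    have e1 : ((F z v : ℝ) * gL (s z v)) ^ 2 ≤ (partL (F z) (s z) v : ℝ) ^ 2 + 2 * β := by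
      have : ((F z v : ℝ) * gL (s z v)) ^ 2 - (partL (F z) (s z) v : ℝ) ^ 2 =
        ((F z v : ℝ) * gL (s z v) - partL (F z) (s z) v) *
          ((F z v : ℝ) * gL (s z v) + partL (F z) (s z) v) := by ring
      have h5 : ((F z v : ℝ) * gL (s z v) - partL (F z) (s z) v) *
          ((F z v : ℝ) * gL (s z v) + partL (F z) (s z) v) ≤ 1 * (2 * β) :=
        mul_le_mul (by linarith) (by linarith) (by linarith) (by norm_num)
      linarith
    have e2 : ((F z v : ℝ) * gR (s z v)) ^ 2 ≤ (partR (F z) (s z) v : ℝ) ^ 2 + 2 * β := by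
      have : ((F z v : ℝ) * gR (s z v)) ^ 2 - (partR (F z) (s z) v : ℝ) ^ 2 =
        ((F z v : ℝ) * gR (s z v) - partR (F z) (s z) v) *
          ((F z v : ℝ) * gR (s z v) + partR (F z) (s z) v) := by ring
      have h5 : ((F z v : ℝ) * gR (s z v) - partR (F z) (s z) v) *
          ((F z v : ℝ) * gR (s z v) + partR (F z) (s z) v) ≤ 1 * (2 * β) :=
        mul_le_mul (by linarith) (by linarith) (by linarith) (by norm_num)
      linarith
    have e3 : (F z v : ℝ) ^ 2 = ((F z v : ℝ) * gL (s z v)) ^ 2 +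
        ((F z v : ℝ) * gR (s z v)) ^ 2 := by
      have : ((F z v : ℝ) * gL (s z v)) ^ 2 + ((F z v : ℝ) * gR (s z v)) ^ 2 =
        (F z v : ℝ) ^ 2 * (gL (s z v) ^ 2 + gR (s z v) ^ 2) := by ring
      rw [this, c1, mul_one]
    have e4 : (F z v : ℝ) ^ 2 ≤ (partL (F z) (s z) v : ℝ) ^ 2 +
        (partR (F z) (s z) v : ℝ) ^ 2 + 4 * β := by linarith
    have e5 : F z v ^ 2 ≤ partL (F z) (s z) v ^ 2 + partR (F z) (s z) v ^ 2 + 4 * β := by
      exact_mod_cast e4
    omega
  have h3 : h v ^ 2 ≤ nextSq h Z F s v +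
      (Z.map fun z => F z v ^ 2 - partR (F z) (s z) v ^ 2).sum := by
    unfold nextSq; omega
  have e : (4 * Z.length + 2) * β = 4 * β * Z.length + 2 * β := by ring
  omega

end Level

/-- weight of the violated constraints in the labelled part -/
theorem level_viol {V : Type*} {k : ℕ} (E : List (Con V k)) {F : V → ℕ} {s : V → ℝ}
    (hs0 : ∀ v, 0 ≤ s v) (a : V → Fin k) :
    (pieceV E (partL F s) a : ℝ) ≤ 4 * (E.map fun e => if a e.2.1 = e.2.2 (a e.1) then 0
      else (F e.1 : ℝ) * F e.2.1 * (s e.1 * s e.2.1)).sum := by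
  unfold pieceV
  rw [castSum, ← sum_map_mul']
  refine sum_map_le E fun e _ => ?_
  by_cases h : a e.2.1 = e.2.2 (a e.1)
  · rw [if_pos h, if_pos h]; simp
  · rw [if_neg h, if_neg h]
    push_cast
    have h1 : ∀ v, (partL F s v : ℝ) ≤ F v * (2 * s v) := fun v =>
      (partL_le_real hs0 v).trans (mul_le_mul_of_nonneg_left (gL_le_two (hs0 v))
        (Nat.cast_nonneg _))
    have h2 := hs0 e.1
    calc (partL F s e.1 : ℝ) * partL F s e.2.1 ≤ (F e.1 * (2 * s e.1)) * (F e.2.1 * (2 * s e.2.1)) :=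
          mul_le_mul (h1 _) (h1 _) (Nat.cast_nonneg _) (by positivity)
      _ = _ := by ring

end Vale.Agent.P325.V2
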