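import Vale.Agent.P325.V2.Inv2
import Vale.Agent.P325.V2.Level
import Vale.Agent.P325.Core

/-!
# One level, quantitatively
-/

namespace Vale.Agent.P325.V2

open Finset Vale.Agent.P325 Vale.Agent.P325.Alg Alg2

section
variable {V : Type*} {k N : ℕ} [Fintype V] [DecidableEq V]

omit [Fintype V] [DecidableEq V] in
theorem violR_nonneg (E : List (Con V k)) (F : V → ℕ) (a : V → Fin k) {s : V → ℝ}
    (hs : ∀ u, 0 ≤ s u) : 0 ≤ violR E F a s := by
  unfold violR
  refine List.sum_nonneg fun y hy => ?_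
  obtain ⟨c, _, rfl⟩ := List.mem_map.1 hy
  have := hs c.1
  have := hs c.2.1
  split_ifs
  · exact le_rfl
  · positivity

omit [Fintype V] [DecidableEq V] in
theorem pieceW_le_msR (E : List (V × V)) (h : V → ℕ) : (pieceW E h : ℝ) ≤ msR E (toR h) := by
  unfold pieceW msR
  rw [castSum]
  refine sum_map_le E fun e _ => ?_
  simp only [toR]
  push_cast
  nlinarith [sq_nonneg ((h e.1 : ℝ) - h e.2)]

omit [Fintype V] [DecidableEq V] in
theorem msR_eq (E : List (V × V)) (h : V → ℕ) :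
    msR E (toR h) = pieceW E h + enR E (toR h) := by
  unfold pieceW msR enR
  rw [castSum, ← sum_map_add']
  congr 1
  refine List.map_congr_left fun e _ => ?_
  simp only [toR]
  push_cast
  ring

omit [Fintype V] [DecidableEq V] in
theorem tvN_cast (E : List (V × V)) (G : V → ℕ) : (tvN E G : ℝ) =
    (E.map fun e => |(G e.1 : ℝ) ^ 2 - (G e.2 : ℝ) ^ 2|).sum := by
  unfold tvN
  rw [castSum]
  congr 1
  refine List.map_congr_left fun e _ => ?_
  rcases le_total (G e.1 ^ 2) (G e.2 ^ 2) with h | h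
  · rw [Nat.sub_eq_zero_of_le h, Nat.zero_add, Nat.cast_sub h]
    have h' : ((G e.1 : ℝ)) ^ 2 ≤ (G e.2 : ℝ) ^ 2 := by exact_mod_cast h
    rw [abs_of_nonpos (by linarith)]
    push_cast; ring
  · rw [Nat.sub_eq_zero_of_le h, Nat.add_zero, Nat.cast_sub h]
    have h' : ((G e.2 : ℝ)) ^ 2 ≤ (G e.1 : ℝ) ^ 2 := by exact_mod_cast h
    rw [abs_of_nonneg (by linarith)]
    push_cast; ring

/-- the estimates for one level -/
structure StepFacts (E : List (Con V k)) (k1 b H j : ℕ) (δ : ℝ) (z z' : LvS V) : Prop where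
  en : enR (base E) (toR z'.h) ≤ enR (base E) (toR z.h) + pieceW (base E) z.h / k1 +
    4 * (δ * (4 ^ b * 4 * E.length)) + (2 * 2 ^ b + 1) * E.length * (2 * j + 1)
  ms : msR (base E) (toR z'.h) ≤ 4 / 3 * (enR (base E) (toR z.h) + pieceW (base E) z.h / k1 +
    H * (δ * (4 ^ b * 4 * E.length)))
  tv : (z'.aT : ℝ) ≤ z.aT + Real.sqrt (enR (base E) (toR z.h) + pieceW (base E) z.h / k1 +
    4 * (δ * (4 ^ b * 4 * E.length)) + (2 * 2 ^ b + 1) * E.length * (2 * j + 1)) *
      Real.sqrt (msR (base E) (toR z.h))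
  vi : (z'.aV : ℝ) ≤ z.aV + δ * (4 ^ b * 4 * E.length)
  sq : ∀ u, z.Sq u + z.h u ^ 2 ≤ z'.Sq u + z'.h u ^ 2 + (4 * j + 2) * 2 ^ b

theorem stepFacts {E : List (Con V k)} {H : ℕ} {P : Alg.Num} {q k1 b : ℕ} (hH : 0 < H)
    (hP : OkH (prm P) q k1) (hb : P.b = b) {z z' : LvS V} (hz : Inv E b z)
    (hW : 4 ^ P.b * 4 * E.length ≤ P.n * totN (base E) z.h) {rs : List (Leaf V k)} {j : ℕ}
    (hE : E ≠ []) (hV : Fintype.card V ≤ P.n)
    (hr : ReachH (prm P) (base E) z.h j ([], rs.map Leaf.F))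
    (hrs : ∀ x ∈ rs, LeafOK N E H P x)
    (hz' : z' = ⟨fun u => Nat.sqrt (z.h u ^ 2 - hqA rs u), fun u => z.Sq u + sqA rs u,
      z.aT + tvA E rs, z.aV + vA E rs⟩) (a : V → Fin k) {τ ε : ℝ} (hτ : 0 ≤ τ)
    (ha : (viol E a : ℝ) ≤ ε * E.length)
    (hleaf : ∀ x ∈ rs, objR H E x.F x.a x.s ≤
      144 * H * (τ * pieceW (base E) x.F + 2 * pieceV E x.F a)) :
    StepFacts E k1 b H j (144 * (τ + ε / 2)) z z' := by
  subst hb
  have hbE : base E ≠ [] := by simpa [base] using hE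
  have hW0 : 4 ^ P.b * (4 * (base E).length) ≤ P.n * totN (base E) z.h := by
    rw [length_base, ← mul_assoc]; exact hW
  have hk1 : 0 < k1 := hP.hk1
  have hHR : (0 : ℝ) < H := by exact_mod_cast hH
  -- facts about the process
  have hsq : ∀ v, (rs.map fun x => x.F v ^ 2).sum ≤ z.h v ^ 2 := hqA_le hP rfl hz hW hr
  have htot := reachH_tot hP hz.h_le hW0 hbE hV hr
  rw [List.map_map] at htot
  have htot' : k1 * pieceW (base E) z.h ≤ pieceW (base E) z.h +
      k1 * (rs.map fun x => pieceW (base E) x.F).sum := htot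
  obtain ⟨_, hlen, _, hF⟩ := reachH_len hP hz.h_le hW0 hr
  have hlen' : rs.length ≤ j := by simpa using hlen
  have hF' : ∀ x ∈ rs, ∀ v, x.F v ≤ 2 ^ P.b := fun x hx v =>
    hF x.F (List.mem_map.2 ⟨x, hx, rfl⟩) v
  have hs0 : ∀ x ∈ rs, ∀ v, 0 ≤ x.s v := fun x hx v => (hrs x hx).s_nonneg v
  have hs1 : ∀ x ∈ rs, ∀ v, x.s v ≤ 1 := fun x hx v => (hrs x hx).s_le_one v
  -- sums over the leaves
  have hsqB : ∀ v, (rs.map fun x => x.F v ^ 2).sum ≤ 4 ^ P.b := fun v => by
    have := hz.le v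
    have := hsq v
    omega
  have hWs : (((rs.map fun x => pieceW (base E) x.F).sum : ℕ) : ℝ) ≤
      4 ^ P.b * 4 * E.length := by
    have h1 := sum_pieceW_le (base E) (rs.map Leaf.F) (B := 4 ^ P.b) (by
      intro v; rw [List.map_map]; exact hsqB v)
    rw [length_base, List.map_map] at h1
    exact_mod_cast h1
  have hVs : (((rs.map fun x => pieceV E x.F a).sum : ℕ) : ℝ) ≤ ε / 4 * (4 ^ P.b * 4 * E.length) := by
    have h1 := sum_pieceV_le E (rs.map Leaf.F) (B := 4 ^ P.b) (by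
      intro v; rw [List.map_map]; exact hsqB v) a
    rw [List.map_map] at h1
    have h2 : (((rs.map fun x => pieceV E x.F a).sum : ℕ) : ℝ) ≤ 4 ^ P.b * viol E a := by
      exact_mod_cast h1
    refine h2.trans ((mul_le_mul_of_nonneg_left ha (by positivity)).trans (le_of_eq ?_))
    ring
  set T : ℝ := 4 ^ P.b * 4 * E.length with hT
  set A1 := (rs.map fun x => energy (GF (base E) x.F) x.s).sum with hA1
  set A2 := (rs.map fun x => violR E x.F x.a x.s).sum with hA2
  set A3 := (rs.map fun x => ∑ u, deg (GF (base E) x.F) u * (1 - x.s u ^ 2)).sum with hA3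
  have hobj : H * (A1 + 4 * A2) + A3 ≤ H * (144 * (τ + ε / 2) * T) := by
    have h1 : H * (A1 + 4 * A2) + A3 = (rs.map fun x => objR H E x.F x.a x.s).sum := by
      unfold objR
      rw [sum_map_add', sum_map_mul', sum_map_add', sum_map_mul']
    rw [h1]
    refine (sum_map_le rs hleaf).trans ?_
    rw [sum_map_mul', sum_map_add', sum_map_mul', sum_map_mul', ← castSum, ← castSum]
    have h2 : τ * (((rs.map fun x => pieceW (base E) x.F).sum : ℕ) : ℝ) +
        2 * (((rs.map fun x => pieceV E x.F a).sum : ℕ) : ℝ) ≤ (τ + ε / 2) * T := by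
      have := mul_le_mul_of_nonneg_left hWs hτ
      linarith
    calc 144 * (H : ℝ) * (τ * (((rs.map fun x => pieceW (base E) x.F).sum : ℕ) : ℝ) +
        2 * (((rs.map fun x => pieceV E x.F a).sum : ℕ) : ℝ)) ≤ 144 * H * ((τ + ε / 2) * T) :=
          mul_le_mul_of_nonneg_left h2 (by positivity)
      _ = _ := by ring
  have hA1' : 0 ≤ A1 := List.sum_nonneg fun y hy => by
    obtain ⟨x, _, rfl⟩ := List.mem_map.1 hy
    exact (GF_isForm _ _).energy_nonneg _
  have hA2' : 0 ≤ A2 := List.sum_nonneg fun y hy => by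
    obtain ⟨x, hx, rfl⟩ := List.mem_map.1 hy
    exact violR_nonneg E _ _ (hs0 x hx)
  have hA3' : 0 ≤ A3 := List.sum_nonneg fun y hy => by
    obtain ⟨x, hx, rfl⟩ := List.mem_map.1 hy
    refine sum_nonneg fun u _ => mul_nonneg ((GF_isForm _ _).deg_nonneg u) ?_
    nlinarith [hs0 x hx u, hs1 x hx u]
  have hb12 : A1 + 4 * A2 ≤ 144 * (τ + ε / 2) * T := by
    have h1 : (H : ℝ) * (A1 + 4 * A2) ≤ H * (144 * (τ + ε / 2) * T) := by linarith
    exact le_of_mul_le_mul_left h1 hHR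
  have hb1 : A1 ≤ 144 * (τ + ε / 2) * T := by linarith
  have hb2 : 4 * A2 ≤ 144 * (τ + ε / 2) * T := by linarith
  have hb3 : A3 ≤ H * (144 * (τ + ε / 2) * T) := by
    have : 0 ≤ (H : ℝ) * (A1 + 4 * A2) := by positivity
    linarith
  have hρ : ((2 * (2 ^ P.b : ℕ) + 1) * (base E).length * (2 * rs.length + 1) : ℝ) ≤
      (2 * 2 ^ P.b + 1) * E.length * (2 * j + 1) := by
    rw [length_base]
    push_cast
    have : (rs.length : ℝ) ≤ j := by exact_mod_cast hlen'
    gcongr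
  have hnext : z'.h = nextH z.h rs Leaf.F Leaf.s := by
    rw [hz']; rfl
  refine ⟨?_, ?_, ?_, ?_, ?_⟩
  · have h1 := level_en (E := base E) (h := z.h) (Z := rs) (F := Leaf.F) (s := Leaf.s) hk1
      hz.h_le hs0 hs1 hF' hsq htot'
    rw [hnext]
    refine h1.trans ?_
    have : 4 * (rs.map fun x => energy (GF (base E) x.F) x.s).sum ≤
      4 * (144 * (τ + ε / 2) * T) := by linarith
    linarith
  · have h1 := level_ms (E := base E) (h := z.h) (Z := rs) (F := Leaf.F) (s := Leaf.s) hk1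
      hs0 hs1 hsq htot'
    rw [hnext]
    refine h1.trans ?_
    refine mul_le_mul_of_nonneg_left ?_ (by norm_num)
    exact add_le_add_right hb3 _
  · have h1 := level_tv (E := base E) (h := z.h) (Z := rs) (F := Leaf.F) (s := Leaf.s) hk1
      hs0 hs1 hF' hsq htot'
    have h2 : (z'.aT : ℝ) = z.aT + (rs.map fun x => ((base E).map fun e =>
      |(partL x.F x.s e.1 : ℝ) ^ 2 - (partL x.F x.s e.2 : ℝ) ^ 2|).sum).sum := by
      rw [hz']
      show ((z.aT + tvA E rs : ℕ) : ℝ) = _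
      unfold tvA
      rw [Nat.cast_add, castSum]
      congr 2
      exact List.map_congr_left fun x _ => tvN_cast _ _
    rw [h2]
    refine add_le_add_right (h1.trans ?_) _
    refine mul_le_mul_of_nonneg_right (Real.sqrt_le_sqrt ?_) (Real.sqrt_nonneg _)
    have : 4 * (rs.map fun x => energy (GF (base E) x.F) x.s).sum ≤
      4 * (144 * (τ + ε / 2) * T) := by linarith
    linarith
  · rw [hz']
    show ((z.aV + vA E rs : ℕ) : ℝ) ≤ _
    unfold vA
    rw [Nat.cast_add, castSum]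
    refine add_le_add_right (le_trans ?_ hb2) _
    rw [hA2, ← sum_map_mul']
    exact sum_map_le rs fun x hx => level_viol E (hs0 x hx) x.a
  · intro u
    have h1 := le_level_sq (h := z.h) (Z := rs) (F := Leaf.F) (s := Leaf.s) hz.h_le hs0 hs1 hF'
      hsq u
    rw [hnext, hz']
    show z.Sq u + z.h u ^ 2 ≤ z.Sq u + sqA rs u + nextH z.h rs Leaf.F Leaf.s u ^ 2 +
      (4 * j + 2) * 2 ^ P.b
    have h2 : (4 * rs.length + 2) * 2 ^ P.b ≤ (4 * j + 2) * 2 ^ P.b :=
      Nat.mul_le_mul_right _ (by omega)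
    have h3 : sqA rs u = (rs.map fun x => partL x.F x.s u ^ 2).sum := rfl
    rw [h3]
    omega

end

end Vale.Agent.P325.V2
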