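import Vale.Agent.P325.V2.Leaf2
import Vale.Agent.P325.V2.Step2
import Vale.Agent.P325.V2.Round2

/-!
# Soundness and completeness of the algorithm with levels
-/

namespace Vale.Agent.P325.V2

open Finset Vale.Agent.P325 Vale.Agent.P325.Alg Alg2

variable {V : Type*} {N : ℕ} (e : V ≃ Fin N) [Fintype V] [DecidableEq V]

omit [Fintype V] [DecidableEq V] in
/-- the final test -/
theorem acceptL2_iff {k : ℕ} (I b : ℕ) (E : List (Con V k)) (z : LvS V) :
    acceptL2 I b (conL e E) (lvL e z) = true ↔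
      16 ^ I * (((base E).map fun p => 2 * 4 ^ b - (z.Sq p.1 + z.Sq p.2)).sum +
        2 * z.aT + 2 * z.aV) ≤ 8 * 4 ^ b * E.length := by
  unfold acceptL2 lvL
  simp only
  rw [decide_eq_true_eq, baseL_eq]
  have h1 : (conL e E).length = E.length := by unfold conL; rw [List.length_map]
  rw [h1]
  unfold edg
  rw [List.map_map]
  have h2 : ((fun e_1 : ℕ × ℕ => 2 * 4 ^ b - (gt (enl e z.Sq) e_1.1 + gt (enl e z.Sq) e_1.2)) ∘
      fun p : V × V => (idx e p.1, idx e p.2)) = fun p => 2 * 4 ^ b - (z.Sq p.1 + z.Sq p.2) := by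
    funext p
    simp only [Function.comp, gt_enl]
  rw [h2]

/-- soundness -/
theorem runL2_sound {c : Cst2} (hk : 2 ≤ c.k) (E : List (Con V c.k)) (hE : E ≠ [])
    {n r B : ℕ} (hf : PFacts2 c n r B) (hV : Fintype.card V ≤ n)
    (h : runL2 c N (conL e E) n r B = true) :
    ∃ a : V → Fin c.k, 16 ^ c.I * viol E a ≤ 8 * E.length := by
  have hk0 : 0 < c.k := by omega
  have : NeZero c.k := ⟨hk0.ne'⟩
  obtain ⟨z, h1, h2, h3, h4⟩ := levelsL_eq e hk0 E hE hf hV
  unfold runL2 at h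
  rw [h4, acceptL2_iff] at h
  obtain ⟨Z, g1, g2, g3⟩ := (h2 c.I le_rfl).ex
  obtain ⟨a, ha⟩ := exists_rounding2 E Z (4 ^ bAt c n) (by positivity) (fun v => by
    rw [← g1]
    have := (h2 c.I le_rfl).le v
    omega)
  refine ⟨a, ?_⟩
  simp only [← g1] at ha
  rw [← g2, ← g3] at ha
  have h5 : 4 ^ bAt c n * (16 ^ c.I * viol E a) ≤ 4 ^ bAt c n * (8 * E.length) := by
    calc 4 ^ bAt c n * (16 ^ c.I * viol E a) = 16 ^ c.I * (4 ^ bAt c n * viol E a) := by ring
      _ ≤ 16 ^ c.I * (((base E).map fun p => 2 * 4 ^ bAt c n -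
          ((z c.I).Sq p.1 + (z c.I).Sq p.2)).sum + 2 * (z c.I).aT + 2 * (z c.I).aV) :=
        Nat.mul_le_mul_left _ ha
      _ ≤ 8 * 4 ^ bAt c n * E.length := h
      _ = _ := by ring
  exact Nat.le_of_mul_le_mul_left h5 (by positivity)

/-- the hypotheses of the recursion -/
def LevHyp {c : Cst2} (E : List (Con V c.k)) (n : ℕ) (δ : ℝ) (z : ℕ → LvS V) : Prop :=
  ∀ i < c.I, (n * totN (base E) (z i).h < 4 ^ bAt c n * 4 * E.length ∧ z (i + 1) = z i) ∨
    ∃ j, j ≤ 2 * Nat.size n * (4 * n ^ 5) ^ (16 * c.q * k1At c i) + 1 ∧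
      StepFacts E (k1At c i) (bAt c n) (hAt c i) j δ (z i) (z (i + 1))

/-- completeness, up to the recursion -/
theorem runL2_levels {c : Cst2} {ε : ℝ} (hk : 2 ≤ c.k) (hq : 1 ≤ c.q) (hcq : 1 ≤ c.cq)
    (E : List (Con V c.k)) (hE : E ≠ [])
    {n r B : ℕ} (hf : PFacts2 c n r B) (hV : Fintype.card V ≤ n)
    (a : V → Fin c.k) (ha : (viol E a : ℝ) ≤ ε * E.length) :
    ∃ z : ℕ → LvS V, z 0 = z0 (bAt c n) ∧ (∀ i ≤ c.I, Inv E (bAt c n) (z i)) ∧
      LevHyp E n (144 * (1 / (bigD c : ℝ) + ε / 2)) z ∧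
      runL2 c N (conL e E) n r B = acceptL2 c.I (bAt c n) (conL e E) (lvL e (z c.I)) := by
  have hk0 : 0 < c.k := by omega
  obtain ⟨z, h1, h2, h3, h4⟩ := levelsL_eq e hk0 E hE hf hV
  refine ⟨z, h1, h2, ?_, by unfold runL2; rw [h4]⟩
  intro i hi
  have hok := hf.ok i hi
  rcases h3 i hi with h5 | ⟨hW, rs, j, hr, hrs, hz'⟩
  · exact Or.inl h5
  · refine Or.inr ⟨j, ?_, ?_⟩
    · have hW0 : 4 ^ (nums2 c n r B i).b * (4 * (base E).length) ≤
          (nums2 c n r B i).n * totN (base E) (z i).h := by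
        rw [length_base, ← mul_assoc]; exact hW
      exact reachH_bound hok (h2 i hi.le).h_le hW0 (by simpa [base] using hE) hV hr
    · have hH : 0 < hAt c i := by
        have hk1 := hok.hk1
        unfold hAt
        positivity
      have hD : (0 : ℝ) < bigD c := by
        have : 0 < bigD c := by unfold bigD; positivity
        exact_mod_cast this
      refine stepFacts (τ := 1 / (bigD c : ℝ)) hH hok rfl (h2 i hi.le) hW hE hV hr hrs hz' a
        (by positivity) ha ?_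
      intro x hx
      have hxF : ∀ v t, ¬ Good (prm (nums2 c n r B i)) (base E) x.F v t := fun v t =>
        reachH_leaf hr x.F (List.mem_map.2 ⟨x, hx, rfl⟩) v t
      refine leaf_obj E hH (nums2 c n r B i) (hrs x hx) hV hf.hS hok.R_pos hok.r_pos
        hok.n_lt.le (hf.hlog i hi) (hf.hT i hi) ?_ hxF a ?_
      · refine le_trans (Nat.pow_le_pow_left (Nat.mul_le_mul_right _ ?_) _) hf.hcert
        have : Fintype.card V = N := by rw [Fintype.card_congr e, Fintype.card_fin]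
        rw [← this]; exact hV
      · rw [le_div_iff₀ hD, mul_comm]
        exact hf.hτ

end Vale.Agent.P325.V2
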