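import Vale.Agent.P325.V2.Core2

/-!
# The recursion over the levels
-/

namespace Vale.Agent.P325.V2

open Finset Vale.Agent.P325 Vale.Agent.P325.Alg Alg2

/-! ### Real sequences -/

/-- One step of the recursion over the levels, in units of the total mass; `K = 256 ^ I`,
`e` energy, `μ` mass, `a` total variation, `v` violated weight, `k1` cut budget, `H` the factor of
the objective. -/
structure RStep (k1 H δ ρ ν e μ a v e' μ' a' v' : ℝ) : Prop where
  en : e' ≤ e + μ / k1 + (4 * δ + ρ)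
  ms : μ' ≤ 4 / 3 * (e + μ / k1 + H * δ) ∨ μ' ≤ e + ν
  tv : a' ≤ a + Real.sqrt (e + μ / k1 + (4 * δ + ρ)) * Real.sqrt μ
  vi : v' ≤ v + δ

theorem rec_cancel {M c t : ℝ} (hM : 1 ≤ M) (hc : 0 ≤ c) (h : M * t ≤ c) : t ≤ c := by
  rcases le_total t 0 with h1 | h1
  · exact h1.trans hc
  · exact (le_mul_of_one_le_left h1 hM).trans h

theorem rec_sqrt {x y A B : ℝ} (hA : 0 ≤ A) (hB : 0 ≤ B) (hx : x ≤ A ^ 2) (hy : y ≤ B ^ 2) :
    Real.sqrt x * Real.sqrt y ≤ A * B :=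
  mul_le_mul (Real.sqrt_le_iff.2 ⟨hA, hx⟩) (Real.sqrt_le_iff.2 ⟨hB, hy⟩) (Real.sqrt_nonneg _) hA

/-- the recursion -/
theorem rec_main (I : ℕ) {Q δ ρ ν : ℝ} (hQ : 1 ≤ Q) (hδ0 : 0 ≤ δ)
    (hδ : 10 ^ 10 * (Q * 256 ^ I) * δ ≤ 300) (hρ : 10 ^ 5 * 256 ^ I * ρ ≤ 1)
    (hν : 10 ^ 5 * 256 ^ I * ν ≤ 1)
    (e μ a v : ℕ → ℝ) (he0 : e 0 ≤ 0) (hμ0 : μ 0 ≤ 1) (ha0 : a 0 ≤ 0) (hv0 : v 0 ≤ 0)
    (hstep : ∀ i < I, RStep (48 * 4 ^ I * 64 ^ (I - i)) (3200 * Q * (48 * 4 ^ I * 64 ^ (I - i)))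
      δ ρ ν (e i) (μ i) (a i) (v i) (e (i + 1)) (μ (i + 1)) (a (i + 1)) (v (i + 1))) :
    ∀ i ≤ I, 144 * 256 ^ I * e i ≤ 2 * (4 ^ i - 1) ∧ 16 ^ i * μ i ≤ 1 ∧
      4 * 16 ^ I * a i ≤ 2 * (1 - (1 / 2) ^ i) ∧ v i ≤ i * δ := by
  intro i
  induction i with
  | zero =>
    intro _
    refine ⟨?_, ?_, ?_, ?_⟩
    · have : (144 : ℝ) * 256 ^ I * e 0 ≤ 0 :=
        mul_nonpos_of_nonneg_of_nonpos (by positivity) he0
      simpa using this
    · simpa using hμ0
    · have : (4 : ℝ) * 16 ^ I * a 0 ≤ 0 :=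
        mul_nonpos_of_nonneg_of_nonpos (by positivity) ha0
      simpa using this
    · simpa using hv0
  | succ i ih =>
    intro hi
    obtain ⟨h1, h2, h3, h4⟩ := ih (by omega)
    obtain ⟨s1, s2, s3, s4⟩ := hstep i (by omega)
    obtain ⟨d, hd⟩ : ∃ d, I = i + 1 + d := ⟨I - (i + 1), by omega⟩
    have hId : I - i = d + 1 := by omega
    rw [hId] at s1 s2 s3
    -- powers
    set x : ℝ := 4 ^ i with hx
    set y : ℝ := 4 ^ d with hy
    have hx1 : 1 ≤ x := one_le_pow₀ (by norm_num)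
    have hy1 : 1 ≤ y := one_le_pow₀ (by norm_num)
    have p4 : (4 : ℝ) ^ I = 4 * x * y := by rw [hd, hx, hy]; ring
    have p16i : (16 : ℝ) ^ i = x ^ 2 := by
      rw [hx, ← pow_mul, mul_comm i 2, pow_mul]; norm_num
    have p16 : (16 : ℝ) ^ I = 16 * x ^ 2 * y ^ 2 := by
      rw [show (16 : ℝ) = 4 ^ 2 by norm_num, ← pow_mul, mul_comm 2 I, pow_mul, p4]; ring
    have p256 : (256 : ℝ) ^ I = 256 * x ^ 4 * y ^ 4 := by
      rw [show (256 : ℝ) = 4 ^ 4 by norm_num, ← pow_mul, mul_comm 4 I, pow_mul, p4]; ring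
    have p64 : (64 : ℝ) ^ (d + 1) = 64 * y ^ 3 := by
      rw [show (64 : ℝ) = 4 ^ 3 by norm_num, ← pow_mul, mul_comm 3 (d + 1), pow_mul, pow_succ, hy]
      ring
    have hk1 : (48 * 4 ^ I * 64 ^ (d + 1) : ℝ) = 12288 * x * y ^ 4 := by
      rw [p4, p64]; ring
    rw [hk1] at s1 s2 s3
    rw [p256] at h1 hδ hρ hν ⊢
    rw [p16] at h3 ⊢
    rw [p16i] at h2
    have hx0 : 0 < x := by linarith
    have hy0 : 0 < y := by linarith
    -- the mass over `k1`
    have hm : 12288 * x ^ 3 * y ^ 4 * (μ i / (12288 * x * y ^ 4)) ≤ 1 := by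
      have : 12288 * x ^ 3 * y ^ 4 * (μ i / (12288 * x * y ^ 4)) = x ^ 2 * μ i := by
        field_simp
      rw [this]; exact h2
    set w := μ i / (12288 * x * y ^ 4) with hw
    -- the four terms of the energy
    have t2 : 144 * (256 * x ^ 4 * y ^ 4) * w ≤ 3 * x := by
      have := mul_le_mul_of_nonneg_left hm (by positivity : (0 : ℝ) ≤ 3 * x)
      linarith [this, (by ring : 3 * x * (12288 * x ^ 3 * y ^ 4 * w) =
        144 * (256 * x ^ 4 * y ^ 4) * w)]
    have hZ : 0 ≤ 256 * x ^ 4 * y ^ 4 * δ := by positivity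
    have t3 : 144 * (256 * x ^ 4 * y ^ 4) * (4 * δ) ≤ 1 := by
      have h5 : 256 * x ^ 4 * y ^ 4 * δ ≤ Q * (256 * x ^ 4 * y ^ 4 * δ) :=
        le_mul_of_one_le_left hZ hQ
      have h6 : 10 ^ 10 * (Q * (256 * x ^ 4 * y ^ 4)) * δ =
        10 ^ 10 * (Q * (256 * x ^ 4 * y ^ 4 * δ)) := by ring
      rw [h6] at hδ
      have h7 : 144 * (256 * x ^ 4 * y ^ 4) * (4 * δ) = 576 * (256 * x ^ 4 * y ^ 4 * δ) := by ring
      rw [h7]
      linarith
    have t4 : 144 * (256 * x ^ 4 * y ^ 4) * ρ ≤ 1 := by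
      have h7 : 144 * (256 * x ^ 4 * y ^ 4) * ρ = 144 / 10 ^ 5 *
        (10 ^ 5 * (256 * x ^ 4 * y ^ 4) * ρ) := by ring
      rw [h7]
      linarith
    have hX : 144 * (256 * x ^ 4 * y ^ 4) * (e i + w + (4 * δ + ρ)) ≤ 5 * x := by
      have h7 : 144 * (256 * x ^ 4 * y ^ 4) * (e i + w + (4 * δ + ρ)) =
        144 * (256 * x ^ 4 * y ^ 4) * e i + 144 * (256 * x ^ 4 * y ^ 4) * w +
        144 * (256 * x ^ 4 * y ^ 4) * (4 * δ) + 144 * (256 * x ^ 4 * y ^ 4) * ρ := by ring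
      rw [h7]
      linarith
    have hy4 : 1 ≤ y ^ 4 := one_le_pow₀ hy1
    have hxy : 1 ≤ x * y ^ 4 := one_le_mul_of_one_le_of_one_le hx1 hy4
    have hx2y : 1 ≤ x ^ 2 * y ^ 4 := one_le_mul_of_one_le_of_one_le (one_le_pow₀ hx1) hy4
    have r1 : 18432 * x ^ 2 * e i ≤ 1 := by
      refine rec_cancel hxy (by norm_num) ?_
      refine le_of_mul_le_mul_left (a := x) ?_ hx0
      have : x * (x * y ^ 4 * (18432 * x ^ 2 * e i)) =
        1 / 2 * (144 * (256 * x ^ 4 * y ^ 4) * e i) := by ring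
      rw [this]
      linarith
    have r2 : 12288 * x ^ 2 * w ≤ 1 := by
      refine rec_cancel hxy (by norm_num) ?_
      have : x * y ^ 4 * (12288 * x ^ 2 * w) = 12288 * x ^ 3 * y ^ 4 * w := by ring
      rw [this]
      exact hm
    have r3 : 10 ^ 10 * 256 * (Q * (x ^ 3 * y ^ 4 * δ)) ≤ 300 := by
      refine rec_cancel hx1 (by norm_num) ?_
      have : x * (10 ^ 10 * 256 * (Q * (x ^ 3 * y ^ 4 * δ))) =
        10 ^ 10 * (Q * (256 * x ^ 4 * y ^ 4)) * δ := by ring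
      rw [this]
      exact hδ
    have r4 : 10 ^ 5 * 256 * (x ^ 2 * ν) ≤ 1 := by
      refine rec_cancel hx2y (by norm_num) ?_
      have : x ^ 2 * y ^ 4 * (10 ^ 5 * 256 * (x ^ 2 * ν)) =
        10 ^ 5 * (256 * x ^ 4 * y ^ 4) * ν := by ring
      rw [this]
      exact hν
    refine ⟨?_, ?_, ?_, ?_⟩
    · have h5 := mul_le_mul_of_nonneg_left s1 (by positivity :
        (0 : ℝ) ≤ 144 * (256 * x ^ 4 * y ^ 4))
      rw [pow_succ (4 : ℝ) i, ← hx]
      linarith
    · rw [pow_succ (16 : ℝ) i, p16i]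
      rcases s2 with s2 | s2
      · have h5 := mul_le_mul_of_nonneg_left s2 (by positivity : (0 : ℝ) ≤ x ^ 2 * 16)
        have h6 : x ^ 2 * 16 * (4 / 3 * (e i + w + 3200 * Q * (12288 * x * y ^ 4) * δ)) =
          64 / 3 * (x ^ 2 * e i) + 64 / 3 * (x ^ 2 * w) +
            64 / 3 * (3200 * 12288) * (Q * (x ^ 3 * y ^ 4 * δ)) := by ring
        rw [h6] at h5
        linarith
      · have h5 := mul_le_mul_of_nonneg_left s2 (by positivity : (0 : ℝ) ≤ x ^ 2 * 16)
        linarith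
    · -- total variation
      set s : ℝ := 2 ^ i with hs
      have hsx : x = s ^ 2 := by
        rw [hx, hs, ← pow_mul, mul_comm i 2, pow_mul]; norm_num
      have hs0 : 0 < s := by positivity
      have h5 : Real.sqrt (e i + w + (4 * δ + ρ)) * Real.sqrt (μ i) ≤
          1 / (64 * s ^ 3 * y ^ 2) * (1 / x) := by
        refine rec_sqrt (by positivity) (by positivity) ?_ ?_
        · have h6 : (1 / (64 * s ^ 3 * y ^ 2)) ^ 2 = 1 / (4096 * x ^ 3 * y ^ 4) := by
            rw [hsx]; field_simp; norm_num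
          rw [h6, le_div_iff₀ (by positivity)]
          refine le_of_mul_le_mul_left (a := 9 * x) ?_ (by positivity)
          have h7 : 9 * x * ((e i + w + (4 * δ + ρ)) * (4096 * x ^ 3 * y ^ 4)) =
            144 * (256 * x ^ 4 * y ^ 4) * (e i + w + (4 * δ + ρ)) := by ring
          rw [h7]
          linarith
        · rw [div_pow, one_pow, le_div_iff₀ (by positivity)]
          linarith
      have h6 := mul_le_mul_of_nonneg_left (s3.trans (add_le_add_right h5 _)) (by positivity :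
        (0 : ℝ) ≤ 4 * (16 * x ^ 2 * y ^ 2))
      have h7 : 4 * (16 * x ^ 2 * y ^ 2) * (a i + 1 / (64 * s ^ 3 * y ^ 2) * (1 / x)) =
        4 * (16 * x ^ 2 * y ^ 2) * a i + 1 / s := by
        rw [hsx]; field_simp; ring
      have h8 : (1 / 2 : ℝ) ^ i = 1 / s := by rw [hs, one_div_pow]
      rw [h7] at h6
      rw [pow_succ (1 / 2 : ℝ) i, h8]
      rw [h8] at h3
      linarith
    · push_cast
      linarith
/-! ### The levels -/

section
variable {V : Type*} {k : ℕ} [Fintype V] [DecidableEq V]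

omit [Fintype V] [DecidableEq V] in
/-- real numbers of a level: energy, mass, total variation, violated weight, over the unit `T` -/
theorem rstep_of_facts {E : List (Con V k)} {c : Cst2} {b n i j : ℕ} {δ Q ρ ν T : ℝ}
    (hn0 : 0 < n) (hT : T = 4 ^ b * 4 * E.length)
    (hT0 : 0 < T) (hk1 : 0 < k1At c i) (hρ : 1 ≤ ρ * n) {z z' : LvS V}
    (hj : 2 * n * (2 * j + 1) ≤ 2 ^ b) (hH : (hAt c i : ℝ) = 3200 * Q * k1At c i)
    (h : StepFacts E (k1At c i) b (hAt c i) j δ z z') :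
    RStep (k1At c i) (3200 * Q * k1At c i) δ ρ ν (enR (base E) (toR z.h) / T)
      (msR (base E) (toR z.h) / T) (z.aT / T) (z.aV / T) (enR (base E) (toR z'.h) / T)
      (msR (base E) (toR z'.h) / T) (z'.aT / T) (z'.aV / T) := by
  have hkR : (0 : ℝ) < k1At c i := by exact_mod_cast hk1
  have hnR : (0 : ℝ) < n := by exact_mod_cast hn0
  obtain ⟨h1, h2, h3, h4, -⟩ := h
  rw [← hT] at h1 h2 h3 h4
  have hw : (pieceW (base E) z.h : ℝ) / k1At c i ≤ T * (msR (base E) (toR z.h) / T / k1At c i) := by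
    have e1 : T * (msR (base E) (toR z.h) / T / k1At c i) =
        msR (base E) (toR z.h) / k1At c i := by field_simp
    rw [e1]
    exact div_le_div_of_nonneg_right (pieceW_le_msR _ _) hkR.le
  have hr : (2 * 2 ^ b + 1 : ℝ) * E.length * (2 * j + 1) ≤ T * ρ := by
    have h5 : (2 * (n : ℝ) * (2 * j + 1)) ≤ 2 ^ b := by exact_mod_cast hj
    have h6 : (1 : ℝ) ≤ 2 ^ b := one_le_pow₀ (by norm_num)
    have h7 : (2 * 2 ^ b + 1 : ℝ) * E.length * (2 * j + 1) ≤
        (4 * 2 ^ b : ℝ) * E.length * (2 * j + 1) := by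
      have : (0 : ℝ) ≤ E.length * (2 * j + 1) := by positivity
      nlinarith
    have h8 : (4 * 2 ^ b : ℝ) * E.length * (2 * j + 1) * (2 * n) ≤
        (4 * 2 ^ b : ℝ) * E.length * 2 ^ b := by
      have h9 := mul_le_mul_of_nonneg_left h5 (by positivity : (0 : ℝ) ≤ 4 * 2 ^ b * E.length)
      linarith [h9, (by ring : (4 * 2 ^ b : ℝ) * E.length * (2 * j + 1) * (2 * n) =
        4 * 2 ^ b * E.length * (2 * n * (2 * j + 1)))]
    have h10 : (4 * 2 ^ b : ℝ) * E.length * 2 ^ b = T := by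
      rw [hT, show (4 : ℝ) ^ b = 2 ^ b * 2 ^ b by rw [← mul_pow]; norm_num]
      ring
    rw [h10] at h8
    refine h7.trans ?_
    have h11 : T ≤ T * ρ * (2 * n) := by
      have : 1 ≤ ρ * n * 2 := by linarith
      nlinarith
    have h12 : (4 * 2 ^ b : ℝ) * E.length * (2 * j + 1) * (2 * n) ≤ T * ρ * (2 * n) :=
      h8.trans h11
    exact le_of_mul_le_mul_right h12 (by positivity)
  set X : ℝ := enR (base E) (toR z.h) / T + msR (base E) (toR z.h) / T / k1At c i +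
    (4 * δ + ρ) with hX
  have hTX : enR (base E) (toR z.h) + pieceW (base E) z.h / k1At c i + 4 * (δ * T) +
      (2 * 2 ^ b + 1) * E.length * (2 * j + 1) ≤ T * X := by
    have e1 : T * X = enR (base E) (toR z.h) + T * (msR (base E) (toR z.h) / T / k1At c i) +
        4 * (δ * T) + T * ρ := by
      rw [hX]; field_simp; ring
    rw [e1]
    linarith
  have hms : msR (base E) (toR z.h) = T * (msR (base E) (toR z.h) / T) := by field_simp
  refine ⟨?_, Or.inl ?_, ?_, ?_⟩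
  · rw [div_le_iff₀ hT0, mul_comm]
    exact h1.trans hTX
  · rw [div_le_iff₀ hT0]
    refine h2.trans ?_
    have e1 : 4 / 3 * (enR (base E) (toR z.h) / T + msR (base E) (toR z.h) / T / k1At c i +
        3200 * Q * k1At c i * δ) * T = 4 / 3 * (enR (base E) (toR z.h) +
          T * (msR (base E) (toR z.h) / T / k1At c i) + 3200 * Q * k1At c i * (δ * T)) := by
      field_simp
    rw [e1, hH]
    refine mul_le_mul_of_nonneg_left ?_ (by norm_num)
    linarith
  · rw [div_le_iff₀ hT0]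
    refine h3.trans ?_
    have e1 : ((z.aT : ℝ) / T + Real.sqrt X * Real.sqrt (msR (base E) (toR z.h) / T)) * T =
        z.aT + T * (Real.sqrt X * Real.sqrt (msR (base E) (toR z.h) / T)) := by
      field_simp
    rw [e1]
    refine add_le_add_right ?_ _
    rw [hms]
    have hTs : T * (Real.sqrt X * Real.sqrt (T * (msR (base E) (toR z.h) / T) / T)) =
        Real.sqrt (T * X) * Real.sqrt (T * (msR (base E) (toR z.h) / T)) := by
      rw [Real.sqrt_mul hT0.le, Real.sqrt_mul hT0.le, mul_div_cancel_left₀ _ hT0.ne']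
      have : Real.sqrt T * Real.sqrt T = T := Real.mul_self_sqrt hT0.le
      calc T * (Real.sqrt X * Real.sqrt (msR (base E) (toR z.h) / T)) =
          (Real.sqrt T * Real.sqrt T) *
            (Real.sqrt X * Real.sqrt (msR (base E) (toR z.h) / T)) := by rw [this]
        _ = _ := by ring
    rw [hTs]
    exact mul_le_mul_of_nonneg_right (Real.sqrt_le_sqrt hTX) (Real.sqrt_nonneg _)
  · rw [div_le_iff₀ hT0]
    refine h4.trans (le_of_eq ?_)
    field_simp

/-- a skipped level -/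
theorem rstep_of_skip {E : List (Con V k)} {k1 H δ ρ ν T : ℝ} {n : ℕ}
    (hn0 : 0 < n) (hδ0 : 0 ≤ δ) (hρ0 : 0 ≤ ρ) (hT0 : 0 < T) (hk1 : 0 < k1)
    (hν : 1 ≤ ν * n) {z : LvS V} (h : n * (totN (base E) z.h : ℝ) ≤ T) :
    RStep k1 H δ ρ ν (enR (base E) (toR z.h) / T)
      (msR (base E) (toR z.h) / T) (z.aT / T) (z.aV / T) (enR (base E) (toR z.h) / T)
      (msR (base E) (toR z.h) / T) (z.aT / T) (z.aV / T) := by
  have hnR : (0 : ℝ) < n := by exact_mod_cast hn0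
  have hms : 0 ≤ msR (base E) (toR z.h) / T :=
    div_nonneg ((Nat.cast_nonneg _).trans (pieceW_le_msR _ _)) hT0.le
  refine ⟨?_, Or.inr ?_, ?_, ?_⟩
  · have : 0 ≤ msR (base E) (toR z.h) / T / k1 := div_nonneg hms hk1.le
    linarith
  · rw [msR_eq, add_div]
    have h1 : (pieceW (base E) z.h : ℝ) / T ≤ ν := by
      rw [totN_eq] at h
      rw [div_le_iff₀ hT0]
      refine le_of_mul_le_mul_left (a := (n : ℝ)) ?_ hnR
      refine h.trans ?_
      have : T * 1 ≤ T * (ν * n) := mul_le_mul_of_nonneg_left hν hT0.le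
      linarith
    linarith
  · have := mul_nonneg (Real.sqrt_nonneg (enR (base E) (toR z.h) / T +
      msR (base E) (toR z.h) / T / k1 + (4 * δ + ρ))) (Real.sqrt_nonneg
        (msR (base E) (toR z.h) / T))
    linarith
  · linarith

theorem accept_of_steps {E : List (Con V k)} (hE : E ≠ []) (c : Cst2) (hq : 1 ≤ c.q)
    (hcq : 1 ≤ c.cq) {b n : ℕ} {δ : ℝ} (hδ0 : 0 ≤ δ) (hδ : bigD c * δ ≤ 300) (hn : bigD c ≤ n)
    (z : ℕ → LvS V) (h0 : z 0 = z0 b)
    (hstep : ∀ i < c.I, (n * totN (base E) (z i).h < 4 ^ b * 4 * E.length ∧ z (i + 1) = z i) ∨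
      ∃ j, 2 * n * (2 * j + 1) ≤ 2 ^ b ∧
        StepFacts E (k1At c i) b (hAt c i) j δ (z i) (z (i + 1))) :
    16 ^ c.I * (((base E).map fun e => 2 * 4 ^ b - ((z c.I).Sq e.1 + (z c.I).Sq e.2)).sum +
      2 * (z c.I).aT + 2 * (z c.I).aV) ≤ 8 * 4 ^ b * E.length := by
  have hm : 0 < E.length := List.length_pos_of_ne_nil hE
  have hmR : (0 : ℝ) < E.length := by exact_mod_cast hm
  set T : ℝ := 4 ^ b * 4 * E.length with hT
  have hT0 : 0 < T := by positivity
  have hqR : (1 : ℝ) ≤ c.q := by exact_mod_cast hq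
  have hcqR : (1 : ℝ) ≤ c.cq := by exact_mod_cast hcq
  set Q : ℝ := c.q * c.cq with hQ
  have hQ1 : 1 ≤ Q := one_le_mul_of_one_le_of_one_le hqR hcqR
  have hD : ((bigD c : ℕ) : ℝ) = 10 ^ 10 * (Q * 256 ^ c.I) := by
    unfold bigD; push_cast; ring
  have hnR : 10 ^ 10 * (Q * 256 ^ c.I) ≤ (n : ℝ) := by rw [← hD]; exact_mod_cast hn
  have h256 : (1 : ℝ) ≤ 256 ^ c.I := one_le_pow₀ (by norm_num)
  have hn10 : 10 ^ 10 * 256 ^ c.I ≤ (n : ℝ) := by
    refine le_trans ?_ hnR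
    refine mul_le_mul_of_nonneg_left ?_ (by norm_num)
    exact le_mul_of_one_le_left (by positivity) hQ1
  have hn0 : (0 : ℝ) < n := lt_of_lt_of_le (by positivity) hn10
  have hn0' : 0 < n := by exact_mod_cast hn0
  set ρ : ℝ := 1 / (10 ^ 5 * 256 ^ c.I) with hρ
  have hρ0 : 0 ≤ ρ := by positivity
  have hρn : 1 ≤ ρ * n := by
    rw [hρ, one_div_mul_eq_div, one_le_div (by positivity)]
    refine le_trans ?_ hn10
    exact mul_le_mul_of_nonneg_right (by norm_num) (by positivity)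
  have hρ1 : 10 ^ 5 * 256 ^ c.I * ρ ≤ 1 := by
    rw [hρ, mul_one_div_cancel (by positivity)]
  rw [hD] at hδ
  -- the recursion
  have hk1 : ∀ i, (k1At c i : ℝ) = 48 * 4 ^ c.I * 64 ^ (c.I - i) := fun i => by
    unfold k1At; push_cast; ring
  have hk10 : ∀ i, 0 < k1At c i := fun i => by unfold k1At; positivity
  have hH : ∀ i, (hAt c i : ℝ) = 3200 * Q * k1At c i := fun i => by
    unfold hAt; push_cast; rw [hQ]; ring
  have hz0 : (z 0).h = fun _ => 2 ^ b := by rw [h0]; rfl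
  have hrec := rec_main c.I (Q := Q) (δ := δ) (ρ := ρ) (ν := ρ) hQ1 hδ0 hδ hρ1 hρ1
    (fun i => enR (base E) (toR (z i).h) / T) (fun i => msR (base E) (toR (z i).h) / T)
    (fun i => (z i).aT / T) (fun i => (z i).aV / T)
    (by
      have : enR (base E) (toR (z 0).h) = 0 := by
        rw [hz0]
        unfold enR toR
        simp
      rw [this, zero_div])
    (by
      have : msR (base E) (toR (z 0).h) = T := by
        rw [hz0]
        unfold msR toR
        rw [List.map_const', List.sum_replicate, nsmul_eq_mul, length_base, hT]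
        push_cast
        rw [show (4 : ℝ) ^ b = (2 ^ b) ^ 2 by rw [← pow_mul, mul_comm b 2, pow_mul]; norm_num]
        ring
      rw [this, div_self hT0.ne'])
    (by rw [h0]; simp [z0])
    (by rw [h0]; simp [z0])
    (by
      intro i hi
      rw [← hk1 i]
      rcases hstep i hi with ⟨h1, h2⟩ | ⟨j, h1, h2⟩
      · rw [h2]
        refine rstep_of_skip hn0' hδ0 hρ0 hT0 (by exact_mod_cast hk10 i) hρn ?_
        rw [hT]
        exact_mod_cast h1.le
      · exact rstep_of_facts hn0' hT hT0 (hk10 i) hρn h1 (hH i) h2)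
    c.I le_rfl
  obtain ⟨-, hmu, hat, hav⟩ := hrec
  -- conservation of the squares
  have hsq : ∀ i ≤ c.I, ∀ u, n * 4 ^ b ≤ n * ((z i).Sq u + (z i).h u ^ 2) + i * 4 ^ b := by
    intro i
    induction i with
    | zero =>
      intro _ u
      rw [h0]
      show n * 4 ^ b ≤ n * (0 + (2 ^ b) ^ 2) + 0 * 4 ^ b
      rw [← pow_mul, mul_comm b 2, pow_mul]
      norm_num
    | succ i ih =>
      intro hi u
      have h1 := ih (by omega) u
      rcases hstep i (by omega) with ⟨-, h2⟩ | ⟨j, h2, h3⟩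
      · rw [h2]
        refine h1.trans ?_
        gcongr
        omega
      · have h4 := Nat.mul_le_mul_left n (h3.sq u)
        have h5 : n * ((4 * j + 2) * 2 ^ b) ≤ 4 ^ b := by
          calc n * ((4 * j + 2) * 2 ^ b) = (2 * n * (2 * j + 1)) * 2 ^ b := by ring
            _ ≤ 2 ^ b * 2 ^ b := Nat.mul_le_mul_right _ h2
            _ = 4 ^ b := by rw [← mul_pow]; norm_num
        have h6 : n * ((z (i + 1)).Sq u + (z (i + 1)).h u ^ 2 + (4 * j + 2) * 2 ^ b) =
          n * ((z (i + 1)).Sq u + (z (i + 1)).h u ^ 2) + n * ((4 * j + 2) * 2 ^ b) := by ring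
        rw [h6] at h4
        have h7 : (i + 1) * 4 ^ b = i * 4 ^ b + 4 ^ b := by ring
        omega
  -- the uncovered mass
  have hun : (n : ℝ) * ((((base E).map fun e =>
      2 * 4 ^ b - ((z c.I).Sq e.1 + (z c.I).Sq e.2)).sum : ℕ) : ℝ) ≤
      n * (msR (base E) (toR (z c.I).h) / 2) + 2 * c.I * 4 ^ b * E.length := by
    have h1 : (2 : ℝ) * c.I * 4 ^ b * E.length =
        ((base E).map fun _ => (2 : ℝ) * c.I * 4 ^ b).sum := by
      rw [List.map_const', List.sum_replicate, nsmul_eq_mul, length_base]; ring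
    rw [castSum, ← sum_map_mul', h1]
    unfold msR
    rw [div_eq_inv_mul, ← sum_map_mul', ← sum_map_mul', ← sum_map_add']
    refine sum_map_le _ fun e _ => ?_
    have h2 := hsq c.I le_rfl e.1
    have h3 := hsq c.I le_rfl e.2
    have h4 : n * (2 * 4 ^ b - ((z c.I).Sq e.1 + (z c.I).Sq e.2)) ≤
        n * ((z c.I).h e.1 ^ 2 + (z c.I).h e.2 ^ 2) + 2 * c.I * 4 ^ b := by
      rw [Nat.mul_sub]
      have e1 : n * (2 * 4 ^ b) = n * 4 ^ b + n * 4 ^ b := by ring
      have e2 : n * ((z c.I).Sq e.1 + (z c.I).h e.1 ^ 2) =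
        n * (z c.I).Sq e.1 + n * (z c.I).h e.1 ^ 2 := by ring
      have e3 : n * ((z c.I).Sq e.2 + (z c.I).h e.2 ^ 2) =
        n * (z c.I).Sq e.2 + n * (z c.I).h e.2 ^ 2 := by ring
      have e4 : n * ((z c.I).Sq e.1 + (z c.I).Sq e.2) =
        n * (z c.I).Sq e.1 + n * (z c.I).Sq e.2 := by ring
      have e5 : n * ((z c.I).h e.1 ^ 2 + (z c.I).h e.2 ^ 2) =
        n * (z c.I).h e.1 ^ 2 + n * (z c.I).h e.2 ^ 2 := by ring
      have e6 : 2 * c.I * 4 ^ b = c.I * 4 ^ b + c.I * 4 ^ b := by ring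
      omega
    have h5 : ((n * (2 * 4 ^ b - ((z c.I).Sq e.1 + (z c.I).Sq e.2)) : ℕ) : ℝ) ≤
        ((n * ((z c.I).h e.1 ^ 2 + (z c.I).h e.2 ^ 2) + 2 * c.I * 4 ^ b : ℕ) : ℝ) := by
      exact_mod_cast h4
    rw [Nat.cast_mul] at h5
    refine h5.trans (le_of_eq ?_)
    simp only [toR]
    push_cast
    ring
  -- numerics
  set U : ℝ := ((((base E).map fun e =>
      2 * 4 ^ b - ((z c.I).Sq e.1 + (z c.I).Sq e.2)).sum : ℕ) : ℝ) with hU
  set W : ℝ := 4 ^ b * E.length with hW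
  have hW0 : 0 < W := by positivity
  have hTW : T = 4 * W := by rw [hT, hW]; ring
  have hI2 : (c.I : ℝ) ≤ 16 ^ c.I := by
    have : c.I < 16 ^ c.I := Nat.lt_pow_self (by norm_num)
    exact_mod_cast this.le
  have h16 : (0 : ℝ) < 16 ^ c.I := by positivity
  have h1616 : (16 : ℝ) ^ c.I * 16 ^ c.I = 256 ^ c.I := by rw [← mul_pow]; norm_num
  -- mass
  have g1 : 16 ^ c.I * msR (base E) (toR (z c.I).h) ≤ T := by
    rw [mul_div_assoc', div_le_one hT0] at hmu
    exact hmu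
  -- total variation
  have g2 : 2 * (16 ^ c.I * ((z c.I).aT : ℝ)) ≤ T := by
    have h1 : 4 * 16 ^ c.I * (((z c.I).aT : ℝ) / T) ≤ 2 := by
      refine hat.trans ?_
      have : (0 : ℝ) ≤ (1 / 2) ^ c.I := by positivity
      linarith
    rw [mul_div_assoc', div_le_iff₀ hT0] at h1
    linarith
  -- violated weight
  have g3 : 10 ^ 10 * (16 ^ c.I * ((z c.I).aV : ℝ)) ≤ 300 * T := by
    rw [div_le_iff₀ hT0] at hav
    have h1 := mul_le_mul_of_nonneg_left hav h16.le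
    have h2 : (16 : ℝ) ^ c.I * (c.I * δ * T) ≤ 256 ^ c.I * δ * T := by
      rw [← h1616]
      have : (c.I : ℝ) * (δ * T) ≤ 16 ^ c.I * (δ * T) :=
        mul_le_mul_of_nonneg_right hI2 (by positivity)
      have := mul_le_mul_of_nonneg_left this h16.le
      linarith
    have h3 : 10 ^ 10 * (256 ^ c.I * δ) ≤ 300 := by
      refine le_trans ?_ hδ
      have : 256 ^ c.I * δ ≤ Q * (256 ^ c.I * δ) := le_mul_of_one_le_left (by positivity) hQ1
      linarith
    have h4 := mul_le_mul_of_nonneg_right h3 hT0.le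
    linarith
  -- uncovered mass
  have g4 : 16 ^ c.I * U ≤ T / 2 + W := by
    refine le_of_mul_le_mul_left (a := (n : ℝ)) ?_ hn0
    have h1 := mul_le_mul_of_nonneg_left hun h16.le
    have h2 : (16 : ℝ) ^ c.I * (2 * c.I * 4 ^ b * E.length) ≤ n * W := by
      have h3 : (16 : ℝ) ^ c.I * (2 * c.I * 4 ^ b * E.length) = 2 * (16 ^ c.I * c.I) * W := by
        rw [hW]; ring
      rw [h3]
      refine mul_le_mul_of_nonneg_right ?_ hW0.le
      have h4 : (16 : ℝ) ^ c.I * c.I ≤ 256 ^ c.I := by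
        rw [← h1616]
        exact mul_le_mul_of_nonneg_left hI2 h16.le
      linarith
    have h5 := mul_le_mul_of_nonneg_left g1 hn0.le
    linarith
  have hfin : (16 : ℝ) ^ c.I * (U + 2 * (z c.I).aT + 2 * (z c.I).aV) ≤ 8 * W := by
    rw [hTW] at g2 g3 g4
    linarith
  have hfin' : (16 : ℝ) ^ c.I * (U + 2 * (z c.I).aT + 2 * (z c.I).aV) ≤
      8 * 4 ^ b * E.length := hfin.trans (le_of_eq (by rw [hW]; ring))
  rw [hU] at hfin'
  exact_mod_cast hfin'

end

/-- the final test is passed -/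
theorem rec_accept {V : Type*} [Fintype V] [DecidableEq V] {c : Cst2} (hq : 1 ≤ c.q)
    (hcq : 1 ≤ c.cq) (_hI : 1 ≤ c.I) (E : List (Con V c.k)) (hE : E ≠ []) {n r B : ℕ}
    (hf : PFacts2 c n r B) {δ : ℝ} (hd0 : 0 ≤ δ) (hd : bigD c * δ ≤ 300) (z : ℕ → LvS V)
    (h0 : z 0 = z0 (bAt c n)) (_hInv : ∀ i ≤ c.I, Inv E (bAt c n) (z i)) (hstep : LevHyp E n δ z) :
    16 ^ c.I * (((base E).map fun p =>
      2 * 4 ^ bAt c n - ((z c.I).Sq p.1 + (z c.I).Sq p.2)).sum +
      2 * (z c.I).aT + 2 * (z c.I).aV) ≤ 8 * 4 ^ bAt c n * E.length := by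
  refine accept_of_steps hE c hq hcq hd0 hd hf.hbig z h0 fun i hi => ?_
  rcases hstep i hi with h1 | ⟨j, h1, h2⟩
  · exact Or.inl h1
  · refine Or.inr ⟨j, ?_, h2⟩
    have hok := hf.ok i hi
    have h3 : 192 * k1At c i * Nat.size n * n * (4 * n ^ 5) ^ (16 * c.q * k1At c i) ≤
      2 ^ bAt c n := hok.big
    have hL : 1 ≤ Nat.size n := hok.L_pos
    have hn : 16 ≤ n := hok.n_ge
    have hk1 : 1 ≤ k1At c i := hok.ok.hk1
    refine le_trans ?_ h3
    set K := (4 * n ^ 5) ^ (16 * c.q * k1At c i) with hK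
    have hK1 : 1 ≤ K := Nat.one_le_pow _ _ (by positivity)
    have h4 : 1 ≤ Nat.size n * K := Nat.mul_pos hL hK1
    have h5 : 2 * j + 1 ≤ 7 * (Nat.size n * K) := by
      have : 2 * Nat.size n * K = 2 * (Nat.size n * K) := by ring
      omega
    calc 2 * n * (2 * j + 1) ≤ 2 * n * (7 * (Nat.size n * K)) := Nat.mul_le_mul_left _ h5
      _ = 14 * 1 * (Nat.size n * n * K) := by ring
      _ ≤ 192 * k1At c i * (Nat.size n * n * K) := Nat.mul_le_mul_right _ (by omega)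
      _ = _ := by ring

end Vale.Agent.P325.V2
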