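import Vale.Agent.P325.V2.Core2
import Vale.Agent.P325.V2.Rec

/-!
# Completeness of the algorithm with levels
-/

namespace Vale.Agent.P325.V2

open Finset Vale.Agent.P325 Vale.Agent.P325.Alg Alg2

variable {V : Type*} {N : ℕ} (e : V ≃ Fin N) [Fintype V] [DecidableEq V]

/-- completeness -/
theorem runL2_complete {c : Cst2} {ε : ℝ} (hk : 2 ≤ c.k) (hq : 1 ≤ c.q) (hcq : 1 ≤ c.cq)
    (hI : 1 ≤ c.I) (hε : bigD c * ε ≤ 1) (E : List (Con V c.k)) (hE : E ≠ [])
    {n r B : ℕ} (hf : PFacts2 c n r B) (hV : Fintype.card V ≤ n)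
    (a : V → Fin c.k) (ha : (viol E a : ℝ) ≤ ε * E.length) :
    runL2 c N (conL e E) n r B = true := by
  obtain ⟨z, h1, h2, h3, h4⟩ := runL2_levels e hk hq hcq E hE hf hV a ha
  rw [h4, acceptL2_iff]
  have hD : (0 : ℝ) < bigD c := by
    have : 0 < bigD c := by unfold bigD; positivity
    exact_mod_cast this
  have hε0 : 0 ≤ ε := by
    have hm : (0 : ℝ) < E.length := by exact_mod_cast List.length_pos_of_ne_nil hE
    have h5 : (0 : ℝ) ≤ ε * E.length := (Nat.cast_nonneg _).trans ha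
    exact nonneg_of_mul_nonneg_left h5 hm
  refine rec_accept hq hcq hI E hE hf (by positivity) ?_ z h1 h2 h3
  have : bigD c * (144 * (1 / (bigD c : ℝ) + ε / 2)) = 144 * (1 + bigD c * ε / 2) := by
    field_simp
  rw [this]
  linarith

end Vale.Agent.P325.V2
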