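import Vale.Agent.P325.ReachFacts

/-!
# The decomposition process started from an arbitrary function
-/

namespace Vale.Agent.P325.V2

open Finset

/-- Conditions on the parameters. -/
structure OkH (P : Prm) (q k1 : ℕ) : Prop where
  hL : P.L = Nat.size P.n
  hR : P.R = 32 * k1 * P.L
  hq : 1 ≤ q
  hk1 : 1 ≤ k1
  hnr : P.n ≤ P.r ^ (4 * q)
  hrn : P.r ≤ P.n
  hJ : P.J = 16 * q * k1
  hb : (8 * P.J + 32) * P.L ≤ P.b
  hn : 16 * k1 * (P.L + 1) ≤ P.n

namespace OkH

variable {P : Prm} {q k1 : ℕ}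

/-- the same parameters with the old value of `b` -/
theorem ok (h : OkH P q k1) : Ok { P with b := (8 * P.J + 32) * P.L } q k1 :=
  ⟨h.hL, h.hR, h.hq, h.hk1, h.hnr, h.hrn, h.hJ, rfl, h.hn⟩

theorem n_lt (h : OkH P q k1) : P.n < 2 ^ P.L := h.ok.n_lt
theorem n_ge (h : OkH P q k1) : 16 ≤ P.n := h.ok.n_ge
theorem L_pos (h : OkH P q k1) : 1 ≤ P.L := h.ok.L_pos
theorem R_pos (h : OkH P q k1) : 0 < P.R := h.ok.R_pos
theorem J_pos (h : OkH P q k1) : 0 < P.J := h.ok.J_pos
theorem r_pos (h : OkH P q k1) : 1 ≤ P.r := h.ok.r_pos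
theorem K_pow_le (h : OkH P q k1) : (4 * P.n ^ 5) ^ P.J ≤ 2 ^ (7 * P.L * P.J) := h.ok.K_pow_le
theorem lam0_ge (h : OkH P q k1) : 2 ≤ Nat.log 2 (4 * P.r) := h.ok.lam0_ge
theorem lam0_le (h : OkH P q k1) : Nat.log 2 (4 * P.r) ≤ 2 * P.L := h.ok.lam0_le
theorem L_le (h : OkH P q k1) : P.L ≤ 4 * q * Nat.log 2 (4 * P.r) := h.ok.L_le

theorem big (h : OkH P q k1) : 192 * k1 * P.L * P.n * (4 * P.n ^ 5) ^ P.J ≤ 2 ^ P.b := by
  have h1 : 192 * k1 * P.L ≤ 2 ^ (5 * P.L) := by
    calc 192 * k1 * P.L ≤ 12 * (16 * k1 * (P.L + 1)) := by nlinarith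
      _ ≤ 12 * P.n := Nat.mul_le_mul_left _ h.hn
      _ ≤ 2 ^ 4 * 2 ^ P.L := Nat.mul_le_mul (by norm_num) h.n_lt.le
      _ = 2 ^ (4 + P.L) := by rw [pow_add]
      _ ≤ 2 ^ (5 * P.L) := Nat.pow_le_pow_right (by norm_num) (by have := h.L_pos; omega)
  calc 192 * k1 * P.L * P.n * (4 * P.n ^ 5) ^ P.J ≤
      2 ^ (5 * P.L) * 2 ^ P.L * 2 ^ (7 * P.L * P.J) :=
        Nat.mul_le_mul (Nat.mul_le_mul h1 h.n_lt.le) h.K_pow_le
    _ = 2 ^ (5 * P.L + P.L + 7 * P.L * P.J) := by rw [pow_add, pow_add]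
    _ ≤ 2 ^ P.b := by
      refine Nat.pow_le_pow_right (by norm_num) (le_trans ?_ h.hb)
      nlinarith

theorem big4 (h : OkH P q k1) : 4 * P.n * (4 * P.n ^ 5) ^ P.J ≤ 2 ^ P.b := by
  refine le_trans (Nat.mul_le_mul_right _ ?_) h.big
  have h1 : 0 < k1 * P.L := Nat.mul_pos h.hk1 h.L_pos
  have h2 : 192 * k1 * P.L = 192 * (k1 * P.L) := by ring
  exact Nat.mul_le_mul_right _ (by omega)

end OkH

variable {V : Type*} [Fintype V] [DecidableEq V]

/-- all facts about a split -/
theorem split_facts {P : Prm} {q k1 : ℕ} (hP : OkH P q k1) (E : List (V × V)) {F : V → ℕ}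
    {wh j W0 : ℕ} (hF : ∀ x, F x ≤ 2 ^ P.b) (hW0 : 4 ^ P.b * (4 * E.length) ≤ P.n * W0)
    (hwh : W0 ≤ wh * (4 * P.n ^ 5) ^ j)
    (hnd : ¬ (P.J ≤ j ∨ totN E F * P.n < wh)) {v : V} {t : ℕ} (hG : Good P E F v t) :
    (∀ x, childL F (bumpN E F v t) x ≤ F x) ∧ (∀ x, childR F (bumpN E F v t) x ≤ F x) ∧
    (∀ x, childL F (bumpN E F v t) x ^ 2 + childR F (bumpN E F v t) x ^ 2 ≤ F x ^ 2) ∧
    totN E (childL F (bumpN E F v t)) + totN E (childR F (bumpN E F v t)) ≤ totN E F ∧
    wh ≤ 4 * P.n ^ 5 * totN E (childL F (bumpN E F v t)) ∧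
    ∃ Lam : ℝ, (Nat.log 2 (4 * P.r) : ℝ) ≤ Lam ∧
      (totN E F : ℝ) ≤ totN E (childL F (bumpN E F v t)) + totN E (childR F (bumpN E F v t)) +
        6 / P.R * Lam * totN E (childL F (bumpN E F v t)) + 24 * 2 ^ P.b * E.length ∧
      entF E (childL F (bumpN E F v t)) + entF E (childR F (bumpN E F v t)) +
        Lam * totN E (childL F (bumpN E F v t)) ≤ entF E F := by
  classical
  set M := GF E F with hMdef
  have hM : IsForm M := GF_isForm E F
  have hW : IsForm (gform E) := gform_isForm E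
  have hRpos : (0 : ℝ) < P.R := by exact_mod_cast hP.R_pos
  have hheavy := hG.2.1
  have hdpos : 0 < deg M v := by rw [hMdef, ← degN_cast]; exact_mod_cast hheavy.1
  have hk1R : (1 : ℝ) ≤ k1 := by exact_mod_cast hP.hk1
  have hLR : (1 : ℝ) ≤ P.L := by exact_mod_cast hP.L_pos
  have hnR : (16 : ℝ) ≤ P.n := by exact_mod_cast hP.n_ge
  obtain ⟨c, hc, hY⟩ := exists_scale E F hheavy.1 t
  set Y := bumpN E F v t with hYdef
  -- the norm of the real bump
  have hN1 : nrm M (heat M v t) / 2 ≤ nrm M (bump M v t) := nrm_bump_ge hM hdpos t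
  have hN2 := hM.nrm_heat_lower v t
  have htotpos : 0 < tot M := by
    have h1 : deg M v ≤ tot M :=
      single_le_sum (f := fun x => deg M x) (fun x _ => hM.deg_nonneg x) (mem_univ v)
    linarith
  have hheavyR : tot M ≤ (P.n : ℝ) ^ 2 * deg M v := by
    rw [hMdef, ← totN_cast, ← degN_cast]
    exact_mod_cast hheavy.2
  have hnb : tot M / (2 * P.n ^ 4) ≤ nrm M (bump M v t) := by
    have h1 : tot M / (P.n : ℝ) ^ 2 ≤ deg M v := by
      rw [div_le_iff₀ (by positivity)]; linarith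
    have h2 : (tot M / (P.n : ℝ) ^ 2) ^ 2 ≤ tot M * nrm M (heat M v t) :=
      (pow_le_pow_left₀ (by positivity) h1 2).trans hN2
    have h3 : tot M / (P.n : ℝ) ^ 4 ≤ nrm M (heat M v t) := by
      have h4 : (tot M / (P.n : ℝ) ^ 2) ^ 2 = tot M * (tot M / (P.n : ℝ) ^ 4) := by
        field_simp
      rw [h4] at h2
      exact le_of_mul_le_mul_left h2 htotpos
    calc tot M / (2 * P.n ^ 4) = tot M / (P.n : ℝ) ^ 4 / 2 := by field_simp
      _ ≤ nrm M (heat M v t) / 2 := div_le_div_of_nonneg_right h3 (by norm_num)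
      _ ≤ _ := hN1
  have hnbpos : 0 < nrm M (bump M v t) := lt_of_lt_of_le (by positivity) hnb
  -- ymax is positive
  have hym : 0 < ymax Y := by
    rcases Nat.eq_zero_or_pos (ymax Y) with h0 | h0
    · exfalso
      have h1 : ∀ x, bump M v t x = 0 := by
        intro x
        have h2 : Y x = 0 := Nat.le_zero.1 (h0 ▸ le_ymax Y x)
        have h3 : (Y x : ℝ) = c * bump M v t x := congrFun hY x
        rw [h2, Nat.cast_zero] at h3
        rcases mul_eq_zero.1 h3.symm with h | h
        · exact absurd h hc.ne'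
        · exact h
      have : nrm M (bump M v t) = 0 := by
        unfold nrm
        exact sum_eq_zero fun x _ => by rw [h1 x]; ring
      linarith
    · exact h0
  have hymR : (0 : ℝ) < ymax Y := by exact_mod_cast hym
  -- the normalised bump
  set s : V → ℝ := fun x => (Y x : ℝ) / ymax Y with hs
  have hs0 : ∀ x, 0 ≤ s x := fun x => by simp only [hs]; positivity
  have hs1 : ∀ x, s x ≤ 1 := fun x => by
    simp only [hs]
    rw [div_le_one hymR]; exact_mod_cast le_ymax Y x
  have hsY : s = fun x => (1 / (ymax Y : ℝ)) * toR Y x := by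
    funext x; simp only [hs, toR]; ring
  have hsb : s = fun x => (c / (ymax Y : ℝ)) * bump M v t x := by
    funext x
    have h3 : (Y x : ℝ) = c * bump M v t x := congrFun hY x
    simp only [hs]
    rw [h3]; ring
  have hcy : 1 ≤ c / (ymax Y : ℝ) := by
    rw [one_le_div hymR]
    obtain ⟨x, hx⟩ : ∃ x, Y x = ymax Y := by
      obtain ⟨x, _, hx⟩ := Finset.exists_mem_eq_sup univ ⟨v, mem_univ v⟩ Y
      exact ⟨x, hx.symm⟩
    have h3 : (Y x : ℝ) = c * bump M v t x := congrFun hY x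
    rw [← hx, h3]
    exact mul_le_of_le_one_right hc.le (bump_le_one hM v t x)
  have hns : nrm M (bump M v t) ≤ nrm M s := by
    rw [hsb, nrm_smul]
    have : 1 ≤ (c / (ymax Y : ℝ)) ^ 2 := one_le_pow₀ hcy
    nlinarith [hM.nrm_nonneg (bump M v t)]
  -- children
  have hcL : childL F Y = partL F s := by
    funext x
    rw [partL_eq_div (F := F) (s := s) (a := Y x) (b := ymax Y) hym rfl]
    rfl
  have hcR : childR F Y = partR F s := by
    funext x
    rw [partR_eq_div (F := F) (s := s) (a := Y x) (b := ymax Y) hym (le_ymax Y x) rfl]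
    rfl
  -- cheapness
  set Λ : ℕ := min (lamN E F Y) (2 * P.L) with hΛ
  have hΛ2 : Λ ≤ 2 * P.L := min_le_right _ _
  have hΛ0 : Nat.log 2 (4 * P.r) ≤ Λ := le_min hG.2.2.1 hP.lam0_le
  have hgood : (P.R : ℝ) * energy M s ≤ Λ * nrm M s := by
    have h1 := hG.2.2.2
    have h2 : ((P.R * energyN E F Y : ℕ) : ℝ) ≤ ((Λ * nrmN E F Y : ℕ) : ℝ) := by exact_mod_cast h1
    rw [Nat.cast_mul, Nat.cast_mul, energyN_cast, nrmN_cast] at h2
    rw [hsY, energy_smul, nrm_smul]
    have h3 : (0 : ℝ) ≤ (1 / (ymax Y : ℝ)) ^ 2 := by positivity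
    have := mul_le_mul_of_nonneg_left h2 h3
    linarith
  have hR4 : 4 * (Λ : ℝ) / P.R ≤ 1 / 4 := by
    rw [div_le_iff₀ hRpos]
    have h1 : (Λ : ℝ) ≤ 2 * P.L := by exact_mod_cast hΛ2
    have h2 : (P.R : ℝ) = 32 * k1 * P.L := by rw [hP.hR]; push_cast; ring
    rw [h2]
    nlinarith
  have hE0 := hM.energy_nonneg s
  have hns0 := hM.nrm_nonneg s
  have hE4 : 4 * energy M s ≤ 4 * Λ / P.R * nrm M s := by
    rw [div_mul_eq_mul_div, le_div_iff₀ hRpos]
    linarith
  -- inequalities from Split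
  have hi := tot_part_add_ge (M0 := gform E) (F := F) (s := s) (beta := 2 ^ P.b) hW hs0 hs1 hF
  have hii := tot_partL_ge (M0 := gform E) (F := F) (s := s) (beta := 2 ^ P.b) hW hs0 hs1 hF
  have hiii := deg_part_add_le (M0 := gform E) (F := F) (s := s) hW hs0 hs1
  rw [tot_gform] at hi hii
  push_cast at hi hii
  have eL : tot (loc (gform E) fun u => (partL F s u : ℝ)) = totN E (childL F Y) := by
    rw [totN_cast, hcL]
  have eR : tot (loc (gform E) fun u => (partR F s u : ℝ)) = totN E (childR F Y) := by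
    rw [totN_cast, hcR]
  rw [eL] at hi hii
  rw [eR] at hi
  have eM : (loc (gform E) fun u => (F u : ℝ)) = M := rfl
  rw [eM] at hi hii
  set w1 : ℝ := ((totN E (childL F Y) : ℕ) : ℝ) with hw1
  set w2 : ℝ := ((totN E (childR F Y) : ℕ) : ℝ) with hw2
  have hw10 : 0 ≤ w1 := Nat.cast_nonneg _
  set h0 : ℝ := 8 * 2 ^ P.b * E.length with hh0
  have hh00 : 0 ≤ h0 := by positivity
  have hnle : nrm M s ≤ 4 / 3 * (w1 + h0) := by
    have h1 : 4 * (Λ : ℝ) / P.R * nrm M s ≤ 1 / 4 * nrm M s :=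
      mul_le_mul_of_nonneg_right hR4 hns0
    have : nrm M s ≤ w1 + 4 * energy M s + h0 := by rw [hh0]; linarith
    linarith
  have h4E : 4 * energy M s ≤ 6 / P.R * Λ * w1 + h0 := by
    have hq0 : (0 : ℝ) ≤ 4 * Λ / P.R := by positivity
    calc 4 * energy M s ≤ 4 * Λ / P.R * nrm M s := hE4
      _ ≤ 4 * Λ / P.R * (4 / 3 * (w1 + h0)) := mul_le_mul_of_nonneg_left hnle hq0
      _ = 16 / 3 * ((Λ : ℝ) / P.R) * w1 + 4 / 3 * (4 * Λ / P.R) * h0 := by ring
      _ ≤ 6 * ((Λ : ℝ) / P.R) * w1 + h0 := by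
        have h1 : (0 : ℝ) ≤ (Λ : ℝ) / P.R * w1 := by positivity
        have h2 : 4 / 3 * (4 * (Λ : ℝ) / P.R) * h0 ≤ 1 * h0 :=
          mul_le_mul_of_nonneg_right (by linarith) hh00
        nlinarith
      _ = _ := by ring
  have hwle : (totN E F : ℝ) ≤ w1 + w2 + 6 / P.R * Λ * w1 + 24 * 2 ^ P.b * E.length := by
    rw [totN_cast]
    have : tot M ≤ w1 + w2 + 4 * energy M s + 2 * h0 := by rw [hh0]; linarith
    have h3 : 24 * (2 : ℝ) ^ P.b * E.length = 3 * h0 := by rw [hh0]; ring
    rw [h3]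
    show tot M ≤ _
    linarith
  have hsum : totN E (childL F Y) + totN E (childR F Y) ≤ totN E F := by
    have h1 : (totN E (childL F Y) : ℝ) + totN E (childR F Y) ≤ totN E F := by
      have h2 : tot (loc (gform E) fun u => (partL F s u : ℝ)) +
          tot (loc (gform E) fun u => (partR F s u : ℝ)) ≤ tot M := by
        unfold tot
        rw [← sum_add_distrib]
        exact sum_le_sum fun x _ => hiii x
      rw [eL, eR] at h2
      rw [totN_cast E F]
      exact h2
    exact_mod_cast h1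
  -- lower bound for the weight split off
  have hlow : wh ≤ 4 * P.n ^ 5 * totN E (childL F Y) := by
    push Not at hnd
    obtain ⟨hj, hwn⟩ := hnd
    have h1 : (wh : ℝ) ≤ totN E F * P.n := by exact_mod_cast hwn
    rw [totN_cast] at h1
    -- error term
    have h2 : 8 * P.n ^ 5 * (8 * 2 ^ P.b * E.length) ≤ wh := by
      have hKj : (4 * P.n ^ 5) ^ (j + 1) ≤ (4 * P.n ^ 5) ^ P.J :=
        Nat.pow_le_pow_right (by have := hP.n_ge; positivity) hj
      have hbig : 4 * P.n * (4 * P.n ^ 5) ^ P.J ≤ 2 ^ P.b := hP.big4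
      have hKpos : 0 < P.n * (4 * P.n ^ 5) ^ j := by have := hP.n_ge; positivity
      refine Nat.le_of_mul_le_mul_right (le_trans ?_ (Nat.mul_le_mul_left P.n hwh)
        |>.trans (le_of_eq (by ring))) hKpos
      refine le_trans ?_ hW0
      calc 8 * P.n ^ 5 * (8 * 2 ^ P.b * E.length) * (P.n * (4 * P.n ^ 5) ^ j)
          = 4 * P.n * (4 * P.n ^ 5) ^ (j + 1) * 2 ^ P.b * (4 * E.length) := by ring
        _ ≤ 4 * P.n * (4 * P.n ^ 5) ^ P.J * 2 ^ P.b * (4 * E.length) := by gcongr
        _ ≤ 2 ^ P.b * 2 ^ P.b * (4 * E.length) := by gcongr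
        _ = 4 ^ P.b * (4 * E.length) := by
          rw [← mul_pow]; norm_num
    have h2' : 8 * (P.n : ℝ) ^ 5 * h0 ≤ wh := by
      rw [hh0]
      exact_mod_cast h2
    have h3 : (wh : ℝ) / (2 * P.n ^ 5) ≤ nrm M s := by
      refine le_trans ?_ (hnb.trans hns)
      rw [div_le_div_iff₀ (by positivity) (by positivity)]
      calc (wh : ℝ) * (2 * P.n ^ 4) ≤ tot M * P.n * (2 * P.n ^ 4) :=
            mul_le_mul_of_nonneg_right h1 (by positivity)
        _ = tot M * (2 * P.n ^ 5) := by ring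
    have h4 : (wh : ℝ) ≤ 2 * P.n ^ 5 * nrm M s := by
      rw [div_le_iff₀ (by positivity)] at h3; linarith
    have h5 : (wh : ℝ) ≤ 2 * P.n ^ 5 * (4 / 3 * (w1 + h0)) :=
      h4.trans (mul_le_mul_of_nonneg_left hnle (by positivity))
    have h6 : (wh : ℝ) ≤ 4 * P.n ^ 5 * w1 := by
      have e : 2 * (P.n : ℝ) ^ 5 * (4 / 3 * (w1 + h0)) =
        8 / 3 * (P.n ^ 5 * w1) + 1 / 3 * (8 * P.n ^ 5 * h0) := by ring
      rw [e] at h5
      have e2 : 4 * (P.n : ℝ) ^ 5 * w1 = 4 * (P.n ^ 5 * w1) := by ring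
      rw [e2]
      linarith
    rw [hw1] at h6
    exact_mod_cast h6
  -- entropy
  have hent : entF E (childL F Y) + entF E (childR F Y) + (Λ : ℝ) * w1 ≤ entF E F := by
    have hD1 : ∀ x, 0 ≤ deg (GF E (childL F Y)) x := (GF_isForm E _).deg_nonneg
    have hD2 : ∀ x, 0 ≤ deg (GF E (childR F Y)) x := (GF_isForm E _).deg_nonneg
    have hle : ∀ x, deg (GF E (childL F Y)) x + deg (GF E (childR F Y)) x ≤ deg M x := by
      intro x
      have := hiii x
      rw [← hcL, ← hcR] at this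
      exact this
    have hLam : (2 : ℝ) ^ (Λ : ℝ) *
        (∑ x ∈ univ.filter (fun x => deg (GF E (childL F Y)) x ≠ 0), deg M x) ≤
        ∑ x, deg M x := by
      rw [Real.rpow_natCast]
      have h1 : ∑ x ∈ univ.filter (fun x => deg (GF E (childL F Y)) x ≠ 0), deg M x ≤
          svolN E F Y := by
        rw [svolN_cast]
        unfold svol
        rw [sum_filter]
        refine sum_le_sum fun x _ => ?_
        by_cases hx : toR Y x = 0
        · have hYx : Y x = 0 := by simpa [toR] using hx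
          have hc0 : childL F Y x = 0 := by unfold childL; rw [hYx]; simp
          have hd0 : deg (GF E (childL F Y)) x = 0 := by
            unfold deg GF loc toR
            simp [hc0]
          rw [if_neg (by simpa using hd0), if_pos hx]
        · rw [if_neg hx]
          split_ifs
          · exact le_rfl
          · exact hM.deg_nonneg x
      have h2 : 2 ^ Λ * svolN E F Y ≤ totN E F := by
        have h3 : totN E F / svolN E F Y ≠ 0 := by
          intro h
          have h4 := hG.2.2.1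
          unfold lamN at h4
          rw [h, Nat.log_zero_right] at h4
          have := hP.lam0_ge
          omega
        calc 2 ^ Λ * svolN E F Y ≤ 2 ^ lamN E F Y * svolN E F Y :=
              Nat.mul_le_mul_right _ (Nat.pow_le_pow_right (by norm_num) (min_le_left _ _))
          _ ≤ totN E F / svolN E F Y * svolN E F Y :=
              Nat.mul_le_mul_right _ (Nat.pow_log_le_self 2 h3)
          _ ≤ totN E F := Nat.div_mul_le_self _ _
      have h2' : (2 : ℝ) ^ Λ * svolN E F Y ≤ ∑ x, deg M x := by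
        have : ((2 ^ Λ * svolN E F Y : ℕ) : ℝ) ≤ totN E F := by exact_mod_cast h2
        rw [totN_cast] at this
        push_cast at this
        exact this
      exact (mul_le_mul_of_nonneg_left h1 (by positivity)).trans h2'
    have := ent_split hD1 hD2 hle hLam
    have e : ∑ x, deg (GF E (childL F Y)) x = w1 := by
      rw [hw1, totN_cast]; rfl
    rw [e] at this
    exact this
  refine ⟨?_, ?_, ?_, hsum, hlow, Λ, by exact_mod_cast hΛ0, hwle, hent⟩
  · intro x; rw [hcL]; exact partL_le hs0 x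
  · intro x; rw [hcR]; exact partR_le hs0 hs1 x
  · intro x; rw [hcL, hcR]; exact part_sq_add_sq hs0 hs1 x


/-! ### Induction along the process -/

/-- the initial state -/
def initH (E : List (V × V)) (h : V → ℕ) : State V := ([(h, totN E h, 0)], [])

/-- states reached from `h` after `i` steps -/
inductive ReachH (P : Prm) (E : List (V × V)) (h : V → ℕ) : ℕ → State V → Prop
  | zero : ReachH P E h 0 (initH E h)
  | succ (i : ℕ) (s s' : State V) (hr : ReachH P E h i s) (hs : Step P E s s') :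
      ReachH P E h (i + 1) s'

section
variable {P : Prm} {q k1 : ℕ} {E : List (V × V)} {h : V → ℕ}

/-- The invariant of an active node. -/
def NInvH (P : Prm) (W0 : ℕ) (x : Node V) : Prop :=
  (∀ v, x.1 v ≤ 2 ^ P.b) ∧ W0 ≤ x.2.1 * (4 * P.n ^ 5) ^ x.2.2

theorem split_inv (hP : OkH P q k1) {W0 : ℕ} (hW0 : 4 ^ P.b * (4 * E.length) ≤ P.n * W0)
    {F : V → ℕ} {wh j : ℕ}
    (hI : NInvH P W0 (F, wh, j)) (hnd : ¬ (P.J ≤ j ∨ totN E F * P.n < wh)) {v : V} {t : ℕ}
    (hG : Good P E F v t) :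
    NInvH P W0 (childR F (bumpN E F v t), wh, j) ∧
    NInvH P W0 (childL F (bumpN E F v t), totN E (childL F (bumpN E F v t)), j + 1) := by
  obtain ⟨h1, h2, _, _, h5, _⟩ := split_facts hP E hI.1 hW0 hI.2 hnd hG
  refine ⟨⟨fun x => (h2 x).trans (hI.1 x), hI.2⟩, ⟨fun x => (h1 x).trans (hI.1 x), ?_⟩⟩
  refine hI.2.trans ?_
  show wh * (4 * P.n ^ 5) ^ j ≤ totN E (childL F (bumpN E F v t)) * (4 * P.n ^ 5) ^ (j + 1)
  calc wh * (4 * P.n ^ 5) ^ j ≤
      4 * P.n ^ 5 * totN E (childL F (bumpN E F v t)) * (4 * P.n ^ 5) ^ j :=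
        Nat.mul_le_mul_right _ h5
    _ = _ := by ring

/-- the invariants of the active nodes -/
theorem reachH_ninv (hP : OkH P q k1) (hh : ∀ v, h v ≤ 2 ^ P.b)
    (hW0 : 4 ^ P.b * (4 * E.length) ≤ P.n * totN E h) {i : ℕ} {s : State V}
    (hr : ReachH P E h i s) : ∀ x ∈ s.1, NInvH P (totN E h) x := by
  induction hr with
  | zero =>
    intro x hx
    have hx' : x = (h, totN E h, 0) := by
      simpa [initH] using hx
    rw [hx']
    refine ⟨hh, ?_⟩
    show _ ≤ totN E h * (4 * P.n ^ 5) ^ 0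
    rw [pow_zero, mul_one]
  | succ i s s' _ hs ih =>
    cases hs with
    | drop F wh j act lv h => exact fun x hx => ih x (List.mem_cons_of_mem _ hx)
    | leaf F wh j act lv h h2 => exact fun x hx => ih x (List.mem_cons_of_mem _ hx)
    | split F wh j act lv h v t h2 =>
      obtain ⟨h3, h4⟩ := split_inv hP hW0 (ih _ (List.mem_cons_self ..)) h h2
      intro x hx
      rcases List.mem_cons.1 hx with rfl | hx
      · exact h3
      rcases List.mem_cons.1 hx with rfl | hx
      · exact h4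
      · exact ih x (List.mem_cons_of_mem _ hx)

/-- sizes -/
theorem reachH_len (hP : OkH P q k1) (hh : ∀ v, h v ≤ 2 ^ P.b)
    (hW0 : 4 ^ P.b * (4 * E.length) ≤ P.n * totN E h) {i : ℕ} {s : State V}
    (hr : ReachH P E h i s) :
    s.1.length ≤ i + 1 ∧ s.2.length ≤ i ∧ (∀ x ∈ s.1, ∀ v, x.1 v ≤ 2 ^ P.b) ∧
    ∀ F ∈ s.2, ∀ v, F v ≤ 2 ^ P.b := by
  refine ⟨?_, ?_, fun x hx => (reachH_ninv hP hh hW0 hr x hx).1, ?_⟩
  · induction hr with
    | zero => simp [initH]
    | succ i s s' _ hs ih =>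
      cases hs <;> simp only [List.length_cons] at ih ⊢ <;> omega
  · induction hr with
    | zero => simp [initH]
    | succ i s s' _ hs ih =>
      cases hs <;> simp only [List.length_cons] at ih ⊢ <;> omega
  · induction hr with
    | zero => simp [initH]
    | succ i s s' hr hs ih =>
      have hn := reachH_ninv hP hh hW0 hr
      cases hs with
      | drop F wh j act lv h => exact ih
      | split F wh j act lv h v t h2 => exact ih
      | leaf F wh j act lv h h2 =>
        intro G hG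
        rcases List.mem_cons.1 hG with rfl | hG
        · exact (hn _ (List.mem_cons_self ..)).1
        · exact ih G hG

/-- leaves have no cheap bump -/
theorem reachH_leaf {i : ℕ} {s : State V} (hr : ReachH P E h i s) :
    ∀ F ∈ s.2, ∀ v t, ¬ Good P E F v t := by
  induction hr with
  | zero => simp [initH]
  | succ i s s' hr hs ih =>
    cases hs with
    | drop F wh j act lv h => exact ih
    | split F wh j act lv h v t h2 => exact ih
    | leaf F wh j act lv h h2 =>
      intro G hG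
      rcases List.mem_cons.1 hG with rfl | hG
      · exact h2
      · exact ih G hG

/-- squares -/
theorem reachH_sq (hP : OkH P q k1) (hh : ∀ v, h v ≤ 2 ^ P.b)
    (hW0 : 4 ^ P.b * (4 * E.length) ≤ P.n * totN E h) {i : ℕ} {s : State V}
    (hr : ReachH P E h i s) (v : V) :
    (s.1.map fun x => x.1 v ^ 2).sum + (s.2.map fun F => F v ^ 2).sum ≤ h v ^ 2 := by
  induction hr with
  | zero =>
    simp only [initH, List.map_cons, List.map_nil, List.sum_cons, List.sum_nil, add_zero]
    exact le_rfl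
  | succ i s s' hr hs ih =>
    have hn := reachH_ninv hP hh hW0 hr
    cases hs with
    | drop F wh j act lv h =>
      simp only [List.map_cons, List.sum_cons] at ih ⊢; omega
    | leaf F wh j act lv h h2 =>
      simp only [List.map_cons, List.sum_cons] at ih ⊢; omega
    | split F wh j act lv h u t h2 =>
      have hI := hn _ (List.mem_cons_self ..)
      have h3 : childL F (bumpN E F u t) v ^ 2 + childR F (bumpN E F u t) v ^ 2 ≤ F v ^ 2 :=
        (split_facts hP E hI.1 hW0 hI.2 h h2).2.2.1 v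
      simp only [List.map_cons, List.sum_cons] at ih ⊢; omega

/-- a lower bound for the weight split off -/
theorem split_low (hP : OkH P q k1) {W0 : ℕ} (hW0 : 4 ^ P.b * (4 * E.length) ≤ P.n * W0)
    {F : V → ℕ} {wh j : ℕ}
    (hI : NInvH P W0 (F, wh, j)) (hnd : ¬ (P.J ≤ j ∨ totN E F * P.n < wh)) {v : V} {t : ℕ}
    (hG : Good P E F v t) :
    W0 ≤ (4 * P.n ^ 5) ^ P.J * totN E (childL F (bumpN E F v t)) := by
  obtain ⟨_, _, _, _, h5, _⟩ := split_facts hP E hI.1 hW0 hI.2 hnd hG
  push Not at hnd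
  calc W0 ≤ wh * (4 * P.n ^ 5) ^ j := hI.2
    _ ≤ 4 * P.n ^ 5 * totN E (childL F (bumpN E F v t)) * (4 * P.n ^ 5) ^ j :=
      Nat.mul_le_mul_right _ h5
    _ = (4 * P.n ^ 5) ^ (j + 1) * totN E (childL F (bumpN E F v t)) := by ring
    _ ≤ _ := Nat.mul_le_mul_right _ (Nat.pow_le_pow_right (by have := hP.n_ge; positivity) hnd.1)

/-- entropy of the root -/
theorem entF_le (hP : OkH P q k1) (hV : Fintype.card V ≤ P.n) (hne : Nonempty V) :
    entF E h ≤ P.L * (totN E h : ℝ) := by
  have h1 := ent_le (D := deg (GF E h)) fun v => (GF_isForm E _).deg_nonneg v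
  have h2 : ∑ v, deg (GF E h) v = (totN E h : ℝ) := by
    rw [totN_cast]; rfl
  rw [h2] at h1
  have h3 : Real.logb 2 (Fintype.card V) ≤ P.L := by
    have hc : (0 : ℝ) < Fintype.card V := by exact_mod_cast Fintype.card_pos
    rw [Real.logb_le_iff_le_rpow (by norm_num) hc, Real.rpow_natCast]
    have : Fintype.card V ≤ 2 ^ P.L := hV.trans hP.n_lt.le
    exact_mod_cast this
  calc entF E h ≤ _ := h1
    _ ≤ (totN E h : ℝ) * (P.L : ℝ) :=
      mul_le_mul_of_nonneg_left h3 (Nat.cast_nonneg _)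
    _ = _ := mul_comm _ _

/-- termination potential of a node -/
noncomputable def psiH (P : Prm) (E : List (V × V)) (W0 : ℕ) (x : Node V) : ℝ :=
  1 + 2 * ((4 * P.n ^ 5) ^ P.J : ℕ) / W0 * entF E x.1

theorem psiH_ge (P : Prm) (E : List (V × V)) (W0 : ℕ) (x : Node V) : 1 ≤ psiH P E W0 x := by
  unfold psiH
  have : 0 ≤ 2 * (((4 * P.n ^ 5) ^ P.J : ℕ) : ℝ) / W0 *
      entF E x.1 := mul_nonneg (by positivity) (entF_nonneg _ _)
  linarith

theorem reachH_psi (hP : OkH P q k1) (hh : ∀ v, h v ≤ 2 ^ P.b)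
    (hW0 : 4 ^ P.b * (4 * E.length) ≤ P.n * totN E h) (hE : E ≠ [])
    (hV : Fintype.card V ≤ P.n) {i : ℕ} {s : State V} (hr : ReachH P E h i s) :
    (s.1.map (psiH P E (totN E h))).sum + i ≤ 1 + 2 * ((4 * P.n ^ 5) ^ P.J : ℕ) * P.L := by
  have hEl : 0 < E.length := List.length_pos_of_ne_nil hE
  have hT0 : 0 < totN E h := by
    by_contra hc
    have h0 : totN E h = 0 := by omega
    rw [h0, mul_zero] at hW0
    have : 0 < 4 ^ P.b * (4 * E.length) := by positivity
    omega
  have hT : (0 : ℝ) < (totN E h : ℝ) := by exact_mod_cast hT0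
  have hne : Nonempty V := ⟨(E.head hE).1⟩
  induction hr with
  | zero =>
    simp only [initH, List.map_cons, List.map_nil, List.sum_cons, List.sum_nil, add_zero, psiH,
      Nat.cast_zero]
    have h1 := entF_le (E := E) (h := h) hP hV hne
    have h2 := mul_le_mul_of_nonneg_left h1 (by positivity :
      (0 : ℝ) ≤ 2 * ((4 * P.n ^ 5) ^ P.J : ℕ) / totN E h)
    have h3 : 2 * (((4 * P.n ^ 5) ^ P.J : ℕ) : ℝ) / totN E h *
        (P.L * totN E h) = 2 * ((4 * P.n ^ 5) ^ P.J : ℕ) * P.L := by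
      field_simp
    linarith
  | succ i s s' hr hs ih =>
    have hn := reachH_ninv hP hh hW0 hr
    push_cast at ih ⊢
    cases hs with
    | drop F wh j act lv h' =>
      have := psiH_ge P E (totN E h) (F, wh, j)
      simp only [List.map_cons, List.sum_cons] at ih ⊢
      linarith
    | leaf F wh j act lv h' h2 =>
      have := psiH_ge P E (totN E h) (F, wh, j)
      simp only [List.map_cons, List.sum_cons] at ih ⊢
      linarith
    | split F wh j act lv h' v t h2 =>
      have hI := hn _ (List.mem_cons_self ..)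
      have hlow := split_low hP hW0 hI h' h2
      obtain ⟨_, _, _, _, _, Lam, h6, _, h8⟩ := split_facts hP E hI.1 hW0 hI.2 h' h2
      simp only [List.map_cons, List.sum_cons] at ih ⊢
      have hL1 : (1 : ℝ) ≤ Lam := by
        have : (2 : ℝ) ≤ Nat.log 2 (4 * P.r) := by exact_mod_cast hP.lam0_ge
        linarith
      have hkey : psiH P E (totN E h) (childR F (bumpN E F v t), wh, j) + psiH P E (totN E h)
          (childL F (bumpN E F v t), totN E (childL F (bumpN E F v t)), j + 1) + 1 ≤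
          psiH P E (totN E h) (F, wh, j) := by
        unfold psiH
        set c : ℝ := 2 * ((4 * P.n ^ 5) ^ P.J : ℕ) / totN E h with hc
        have hc0 : 0 ≤ c := by positivity
        have e1 : 2 ≤ c * (Lam * totN E (childL F (bumpN E F v t))) := by
          have hl : (totN E h : ℝ) ≤
              ((4 * P.n ^ 5) ^ P.J : ℕ) * (totN E (childL F (bumpN E F v t)) : ℕ) := by
            exact_mod_cast hlow
          rw [hc, div_mul_eq_mul_div, le_div_iff₀ hT]
          have h9 : (((4 * P.n ^ 5) ^ P.J : ℕ) : ℝ) * (totN E (childL F (bumpN E F v t)) : ℕ) ≤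
              ((4 * P.n ^ 5) ^ P.J : ℕ) * (Lam * (totN E (childL F (bumpN E F v t)) : ℕ)) :=
            mul_le_mul_of_nonneg_left (le_mul_of_one_le_left (Nat.cast_nonneg _) hL1)
              (Nat.cast_nonneg _)
          linarith
        have e2 := mul_le_mul_of_nonneg_left h8 hc0
        have e3 : c * (entF E (childL F (bumpN E F v t)) + entF E (childR F (bumpN E F v t)) +
            Lam * totN E (childL F (bumpN E F v t))) =
            c * entF E (childL F (bumpN E F v t)) + c * entF E (childR F (bumpN E F v t)) +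
            c * (Lam * totN E (childL F (bumpN E F v t))) := by ring
        simp only
        linarith
      linarith

theorem reachH_bound (hP : OkH P q k1) (hh : ∀ v, h v ≤ 2 ^ P.b)
    (hW0 : 4 ^ P.b * (4 * E.length) ≤ P.n * totN E h) (hE : E ≠ [])
    (hV : Fintype.card V ≤ P.n) {i : ℕ} {s : State V} (hr : ReachH P E h i s) :
    i ≤ 2 * P.L * (4 * P.n ^ 5) ^ P.J + 1 := by
  have h1 := reachH_psi hP hh hW0 hE hV hr
  have h2 : 0 ≤ (s.1.map (psiH P E (totN E h))).sum := by
    refine List.sum_nonneg fun y hy => ?_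
    obtain ⟨x, _, rfl⟩ := List.mem_map.1 hy
    linarith [psiH_ge P E (totN E h) x]
  have h3 : (i : ℝ) ≤ ((2 * P.L * (4 * P.n ^ 5) ^ P.J + 1 : ℕ) : ℝ) := by
    push_cast at h1 ⊢
    linarith
  exact_mod_cast h3

/-- weight potential of a node -/
noncomputable def phiH (P : Prm) (E : List (V × V)) (c : ℝ) (x : Node V) : ℝ :=
  totN E x.1 * (1 - x.2.2 / P.J) - c * entF E x.1 - x.2.1 / P.n

theorem reachH_phi (hP : OkH P q k1) (hh : ∀ v, h v ≤ 2 ^ P.b)
    (hW0 : 4 ^ P.b * (4 * E.length) ≤ P.n * totN E h) (hE : E ≠ []) {c : ℝ}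
    (hc : c = 6 / P.R + 1 / (P.n * (Nat.log 2 (4 * P.r) : ℕ)) +
      1 / (P.J * (Nat.log 2 (4 * P.r) : ℕ)) + 24 * 2 ^ P.b * E.length *
        (((4 * P.n ^ 5) ^ P.J : ℕ) / totN E h)) {i : ℕ}
    {s : State V} (hr : ReachH P E h i s) :
    (totN E h : ℝ) - c * entF E h - (totN E h : ℝ) / P.n ≤
    (s.1.map (phiH P E c)).sum + (s.2.map (totN E)).sum := by
  have hEl : 0 < E.length := List.length_pos_of_ne_nil hE
  have hT0 : 0 < totN E h := by
    by_contra hc
    have h0 : totN E h = 0 := by omega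
    rw [h0, mul_zero] at hW0
    have : 0 < 4 ^ P.b * (4 * E.length) := by positivity
    omega
  have hT : (0 : ℝ) < (totN E h : ℝ) := by exact_mod_cast hT0
  have hRR : (0 : ℝ) < P.R := by exact_mod_cast hP.R_pos
  have hnR : (0 : ℝ) < P.n := by
    have := hP.n_ge
    exact_mod_cast (by omega : 0 < P.n)
  have hJR : (0 : ℝ) < P.J := by exact_mod_cast hP.J_pos
  have hL0 : (1 : ℝ) ≤ (Nat.log 2 (4 * P.r) : ℕ) := by
    have := hP.lam0_ge
    exact_mod_cast (by omega : 1 ≤ Nat.log 2 (4 * P.r))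
  have hc0 : 0 ≤ c := by rw [hc]; positivity
  induction hr with
  | zero =>
    simp only [initH, List.map_cons, List.map_nil, List.sum_cons, List.sum_nil, add_zero, phiH]
    simp
  | succ i s s' hr hs ih =>
    have hn := reachH_ninv hP hh hW0 hr
    refine ih.trans ?_
    cases hs with
    | drop F wh j act lv h' =>
      simp only [List.map_cons, List.sum_cons]
      have : phiH P E c (F, wh, j) ≤ 0 := by
        unfold phiH
        simp only
        have hw0 : (0 : ℝ) ≤ totN E F := Nat.cast_nonneg _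
        have hj0 : (0 : ℝ) ≤ (j : ℝ) / P.J := by positivity
        have hwh0 : (0 : ℝ) ≤ (wh : ℝ) / P.n := by positivity
        have hce : 0 ≤ c * entF E F := mul_nonneg hc0 (entF_nonneg _ _)
        rcases h' with h' | h'
        · have h1 : (1 : ℝ) ≤ j / P.J := by
            rw [one_le_div hJR]; exact_mod_cast h'
          have : (totN E F : ℝ) * (1 - j / P.J) ≤ 0 :=
            mul_nonpos_of_nonneg_of_nonpos hw0 (by linarith)
          linarith
        · have h'' : (totN E F : ℝ) ≤ wh / P.n := by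
            rw [le_div_iff₀ hnR]
            exact_mod_cast h'.le
          have : (totN E F : ℝ) * (1 - j / P.J) ≤ totN E F * 1 :=
            mul_le_mul_of_nonneg_left (by linarith) hw0
          linarith
      linarith
    | leaf F wh j act lv h' h2 =>
      simp only [List.map_cons, List.sum_cons]
      have : phiH P E c (F, wh, j) ≤ totN E F := by
        unfold phiH
        simp only
        have hw0 : (0 : ℝ) ≤ totN E F := Nat.cast_nonneg _
        have hj0 : (0 : ℝ) ≤ (j : ℝ) / P.J := by positivity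
        have hwh0 : (0 : ℝ) ≤ (wh : ℝ) / P.n := by positivity
        have hce : 0 ≤ c * entF E F := mul_nonneg hc0 (entF_nonneg _ _)
        have : (totN E F : ℝ) * (1 - j / P.J) ≤ totN E F * 1 :=
          mul_le_mul_of_nonneg_left (by linarith) hw0
        linarith
      push_cast
      linarith
    | split F wh j act lv h' v t h2 =>
      have hI := hn _ (List.mem_cons_self ..)
      have hlow := split_low hP hW0 hI h' h2
      obtain ⟨_, _, _, h4, _, Lam, h6, h7, h8⟩ := split_facts hP E hI.1 hW0 hI.2 h' h2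
      simp only [List.map_cons, List.sum_cons]
      have hkey : phiH P E c (F, wh, j) ≤ phiH P E c (childR F (bumpN E F v t), wh, j) +
          phiH P E c (childL F (bumpN E F v t), totN E (childL F (bumpN E F v t)), j + 1) := by
        unfold phiH
        simp only
        have h4' : (totN E (childL F (bumpN E F v t)) : ℝ) +
          totN E (childR F (bumpN E F v t)) ≤ totN E F := by exact_mod_cast h4
        have hq : 1 ≤ (((4 * P.n ^ 5) ^ P.J : ℕ) : ℝ) / totN E h *
            totN E (childL F (bumpN E F v t)) := by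
          rw [div_mul_eq_mul_div, one_le_div hT]; exact_mod_cast hlow
        have e4 : ((j + 1 : ℕ) : ℝ) / P.J = j / P.J + 1 / P.J := by
          push_cast; ring
        rw [e4]
        exact pot_split (Nat.cast_nonneg _) h4' (by positivity) hnR hJR hL0 h6 h7 h8 hc
          (by positivity) hq hc0
      linarith

theorem reachH_tot (hP : OkH P q k1) (hh : ∀ v, h v ≤ 2 ^ P.b)
    (hW0 : 4 ^ P.b * (4 * E.length) ≤ P.n * totN E h) (hE : E ≠ [])
    (hV : Fintype.card V ≤ P.n) {i : ℕ} {lv : List (V → ℕ)} (hr : ReachH P E h i ([], lv)) :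
    k1 * pieceW E h ≤ pieceW E h + k1 * (lv.map (pieceW E)).sum := by
  have hne : Nonempty V := ⟨(E.head hE).1⟩
  have hEl : 0 < E.length := List.length_pos_of_ne_nil hE
  have hElR : (0 : ℝ) < E.length := by exact_mod_cast hEl
  have hT0 : 0 < totN E h := by
    by_contra hc
    have h0 : totN E h = 0 := by omega
    rw [h0, mul_zero] at hW0
    have : 0 < 4 ^ P.b * (4 * E.length) := by positivity
    omega
  have h1 := reachH_phi hP hh hW0 hE rfl hr
  have h2 := entF_le (E := E) (h := h) hP hV hne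
  simp only [List.map_nil, List.sum_nil, zero_add] at h1
  set c : ℝ := 6 / P.R + 1 / (P.n * (Nat.log 2 (4 * P.r) : ℕ)) +
      1 / (P.J * (Nat.log 2 (4 * P.r) : ℕ)) + 24 * 2 ^ P.b * E.length *
        (((4 * P.n ^ 5) ^ P.J : ℕ) / totN E h) with hc
  set T : ℝ := (totN E h : ℝ) with hTdef
  have hT : (0 : ℝ) < T := by
    rw [hTdef]
    exact_mod_cast hT0
  have hLR : (1 : ℝ) ≤ P.L := by exact_mod_cast hP.L_pos
  have hk1R : (1 : ℝ) ≤ k1 := by exact_mod_cast hP.hk1
  have hqR : (1 : ℝ) ≤ q := by exact_mod_cast hP.hq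
  have hnR : (16 : ℝ) ≤ P.n := by exact_mod_cast hP.n_ge
  have hl0 : (2 : ℝ) ≤ (Nat.log 2 (4 * P.r) : ℕ) := by exact_mod_cast hP.lam0_ge
  have hRR : (P.R : ℝ) = 32 * k1 * P.L := by rw [hP.hR]; push_cast; ring
  have hJR : (P.J : ℝ) = 16 * q * k1 := by rw [hP.hJ]; push_cast; ring
  have hnk : 16 * (k1 : ℝ) * (P.L + 1) ≤ P.n := by exact_mod_cast hP.hn
  have hLl : (P.L : ℝ) ≤ 4 * q * (Nat.log 2 (4 * P.r) : ℕ) := by exact_mod_cast hP.L_le
  set l0 : ℝ := ((Nat.log 2 (4 * P.r) : ℕ) : ℝ) with hl0def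
  have hnpos : (0 : ℝ) < P.n := by linarith
  have hl0pos : (0 : ℝ) < l0 := by linarith
  have hk1pos : (0 : ℝ) < k1 := by linarith
  have hJpos : (0 : ℝ) < P.J := by exact_mod_cast hP.J_pos
  -- the four parts of c * L
  have c1 : 6 / (P.R : ℝ) * P.L = 3 / 16 / k1 := by
    rw [hRR]; field_simp; norm_num
  have a1 : 32 * (k1 : ℝ) ≤ P.n := by
    have : (0 : ℝ) ≤ 16 * k1 * (P.L - 1) := mul_nonneg (by positivity) (by linarith)
    linarith
  have c2 : 1 / (P.n * l0) * P.L ≤ 1 / 32 / k1 := by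
    rw [div_mul_eq_mul_div, one_mul, div_div, div_le_div_iff₀ (by positivity) (by positivity),
      one_mul]
    have h8 : (P.n : ℝ) * 2 ≤ P.n * l0 := mul_le_mul_of_nonneg_left hl0 hnpos.le
    linarith
  have c3 : 1 / (P.J * l0) * P.L ≤ 1 / 4 / k1 := by
    rw [div_mul_eq_mul_div, one_mul, div_div, div_le_div_iff₀ (by positivity) (by positivity),
      one_mul, hJR]
    have h8 := mul_le_mul_of_nonneg_left hLl (by positivity : (0 : ℝ) ≤ 4 * k1)
    linarith
  have c4 : 24 * 2 ^ P.b * E.length * ((((4 * P.n ^ 5) ^ P.J : ℕ) : ℝ) / T) * P.L ≤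
      1 / 32 / k1 := by
    have hW0R : (2 : ℝ) ^ P.b * 2 ^ P.b * (4 * E.length) ≤ P.n * T := by
      have h9 : ((4 ^ P.b * (4 * E.length) : ℕ) : ℝ) ≤ ((P.n * totN E h : ℕ) : ℝ) := by
        exact_mod_cast hW0
      push_cast at h9
      rw [← mul_pow]
      norm_num
      exact h9
    have h3 : 192 * (k1 : ℝ) * P.L * P.n * (((4 * P.n ^ 5) ^ P.J : ℕ) : ℝ) ≤ 2 ^ P.b := by
      exact_mod_cast hP.big
    rw [div_div, mul_div_assoc', div_mul_eq_mul_div, div_le_div_iff₀ hT (by positivity), one_mul]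
    have h10 : (0 : ℝ) < 2 ^ P.b * E.length := by positivity
    have h11 := mul_le_mul_of_nonneg_left h3 (by positivity : (0 : ℝ) ≤ 4 * (2 ^ P.b * E.length))
    -- 24 * 2^b * m * K * L * (32 k1) * n ≤ 4 * 2^b * m * 2^b ≤ n * T
    have h12 : (24 * 2 ^ P.b * E.length * (((4 * P.n ^ 5) ^ P.J : ℕ) : ℝ) * P.L * (32 * k1)) *
        P.n ≤ T * P.n := by
      calc (24 * 2 ^ P.b * E.length * (((4 * P.n ^ 5) ^ P.J : ℕ) : ℝ) * P.L * (32 * k1)) * P.n
          = 4 * (2 ^ P.b * E.length) *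
            (192 * (k1 : ℝ) * P.L * P.n * (((4 * P.n ^ 5) ^ P.J : ℕ) : ℝ)) := by ring
        _ ≤ 4 * (2 ^ P.b * E.length) * 2 ^ P.b := h11
        _ = 2 ^ P.b * 2 ^ P.b * (4 * E.length) := by ring
        _ ≤ P.n * T := hW0R
        _ = T * P.n := mul_comm _ _
    exact le_of_mul_le_mul_right h12 hnpos
  have hcL : c * P.L ≤ 1 / 2 / k1 := by
    have e : c * P.L = 6 / (P.R : ℝ) * P.L + 1 / (P.n * l0) * P.L + 1 / (P.J * l0) * P.L +
        24 * 2 ^ P.b * E.length * ((((4 * P.n ^ 5) ^ P.J : ℕ) : ℝ) / T) * P.L := by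
      rw [hc]; ring
    rw [e, c1]
    have e5 : (1 : ℝ) / 2 / k1 = 3 / 16 / k1 + 1 / 32 / k1 + 1 / 4 / k1 + 1 / 32 / k1 := by
      field_simp; norm_num
    rw [e5]
    linarith
  have hn1 : T / P.n ≤ 1 / 32 / k1 * T := by
    rw [div_le_iff₀ (by positivity)]
    have h8 : 1 ≤ 1 / 32 / (k1 : ℝ) * P.n := by
      rw [div_div, div_mul_eq_mul_div, one_mul, one_le_div (by positivity)]
      exact a1
    calc T = T * 1 := (mul_one T).symm
      _ ≤ T * (1 / 32 / (k1 : ℝ) * P.n) := mul_le_mul_of_nonneg_left h8 hT.le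
      _ = _ := by ring
  have hc0 : 0 ≤ c := by rw [hc]; positivity
  have h3 : c * entF E h ≤ 1 / 2 / k1 * T := by
    calc c * entF E h ≤ c * (P.L * T) := mul_le_mul_of_nonneg_left h2 hc0
      _ = c * P.L * T := by ring
      _ ≤ _ := mul_le_mul_of_nonneg_right hcL hT.le
  have hsum : ((lv.map (totN E)).sum : ℕ) = (lv.map (pieceW E)).sum := by
    congr 1
    exact List.map_congr_left fun F _ => totN_eq E F
  rw [hsum] at h1
  have h4 : T ≤ 1 / k1 * T + ((lv.map (pieceW E)).sum : ℕ) := by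
    have e6 : 1 / (k1 : ℝ) * T = 1 / 2 / k1 * T + 1 / 32 / k1 * T + 15 / 32 / k1 * T := by
      field_simp; norm_num
    have : 0 ≤ 15 / 32 / (k1 : ℝ) * T := by positivity
    rw [e6]
    linarith
  have h5 : k1 * T ≤ T + k1 * ((lv.map (pieceW E)).sum : ℕ) := by
    have := mul_le_mul_of_nonneg_left h4 (by positivity : (0 : ℝ) ≤ k1)
    have e7 : (k1 : ℝ) * (1 / k1 * T + ((lv.map (pieceW E)).sum : ℕ)) =
        T + k1 * ((lv.map (pieceW E)).sum : ℕ) := by
      field_simp
    linarith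
  rw [hTdef, totN_eq] at h5
  exact_mod_cast h5

end

end Vale.Agent.P325.V2
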