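import Vale.Agent.P325.V2.Alg2
import Vale.Agent.P325.V2.Reach2
import Vale.Agent.P325.AlgSpec3

/-!
# What is needed of the numbers of a run of the algorithm with levels
-/

namespace Vale.Agent.P325.V2

open Vale.Agent.P325

/-- the large number comparing `ε`, `τ` and `16 ^ (-2 I)` -/
def bigD (c : Alg2.Cst2) : ℕ := 10 ^ 10 * (c.q * c.cq * 256 ^ c.I)

/-- what is needed of the numbers of a run -/
structure PFacts2 (c : Alg2.Cst2) (n r B : ℕ) : Prop where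
  ok : ∀ i < c.I, OkH (prm (Alg2.nums2 c n r B i)) c.q (Alg2.k1At c i)
  hS : 0 < c.CS * r ^ 3
  hlog : ∀ i < c.I, 2 * (Nat.size n : ℝ) * Real.exp (-((Alg2.nums2 c n r B i).T /
    (4 * (Alg2.nums2 c n r B i).R))) ≤ Real.log (4 * r)
  hT : ∀ i < c.I, 1 / (r : ℝ) ≤ (1 - 1 / (Alg2.hAt c i : ℝ)) ^ (Alg2.nums2 c n r B i).T
  hB : ∀ i < c.I, 2 * Nat.size n * (4 * n ^ 5) ^ (Alg2.nums2 c n r B i).J + 1 < B
  hcert : (n * c.k) ^ (c.CS * r ^ 3) ≤ B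
  hnB : n ≤ B
  hrB : r < B
  hbig : bigD c ≤ n
  hτ : bigD c * (16 * r * ((c.L0 * r : ℕ) : ℝ) ^ 2 / (c.CS * r ^ 3 : ℕ) + 1 / n +
    Real.exp (-(2 * (((c.L0 * r : ℕ) : ℝ) / r)))) ≤ 1

/-- what is needed of the constants -/
structure CFacts2 (c : Alg2.Cst2) (κ ε : ℝ) : Prop where
  hk : 2 ≤ c.k
  hq : 1 ≤ c.q
  hcq : 1 ≤ c.cq
  hI : 1 ≤ c.I
  hκ : 8 < κ * 16 ^ c.I
  hε : bigD c * ε ≤ 1
  hn0 : 1 ≤ c.n0
  facts : ∀ n r B, c.n0 ≤ n → n ≤ r ^ (4 * c.q) → r ≤ n → (∀ r' < r, r' ^ (4 * c.q) < n) →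
    c.C * r ^ 4 < Nat.size B → PFacts2 c n r B

end Vale.Agent.P325.V2
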