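import Vale.Agent.P325.V2.Core3
import Vale.Agent.P325.Main

/-!
# Correctness of the algorithm with levels and padding
-/

namespace Vale.Agent.P325.V2

open Vale.Agent.P325 Vale.Agent.P325.Alg Alg2

theorem sizeL2_eq (c : Cst2) (G : Inst c.k) : sizeL2 c (codeL G.cons) = G.size + c.n0 := by
  unfold sizeL2
  rw [parseM_eq]
  rfl

/-- if the padding is long enough, there is an answer -/
theorem main2_some {c : Cst2} {κ ε : ℝ} (hc : CFacts2 c κ ε) (G : Inst c.k) {r j : ℕ}
    (h1 : G.size + c.n0 ≤ r ^ (4 * c.q)) (h2 : ∀ r' < r, r' ^ (4 * c.q) < G.size + c.n0)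
    (h3 : r ≤ G.size + c.n0) (hj : c.C * r ^ 4 ≤ j) :
    main2 c (codeL G.cons) (2 ^ j) ≠ none := by
  have hB : c.C * r ^ 4 < Nat.size (2 ^ j) := by
    rw [Nat.size_pow]
    omega
  have hf := hc.facts _ r (2 ^ j) (Nat.le_add_left _ _) h1 h3 h2 hB
  unfold main2
  rw [sizeL2_eq, find_range h1 h2 hf.hrB]
  simp only
  rw [if_pos hB]
  simp

/-- correctness -/
theorem main2_spec {c : Cst2} {κ ε : ℝ} (hc : CFacts2 c κ ε) (G : Inst c.k) {B : ℕ}
    {ans : Bool} (h : main2 c (codeL G.cons) B = some ans) :
    (1 - ε ≤ G.val → ans = true) ∧ (G.val ≤ 1 - κ → ans = false) := by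
  have hn : 1 ≤ G.size + c.n0 := by have := hc.hn0; omega
  unfold main2 at h
  rw [sizeL2_eq] at h
  rcases hf : (List.range B).find? (fun r => decide (G.size + c.n0 ≤ r ^ (4 * c.q))) with _ | r
  · rw [hf] at h; simp at h
  rw [hf] at h
  simp only at h
  split_ifs at h with hB
  rw [List.find?_eq_some_iff_append] at hf
  obtain ⟨hf1, as, bs, hf2, hf3⟩ := hf
  rw [decide_eq_true_eq] at hf1
  have hr : r < B := by
    have : r ∈ List.range B := by rw [hf2]; simp
    exact List.mem_range.1 this
  have has : as = List.range r := by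
    have h4 : as = (List.range B).take as.length := by rw [hf2]; simp
    have h5 : (List.range B)[as.length]? = some r := by rw [hf2]; simp
    have h6 : as.length = r := by
      rw [List.getElem?_range] at h5
      · simpa using h5
      · have : as.length < (List.range B).length := by rw [hf2]; simp
        simpa using this
    rw [h4, List.take_range, h6, min_eq_left hr.le]
  have hmin : ∀ r' < r, r' ^ (4 * c.q) < G.size + c.n0 := by
    intro r' hr'
    have h7 := hf3 r' (by rw [has]; exact List.mem_range.2 hr')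
    simpa using h7
  have hrn : r ≤ G.size + c.n0 := by
    by_contra hcon
    push Not at hcon
    have := hmin _ hcon
    have h8 : G.size + c.n0 ≤ (G.size + c.n0) ^ (4 * c.q) :=
      Nat.le_self_pow (by have := hc.hq; omega) _
    omega
  have hF := hc.facts _ r B (Nat.le_add_left _ _) hf1 hrn hmin hB
  have hkpos : 0 < c.k := by have := hc.hk; omega
  have hN : min ((codeL G.cons).headD 0) B = G.n := by
    have h9 : (codeL G.cons).headD 0 = G.n := rfl
    rw [h9]
    refine min_eq_left (le_trans ?_ hF.hnB)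
    unfold Inst.size
    omega
  rw [hN, parseC_eq, min_eq_left hr.le, Option.some.injEq] at h
  have hV : Fintype.card (Fin G.n) ≤ G.size + c.n0 := by
    rw [Fintype.card_fin]
    unfold Inst.size
    omega
  refine ⟨fun hv => ?_, fun hv => ?_⟩
  · obtain ⟨a, ha⟩ := exists_of_val hkpos G hv
    rw [← h]
    exact runL2_complete (Equiv.refl (Fin G.n)) hc.hk hc.hq hc.hcq hc.hI hc.hε G.cons G.ne hF hV
      a ha
  · by_contra hne
    have htrue : runL2 c G.n (conL (Equiv.refl (Fin G.n)) G.cons) (G.size + c.n0) r B = true := by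
      rw [h]
      cases ans
      · exact absurd rfl hne
      · rfl
    obtain ⟨a, ha⟩ := runL2_sound (Equiv.refl (Fin G.n)) hc.hk G.cons G.ne hF hV htrue
    have h10 := le_of_val G hv a
    have h11 := mul_lt_mul_of_pos_right hc.hκ (length_pos G)
    have h12 : (16 : ℝ) ^ c.I * viol G.cons a ≤ 8 * G.cons.length := by exact_mod_cast ha
    have h13 : (16 : ℝ) ^ c.I * (κ * G.cons.length) ≤ 16 ^ c.I * viol G.cons a :=
      mul_le_mul_of_nonneg_left h10 (by positivity)
    nlinarith

end Vale.Agent.P325.V2
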