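import Vale.Agent.P325.V2.Params2
import Vale.Agent.P325.V2.Main2
import Vale.Agent.P325.V2.AlgPT
import Vale.Agent.P325.V2.Both2

/-!
# The algorithm with levels: the final theorem
-/

namespace Vale.Agent.P325.V2

open Vale.Agent.Lib.PolyTime Vale.Agent.P325.Alg

/-- the algorithm with levels decides the gap -/
theorem gap2 {c : Alg2.Cst2} {κ ε : ℝ} (hc : CFacts2 c κ ε) :
    Gap c.k c.q c.C c.n0 κ ε (Alg2.main2 c) where
  hq := hc.hq
  hn0 := hc.hn0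
  pt := AlgPT.PT_main2 c
  some := fun G _ _ h1 h2 h3 h4 => main2_some hc G h1 h2 h3 h4
  spec := fun G _ _ h => main2_spec hc G h

theorem result_both2 : ∃ c : ℝ, 0 < c ∧ ∀ (k : ℕ) (α κ ε : ℝ), 2 ≤ k → 0 < α → α ≤ 1 →
    0 < κ → κ ≤ 1 → ε ≤ c * κ ^ 2 * α / (1 + Real.log (1 / α)) →
    SolvedIn (Inst.code : Inst k → List Bool) (fun G => G.size)
      (fun G => 1 - ε ≤ G.val) (fun G => G.val ≤ 1 - κ) α ∧
    ∀ (L : Set (List Bool)) (f : List Bool → Inst k) (A b : ℝ), 0 < b →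
      Nonempty (Turing.TM2ComputableInPolyTime (fun x : List Bool => x)
        (Inst.code : Inst k → List Bool) f) →
      (∀ x, ((f x).size : ℝ) ≤ A * ((x.length : ℝ) + 1) ^ b) →
      (∀ x ∈ L, 1 - ε ≤ (f x).val) → (∀ x ∉ L, (f x).val ≤ 1 - κ) →
      SolvedIn (fun x : List Bool => x) (fun x => (x.length : ℝ) + 1)
        (fun x => x ∈ L) (fun x => x ∉ L) (b * α) := by
  obtain ⟨c0, hc0, h⟩ := exists_cfacts2
  refine both_of_gap (g := fun κ => κ ^ 2) (fun κ => sq_nonneg κ) hc0 fun k q κ hk hq hκ hκ1 => ?_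
  obtain ⟨c, rfl, rfl, hc⟩ := h k q κ hk hq hκ hκ1
  exact ⟨c.C, c.n0, Alg2.main2 c, gap2 hc⟩

end Vale.Agent.P325.V2
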