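import Vale.Agent.P325.V2.Loop2
import Vale.Agent.P325.V2.Facts2

/-!
# The invariant of the levels
-/

namespace Vale.Agent.P325.V2

open Finset Vale.Agent.P325 Vale.Agent.P325.Alg Alg2

section
variable {V : Type*} {k N : ℕ} [Fintype V] [DecidableEq V]

omit [Fintype V] [DecidableEq V] in
theorem length_base (E : List (Con V k)) : (base E).length = E.length := by simp [base]

omit [DecidableEq V] in
theorem LeafOK.s_nonneg {E : List (Con V k)} {H : ℕ} {P : Alg.Num} {x : Leaf V k}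
    [DecidableEq V] (_h : LeafOK N E H P x) (u : V) : 0 ≤ x.s u := by
  unfold Leaf.s
  positivity

omit [DecidableEq V] in
theorem LeafOK.s_le_one {E : List (Con V k)} {H : ℕ} {P : Alg.Num} {x : Leaf V k}
    [DecidableEq V] (h : LeafOK N E H P x) (u : V) : x.s u ≤ 1 := by
  unfold Leaf.s
  have := h.d_pos
  rw [div_le_one (by exact_mod_cast this)]
  exact_mod_cast h.A_le u

omit [DecidableEq V] in
theorem LeafOK.sq_le {E : List (Con V k)} {H : ℕ} {P : Alg.Num} {x : Leaf V k}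
    [DecidableEq V] (h : LeafOK N E H P x) (u : V) : x.G u ^ 2 + x.G' u ^ 2 ≤ x.F u ^ 2 :=
  part_sq_add_sq h.s_nonneg h.s_le_one u

/-- invariant of the levels -/
structure Inv (E : List (Con V k)) (b : ℕ) (z : LvS V) : Prop where
  le : ∀ u, z.Sq u + z.h u ^ 2 ≤ 4 ^ b
  ex : ∃ Z : List ((V → ℕ) × (V → Fin k)), (∀ u, z.Sq u = (Z.map fun p => p.1 u ^ 2).sum) ∧
    z.aT = (Z.map fun p => tvN (base E) p.1).sum ∧ z.aV = (Z.map fun p => pieceV E p.1 p.2).sum

omit [Fintype V] [DecidableEq V] in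
theorem Inv.h_le {E : List (Con V k)} {b : ℕ} {z : LvS V} (h : Inv E b z) (u : V) :
    z.h u ≤ 2 ^ b := by
  have h1 := h.le u
  have h2 : z.h u ^ 2 ≤ (2 ^ b) ^ 2 := by
    rw [← pow_mul, mul_comm b 2, pow_mul]
    norm_num
    omega
  exact (Nat.pow_le_pow_iff_left (by norm_num)).1 h2

theorem hqA_le {E : List (Con V k)} {P : Alg.Num} {q k1 b : ℕ} (hP : OkH (prm P) q k1)
    (hb : P.b = b) {z : LvS V} (hz : Inv E b z)
    (hW : 4 ^ P.b * 4 * E.length ≤ P.n * totN (base E) z.h) {rs : List (Leaf V k)} {j : ℕ}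
    (hr : ReachH (prm P) (base E) z.h j ([], rs.map Leaf.F)) (u : V) :
    (rs.map fun x => x.F u ^ 2).sum ≤ z.h u ^ 2 := by
  subst hb
  have h1 := reachH_sq hP hz.h_le (by
    rw [length_base]
    show 4 ^ P.b * (4 * E.length) ≤ P.n * totN (base E) z.h
    rw [← mul_assoc]; exact hW) hr u
  simp only [List.map_nil, List.sum_nil, zero_add, List.map_map] at h1
  exact h1

theorem sqA_le_hqA {E : List (Con V k)} {H : ℕ} {P : Alg.Num} {rs : List (Leaf V k)}
    (h : ∀ x ∈ rs, LeafOK N E H P x) (u : V) : sqA rs u ≤ hqA rs u := by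
  unfold sqA hqA
  refine List.sum_le_sum fun x hx => ?_
  have := (h x hx).sq_le u
  omega

omit [Fintype V] [DecidableEq V] in
theorem hqA_le_sum (rs : List (Leaf V k)) (u : V) :
    hqA rs u ≤ (rs.map fun x => x.F u ^ 2).sum := by
  unfold hqA
  exact List.sum_le_sum fun x _ => Nat.sub_le _ _

/-- a level preserves the invariant -/
theorem Inv.step {E : List (Con V k)} {H : ℕ} {P : Alg.Num} {q k1 b : ℕ}
    (hP : OkH (prm P) q k1) (hb : P.b = b) {z z' : LvS V} (hz : Inv E b z)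
    (h : LevelRel N E H P z z') : Inv E b z' := by
  rcases h with ⟨_, rfl⟩ | ⟨hW, rs, j, hr, hrs, rfl⟩
  · exact hz
  · have h1 := hqA_le hP hb hz hW hr
    refine ⟨fun u => ?_, ?_⟩
    · have h2 := sqA_le_hqA hrs u
      have h3 := hqA_le_sum rs u
      have h4 := h1 u
      have h5 := hz.le u
      have h6 : Nat.sqrt (z.h u ^ 2 - hqA rs u) ^ 2 ≤ z.h u ^ 2 - hqA rs u := Nat.sqrt_le' _
      show z.Sq u + sqA rs u + Nat.sqrt (z.h u ^ 2 - hqA rs u) ^ 2 ≤ 4 ^ b
      omega
    · obtain ⟨Z, g1, g2, g3⟩ := hz.ex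
      refine ⟨(rs.map fun x => (x.G, x.a)) ++ Z, fun u => ?_, ?_, ?_⟩
      · show z.Sq u + sqA rs u = _
        rw [List.map_append, List.sum_append, ← g1 u, List.map_map, add_comm]
        rfl
      · show z.aT + tvA E rs = _
        rw [List.map_append, List.sum_append, ← g2, List.map_map, add_comm]
        rfl
      · show z.aV + vA E rs = _
        rw [List.map_append, List.sum_append, ← g3, List.map_map, add_comm]
        rfl

/-- the initial state -/
def z0 (b : ℕ) : LvS V := ⟨fun _ => 2 ^ b, fun _ => 0, 0, 0⟩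

omit [Fintype V] [DecidableEq V] in
theorem Inv.zero (E : List (Con V k)) (b : ℕ) : Inv E b (z0 b : LvS V) := by
  refine ⟨fun u => ?_, [], ?_, rfl, rfl⟩
  · show 0 + (2 ^ b) ^ 2 ≤ 4 ^ b
    rw [← pow_mul, mul_comm b 2, pow_mul]
    norm_num
  · intro u; rfl

/-- the levels of the algorithm -/
theorem levelsL_eq (e : V ≃ Fin N) {c : Cst2} (hk : 0 < c.k) (E : List (Con V c.k)) (hE : E ≠ [])
    {n r B : ℕ} (hf : PFacts2 c n r B) (hV : Fintype.card V ≤ n) :
    ∃ z : ℕ → LvS V, z 0 = z0 (bAt c n) ∧ (∀ i ≤ c.I, Inv E (bAt c n) (z i)) ∧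
      (∀ i < c.I, LevelRel N E (hAt c i) (nums2 c n r B i) (z i) (z (i + 1))) ∧
      levelsL c N (conL e E) n r B (tab N fun _ => 2 ^ bAt c n, tab N fun _ => 0, 0, 0) =
        lvL e (z c.I) := by
  have hbE : base E ≠ [] := by simpa [base] using hE
  have h0 : (tab N fun _ => 2 ^ bAt c n, tab N fun _ => 0, 0, 0) = lvL e (z0 (bAt c n)) := by
    unfold lvL z0
    rw [tab_eq e, tab_eq e]
  unfold levelsL
  rw [h0]
  refine levels_eq e hk E (hAt c) (nums2 c n r B) c.I (fun i _ => hf.hS) (Inv E (bAt c n))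
    (fun i hi z z' hz h => hz.step (hf.ok i hi) rfl h) ?_ _ (Inv.zero E _)
  intro i hi z hz hW j s hs
  have h1 := reachH_bound (hf.ok i hi) (h := z.h) (E := base E) hz.h_le (by
    rw [length_base]
    show 4 ^ (nums2 c n r B i).b * (4 * E.length) ≤ (nums2 c n r B i).n * totN (base E) z.h
    rw [← mul_assoc]; exact hW) hbE hV hs
  exact h1.trans_lt (hf.hB i hi)

end

end Vale.Agent.P325.V2
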