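import Vale.Agent.P325.V2.Spec2
import Vale.Agent.P325.V2.Inv2
import Vale.Agent.P325.Leaf
import Vale.Agent.P325.Lift

/-!
# Decoding with margins inside a leaf
-/

namespace Vale.Agent.P325.V2

open Finset Vale.Agent.P325

/-! ### Energies -/

section Energy

variable {X : Type*} [Fintype X] {M : X → X → ℝ}

theorem energy_three (hM : IsForm M) (f g h : X → ℝ) :
    energy M (fun x => f x + g x + h x) ≤ 3 * (energy M f + energy M g + energy M h) := by
  unfold energy
  rw [← add_div, ← add_div, ← sum_add_distrib, ← sum_add_distrib, mul_div_assoc', mul_sum]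
  refine div_le_div_of_nonneg_right (sum_le_sum fun x _ => ?_) (by norm_num)
  rw [← sum_add_distrib, ← sum_add_distrib, mul_sum]
  refine sum_le_sum fun y _ => ?_
  have h1 := hM.nonneg x y
  have h2 : ((f x + g x + h x) - (f y + g y + h y)) ^ 2 ≤
      3 * ((f x - f y) ^ 2 + (g x - g y) ^ 2 + (h x - h y) ^ 2) := by
    nlinarith [sq_nonneg ((f x - f y) - (g x - g y)), sq_nonneg ((g x - g y) - (h x - h y)),
      sq_nonneg ((f x - f y) - (h x - h y))]
  have := mul_le_mul_of_nonneg_left h2 h1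
  linarith

theorem energy_le_nrm (hM : IsForm M) (f : X → ℝ) : energy M f ≤ nrm M f := by
  rw [hM.energy_eq]
  have := hM.psd f
  linarith

variable [DecidableEq X]

theorem energy_filt_le (hM : IsForm M) (T S : ℕ) (h : X → ℝ) :
    energy M (filt M T S h) ≤ energy M h := by
  rw [hM.energy_eq, hM.energy_eq, hM.Q_eq_sum, hM.Q_eq_sum, ← hM.sum_coef_sq, ← hM.sum_coef_sq,
    ← sum_sub_distrib, ← sum_sub_distrib]
  refine sum_le_sum fun j _ => ?_
  rw [hM.coef_filt, mul_pow]
  have h0 := hM.ev_nonneg j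
  have h1 := hM.ev_le_one j
  have h2 : 0 ≤ 1 - hM.ev j ^ T := by
    have := pow_le_one₀ (n := T) h0 h1
    linarith
  have h3 : 1 - hM.ev j ^ T ≤ 1 := by
    have := pow_nonneg h0 T
    linarith
  have h4 := pow_nonneg h2 S
  have h5 := pow_le_one₀ (n := S) h2 h3
  have h6 : (1 - (1 - hM.ev j ^ T) ^ S) ^ 2 ≤ 1 := by nlinarith
  have h7 : 0 ≤ (1 - hM.ev j) * hM.coef j h ^ 2 :=
    mul_nonneg (by linarith) (sq_nonneg _)
  nlinarith

end Energy

/-! ### The seeds -/

section Decode

variable {V : Type*} [Fintype V] [DecidableEq V] {k : ℕ} {M : V → V → ℝ}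
  {Mh : V × Fin k → V × Fin k → ℝ}

open Classical in
/-- total degree of the heavy vertices -/
noncomputable def massH (M : V → V → ℝ) (n : ℕ) : ℝ :=
  ∑ v, if 0 < deg M v ∧ tot M ≤ n ^ 2 * deg M v then deg M v else 0

theorem leaf_sample2 (hM : IsForm M) (hMh : IsForm Mh)
    (hproj : ∀ u i v, ∑ j, Mh (u, i) (v, j) = M u v) {n r T S S' : ℕ} {η : ℝ}
    (hcard : Fintype.card V ≤ n) (hS : 0 < S) (htot : 0 < tot M) (hη : 0 < η) (hη1 : η ≤ 1)
    (hT : 1 / (r : ℝ) ≤ (1 - η) ^ T)
    (hleaf : ∀ v, 0 < deg M v → tot M ≤ n ^ 2 * deg M v →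
      nrm M (heat M v T) * tot M ≤ 16 * r * deg M v ^ 2) (a : V → Fin k) :
    ∃ x : Fin S → V × Fin k,
      nrm Mh (fun y => (massH M n / S) * filt Mh T S' (seedF Mh x) y - lab1 a y) ≤
        3 * (16 * r * S' ^ 2 / S + 1 / n + Real.exp (-(2 * (S' / r : ℝ))) +
          energy Mh (lab1 a) / (η * tot M)) * tot M ∧
      energy Mh (fun y => (massH M n / S) * filt Mh T S' (seedF Mh x) y) ≤
        3 * (16 * r * S' ^ 2 / S + 1 / n) * tot M + 3 * energy Mh (lab1 a) := by
  classical
  set w := tot M with hw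
  -- heavy vertices
  let Hv : V → Prop := fun v => 0 < deg M v ∧ w ≤ n ^ 2 * deg M v
  have hw₀ : massH M n = ∑ v, if Hv v then deg M v else 0 := rfl
  set w₀ : ℝ := massH M n with hw₀'
  have hne : (univ : Finset V).Nonempty := by
    by_contra h
    rw [not_nonempty_iff_eq_empty] at h
    have : w = 0 := by rw [hw]; unfold tot; rw [h, sum_empty]
    linarith
  have hn : 0 < n := by
    obtain ⟨v, _⟩ := hne
    exact lt_of_lt_of_le (Fintype.card_pos_iff.2 ⟨v⟩) hcard
  have hnr : (0 : ℝ) < n := by exact_mod_cast hn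
  have hlight : ∑ v, (if Hv v then 0 else deg M v) ≤ w / n := by
    have h1 : ∀ v, (if Hv v then 0 else deg M v) ≤ w / n ^ 2 := by
      intro v
      split_ifs with h
      · positivity
      · rw [le_div_iff₀ (by positivity)]
        by_contra hcon
        push Not at hcon
        have hpos : 0 < deg M v := by
          rcases (hM.deg_nonneg v).eq_or_lt with h0 | h0
          · rw [← h0, zero_mul] at hcon
            linarith
          · exact h0
        exact h ⟨hpos, by linarith⟩
    refine (sum_le_sum fun v _ => h1 v).trans ?_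
    rw [sum_const, card_univ, nsmul_eq_mul]
    have : (Fintype.card V : ℝ) ≤ n := by exact_mod_cast hcard
    calc (Fintype.card V : ℝ) * (w / n ^ 2) ≤ n * (w / n ^ 2) :=
          mul_le_mul_of_nonneg_right this (by positivity)
      _ = w / n := by field_simp
  have hsplit : w₀ + ∑ v, (if Hv v then 0 else deg M v) = w := by
    rw [hw₀, ← sum_add_distrib]
    show _ = ∑ v, deg M v
    refine sum_congr rfl fun v _ => ?_
    split_ifs <;> simp
  have hw₀w : w₀ ≤ w := by
    have : 0 ≤ ∑ v, (if Hv v then 0 else deg M v) := sum_nonneg fun v _ => by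
      split_ifs
      · exact le_refl _
      · exact hM.deg_nonneg v
    linarith
  have hw₀0 : 0 < w₀ := by
    -- a vertex of largest degree is heavy
    obtain ⟨v, _, hv⟩ := exists_max_image univ (fun v => deg M v) hne
    have h1 : w ≤ Fintype.card V * deg M v := by
      rw [hw]
      unfold tot
      refine (sum_le_sum fun u hu => hv u hu).trans ?_
      rw [sum_const, card_univ, nsmul_eq_mul]
    have h2 : (Fintype.card V : ℝ) ≤ n := by exact_mod_cast hcard
    have h3 : 0 < deg M v := by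
      rcases (hM.deg_nonneg v).eq_or_lt with h0 | h0
      · rw [← h0, mul_zero] at h1
        linarith
      · exact h0
    have h4 : (1 : ℝ) ≤ n := by exact_mod_cast hn
    have h5 : Hv v := by
      refine ⟨h3, h1.trans ?_⟩
      refine mul_le_mul_of_nonneg_right ?_ h3.le
      nlinarith
    have h6 : (if Hv v then deg M v else 0) ≤ w₀ :=
      single_le_sum (f := fun v => if Hv v then deg M v else 0) (fun u _ => by
        show 0 ≤ (if Hv u then deg M u else 0)
        split_ifs
        · exact hM.deg_nonneg u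
        · exact le_refl _) (mem_univ v)
    rw [if_pos h5] at h6
    linarith
  -- the seeds
  let δ : V → V × Fin k → ℝ := fun v y => if y = (v, a v) then 1 else 0
  let g : V → V × Fin k → ℝ := fun v => filt Mh T S' ((w₀ / deg M v) • δ v)
  let p : V → ℝ := fun v => (if Hv v then deg M v else 0) / w₀
  have hp : ∀ v, 0 ≤ p v := fun v => by
    refine div_nonneg ?_ hw₀0.le
    split_ifs
    · exact hM.deg_nonneg v
    · exact le_refl _
  have hp1 : ∑ v, p v = 1 := by
    simp only [p]
    rw [← sum_div, ← hw₀, div_self hw₀0.ne']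
  have hgN : ∀ v, Hv v → nrm Mh (g v) ≤ 16 * r * S' ^ 2 * w := by
    intro v hv
    have h1 : nrm Mh (g v) ≤ (w₀ / deg M v) ^ 2 * ((S' : ℝ) ^ 2 * nrm Mh (heat Mh (v, a v) T)) := by
      simp only [g]
      rw [filt_smul]
      have e1 : nrm Mh ((w₀ / deg M v) • filt Mh T S' (δ v)) =
          (w₀ / deg M v) ^ 2 * nrm Mh (filt Mh T S' (δ v)) := by
        unfold nrm
        rw [mul_sum]
        refine sum_congr rfl fun y _ => ?_
        rw [Pi.smul_apply, smul_eq_mul]
        ring
      rw [e1]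
      exact mul_le_mul_of_nonneg_left (hMh.nrm_filt_le_walk T S' (δ v)) (sq_nonneg _)
    have h2 := nrm_heat_lifted_le hM hMh hproj v (a v) T
    have h3 := hleaf v hv.1 hv.2
    have hd : 0 < deg M v := hv.1
    have h4 : nrm Mh (heat Mh (v, a v) T) ≤ 16 * r * deg M v ^ 2 / w := by
      rw [le_div_iff₀ htot]
      exact (mul_le_mul_of_nonneg_right h2 htot.le).trans h3
    calc nrm Mh (g v) ≤ (w₀ / deg M v) ^ 2 * ((S' : ℝ) ^ 2 * (16 * r * deg M v ^ 2 / w)) :=
          h1.trans (mul_le_mul_of_nonneg_left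
            (mul_le_mul_of_nonneg_left h4 (sq_nonneg _)) (sq_nonneg _))
      _ = 16 * r * S' ^ 2 * (w₀ ^ 2 / w) := by
          field_simp
      _ ≤ 16 * r * S' ^ 2 * w := by
          refine mul_le_mul_of_nonneg_left ?_ (by positivity)
          rw [div_le_iff₀ htot]
          nlinarith
  have hC : ∑ v, p v * nrm Mh (g v) ≤ 16 * r * S' ^ 2 * w := by
    have : ∑ v, p v * nrm Mh (g v) ≤ ∑ v, p v * (16 * r * S' ^ 2 * w) := by
      refine sum_le_sum fun v _ => ?_
      by_cases hv : Hv v
      · exact mul_le_mul_of_nonneg_left (hgN v hv) (hp v)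
      · have : p v = 0 := by simp only [p]; rw [if_neg hv, zero_div]
        rw [this, zero_mul, zero_mul]
    rwa [← sum_mul, hp1, one_mul] at this
  obtain ⟨x, hx, hxle⟩ := exists_sample hMh p hp hp1 g _ hC S
  have hxH : ∀ s, Hv (x s) := by
    intro s
    by_contra h
    have := hx s
    simp only [p] at this
    rw [if_neg h, zero_div] at this
    exact lt_irrefl _ this
  refine ⟨fun s => (x s, a (x s)), ?_⟩
  set Φ := filt Mh T S' (seedF Mh fun s => (x s, a (x s))) with hΦ
  have hSr : (0 : ℝ) < S := by exact_mod_cast hS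
  -- the restricted indicator
  let G₀ : V × Fin k → ℝ := fun y => if Hv y.1 then lab1 a y else 0
  have hμ : ∑ v, p v • g v = filt Mh T S' G₀ := by
    have e1 : ∀ v, p v • g v = filt Mh T S' (p v • ((w₀ / deg M v) • δ v)) := fun v => by
      simp only [g]
      rw [← filt_smul]
    simp_rw [e1]
    rw [← filt_sum]
    congr 1
    funext y
    rw [Finset.sum_apply]
    have e2 : ∀ v, (p v • ((w₀ / deg M v) • δ v)) y =
        if y = (v, a v) then (if Hv v then 1 else 0) else 0 := by
      intro v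
      simp only [Pi.smul_apply, smul_eq_mul, p, δ]
      by_cases h1 : y = (v, a v)
      · rw [if_pos h1, if_pos h1]
        by_cases h2 : Hv v
        · rw [if_pos h2, if_pos h2]
          have := h2.1.ne'
          have := hw₀0.ne'
          field_simp
        · rw [if_neg h2, if_neg h2]; simp
      · rw [if_neg h1, if_neg h1]; simp
    simp_rw [e2]
    obtain ⟨u, i⟩ := y
    simp only [Prod.mk.injEq, G₀, lab1]
    by_cases hu : i = a u
    · subst hu
      have : ∀ v, (if u = v ∧ a u = a v then (if Hv v then (1 : ℝ) else 0) else 0) =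
          if v = u then (if Hv u then 1 else 0) else 0 := by
        intro v
        by_cases hv : v = u
        · subst hv; simp
        · rw [if_neg hv, if_neg]
          rintro ⟨h1, _⟩
          exact hv h1.symm
      simp_rw [this]
      simp
    · have : ∀ v, (if u = v ∧ i = a v then (if Hv v then (1 : ℝ) else 0) else 0) = 0 := by
        intro v
        rw [if_neg]
        rintro ⟨h1, h2⟩
        exact hu (by rw [h2, h1])
      simp_rw [this]
      simp [hu]
  have hsumg : ∑ s, g (x s) = w₀ • Φ := by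
    simp only [g, hΦ]
    rw [← filt_smul, ← filt_sum]
    congr 1
    funext y
    rw [Finset.sum_apply, Pi.smul_apply, smul_eq_mul]
    unfold seedF
    rw [mul_sum]
    refine sum_congr rfl fun s _ => ?_
    simp only [Pi.smul_apply, smul_eq_mul, δ]
    rw [deg_lifted hproj]
    split_ifs
    · ring
    · ring
  rw [hμ, hsumg] at hxle
  have t1 : nrm Mh (fun y => (w₀ / S) * Φ y - filt Mh T S' G₀ y) ≤
      16 * r * S' ^ 2 / S * w := by
    have : nrm Mh (w₀ • Φ - (S : ℝ) • filt Mh T S' G₀) =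
        (S : ℝ) ^ 2 * nrm Mh (fun y => (w₀ / S) * Φ y - filt Mh T S' G₀ y) := by
      unfold nrm
      rw [mul_sum]
      refine sum_congr rfl fun y _ => ?_
      rw [Pi.sub_apply, Pi.smul_apply, Pi.smul_apply, smul_eq_mul, smul_eq_mul]
      field_simp
    rw [this] at hxle
    have h2 : (S : ℝ) * ((S : ℝ) * nrm Mh (fun y => (w₀ / S) * Φ y - filt Mh T S' G₀ y)) ≤
        S * (16 * r * S' ^ 2 * w) := by
      linarith
    have h3 := le_of_mul_le_mul_left h2 hSr
    rw [div_mul_eq_mul_div, le_div_iff₀ hSr]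
    linarith
  have t2 : nrm Mh (filt Mh T S' (G₀ - lab1 a)) ≤ 1 / n * w := by
    refine (hMh.nrm_filt_le T S' _).trans ?_
    have : nrm Mh (G₀ - lab1 a) = ∑ v, (if Hv v then 0 else deg M v) := by
      unfold nrm
      rw [Fintype.sum_prod_type]
      refine sum_congr rfl fun v _ => ?_
      simp_rw [deg_lifted hproj]
      simp only [Pi.sub_apply, G₀, lab1]
      by_cases hv : Hv v
      · simp [hv]
      · simp [hv]
    rw [this]
    refine hlight.trans (le_of_eq ?_)
    ring
  -- the approximation of `lab1 a`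
  have hApprox : nrm Mh (fun y => (w₀ / S) * Φ y - lab1 a y) ≤
      3 * (16 * r * S' ^ 2 / S + 1 / n + Real.exp (-(2 * (S' / r : ℝ))) +
        energy Mh (lab1 a) / (η * w)) * w := by
    have e1 : (fun y => (w₀ / S) * Φ y - lab1 a y) = fun y =>
        ((w₀ / S) * Φ y - filt Mh T S' G₀ y) + (filt Mh T S' (G₀ - lab1 a) y) +
          (filt Mh T S' (lab1 a) y - lab1 a y) := by
      funext y
      rw [filt_sub, Pi.sub_apply]
      ring
    rw [e1]
    refine (nrm_three hMh _ _ _).trans ?_
    have t3 : nrm Mh (fun y => filt Mh T S' (lab1 a) y - lab1 a y) ≤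
        Real.exp (-(2 * (S' / r : ℝ))) * w + energy Mh (lab1 a) / η := by
      have h1 := hMh.nrm_sub_filt_le T S' r hη hη1 hT (lab1 a)
      rw [nrm_lab1 hproj, ← hw] at h1
      refine le_trans (le_of_eq ?_) h1
      unfold nrm
      refine sum_congr rfl fun y _ => ?_
      rw [Pi.sub_apply]
      ring
    have e2 : 3 * (16 * r * S' ^ 2 / S + 1 / n + Real.exp (-(2 * (S' / r : ℝ))) +
        energy Mh (lab1 a) / (η * w)) * w =
        3 * (16 * r * S' ^ 2 / S * w + 1 / n * w + (Real.exp (-(2 * (S' / r : ℝ))) * w +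
          energy Mh (lab1 a) / η)) := by
      field_simp
      ring
    rw [e2]
    linarith
  refine ⟨hApprox, ?_⟩
  have e1 : (fun y => (w₀ / S) * Φ y) = fun y =>
      ((w₀ / S) * Φ y - filt Mh T S' G₀ y) + (filt Mh T S' (G₀ - lab1 a) y) +
        (filt Mh T S' (lab1 a) y) := by
    funext y
    rw [filt_sub, Pi.sub_apply]
    ring
  rw [e1]
  refine (energy_three hMh _ _ _).trans ?_
  have u1 := (energy_le_nrm hMh fun y => (w₀ / S) * Φ y - filt Mh T S' G₀ y).trans t1
  have u2 := (energy_le_nrm hMh (filt Mh T S' (G₀ - lab1 a))).trans t2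
  have u3 := energy_filt_le hMh T S' (lab1 a)
  have e2 : 3 * (16 * r * S' ^ 2 / S + 1 / n) * w + 3 * energy Mh (lab1 a) =
      3 * (16 * r * S' ^ 2 / S * w + 1 / n * w + energy Mh (lab1 a)) := by ring
  rw [e2]
  have u2' : energy Mh (fun y => filt Mh T S' (G₀ - lab1 a) y) ≤ 1 / n * w := u2
  have u3' : energy Mh (fun y => filt Mh T S' (lab1 a) y) ≤ energy Mh (lab1 a) := u3
  linarith

end Decode

/-! ### Margins along a constraint -/

section Margin

variable {V : Type*} {k : ℕ} {φ : V × Fin k → ℝ} {a : V → Fin k} {s : V → ℝ}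

theorem IsMargin.le_add (h : IsMargin φ a s) (u v : V) (π : Equiv.Perm (Fin k)) {D : ℝ}
    (hD : ∀ l, |φ (u, l) - φ (v, π l)| ≤ D) : s u ≤ s v + 4 * D := by
  have hD0 : 0 ≤ D := (abs_nonneg _).trans (hD (a u))
  have h1 : ∀ l, φ (u, l) ≤ φ (v, π l) + D := fun l => by
    have := (abs_le.1 (hD l)).2; linarith
  have h2 : ∀ l, φ (v, l) ≤ φ (u, π.symm l) + D := fun l => by
    have := (abs_le.1 (hD (π.symm l))).1
    rw [Equiv.apply_symm_apply] at this
    linarith
  rcases h.eq_diff v with h3 | ⟨j, hj, h3⟩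
  · have := h.le_one u
    linarith
  · by_cases h4 : π.symm j = a u
    · have h5 : π.symm (a v) ≠ a u := by
        intro h6
        exact hj (π.symm.injective (h4.trans h6.symm))
      have h6 := h.le_diff u _ h5
      have h7 := h2 (a v)
      have h8 := h1 (a u)
      have h9 := h.best v (π (a u))
      have h10 : φ (v, π (a u)) = φ (v, j) := by rw [← h4, Equiv.apply_symm_apply]
      have h11 := h.nonneg v
      have h12 := h.best v j
      linarith
    · have h6 := h.le_diff u _ h4
      have h7 := h1 (a u)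
      have h8 := h2 j
      have h9 := h.best v (π (a u))
      linarith

theorem IsMargin.sq_sub_le (h : IsMargin φ a s) (u v : V) (π : Equiv.Perm (Fin k)) :
    (s u - s v) ^ 2 ≤ 16 * ∑ l, (φ (u, l) - φ (v, π l)) ^ 2 := by
  set S2 := ∑ l, (φ (u, l) - φ (v, π l)) ^ 2 with hS2
  have h0 : 0 ≤ S2 := sum_nonneg fun l _ => sq_nonneg _
  have hD : ∀ l, |φ (u, l) - φ (v, π l)| ≤ Real.sqrt S2 := fun l => by
    refine Real.abs_le_sqrt ?_
    exact single_le_sum (f := fun l => (φ (u, l) - φ (v, π l)) ^ 2) (fun l _ => sq_nonneg _)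
      (mem_univ l)
  have hD' : ∀ l, |φ (v, l) - φ (u, π.symm l)| ≤ Real.sqrt S2 := fun l => by
    have := hD (π.symm l)
    rwa [Equiv.apply_symm_apply, abs_sub_comm] at this
  have h1 := h.le_add u v π hD
  have h2 := h.le_add v u π.symm hD'
  have h3 : |s u - s v| ≤ 4 * Real.sqrt S2 := by
    rw [abs_le]
    constructor <;> linarith
  have h4 : (s u - s v) ^ 2 ≤ (4 * Real.sqrt S2) ^ 2 := by
    rw [← sq_abs (s u - s v)]
    exact pow_le_pow_left₀ (abs_nonneg _) h3 2
  rw [mul_pow, Real.sq_sqrt h0] at h4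
  linarith

theorem IsMargin.mul_le (h : IsMargin φ a s) (u v : V) (π : Equiv.Perm (Fin k))
    (hv : a v ≠ π (a u)) : s u * s v ≤ 2 * ∑ l, (φ (u, l) - φ (v, π l)) ^ 2 := by
  have hne : π.symm (a v) ≠ a u := fun h1 => hv (by rw [← h1, Equiv.apply_symm_apply])
  have h1 := h.le_diff u _ hne
  have h2 := h.le_diff v (π (a u)) (Ne.symm hv)
  have h3 : (φ (u, a u) - φ (v, π (a u))) ^ 2 +
      (φ (u, π.symm (a v)) - φ (v, π (π.symm (a v)))) ^ 2 ≤
      ∑ l, (φ (u, l) - φ (v, π l)) ^ 2 := by
    rw [← sum_pair (f := fun l => (φ (u, l) - φ (v, π l)) ^ 2) (Ne.symm hne)]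
    exact sum_le_sum_of_subset_of_nonneg (subset_univ _) fun i _ _ => sq_nonneg _
  rw [Equiv.apply_symm_apply] at h3
  have h4 := h.nonneg u
  have h5 := h.nonneg v
  set α := φ (u, a u) - φ (v, π (a u)) with hα
  set β := φ (u, π.symm (a v)) - φ (v, a v) with hβ
  have h6 : s u + s v ≤ 2 * (α - β) := by rw [hα, hβ]; linarith
  have h7 : (s u + s v) ^ 2 ≤ (2 * (α - β)) ^ 2 := pow_le_pow_left₀ (by linarith) h6 2
  nlinarith [sq_nonneg (s u - s v), sq_nonneg (α + β)]

variable [Fintype V] [DecidableEq V]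

omit [Fintype V] [DecidableEq V] in
theorem IsMargin.one_sub_le (h : IsMargin φ a s) (a0 : V → Fin k) (u : V) :
    1 - s u ^ 2 ≤ 16 * ∑ i, (φ (u, i) - lab1 a0 (u, i)) ^ 2 := by
  set S2 := ∑ i, (φ (u, i) - lab1 a0 (u, i)) ^ 2 with hS2
  by_cases hbig : 1 ≤ 16 * S2
  · nlinarith [sq_nonneg (s u)]
  · push Not at hbig
    have h0 : ∀ i, (φ (u, i) - lab1 a0 (u, i)) ^ 2 < (1 / 4) ^ 2 := fun i => by
      have := single_le_sum (f := fun i => (φ (u, i) - lab1 a0 (u, i)) ^ 2)
        (fun l _ => sq_nonneg _) (mem_univ i)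
      have h1 : (φ (u, i) - lab1 a0 (u, i)) ^ 2 ≤ S2 := this
      norm_num
      linarith
    have h1 : ∀ i, |φ (u, i) - lab1 a0 (u, i)| < 1 / 4 := fun i =>
      abs_lt_of_sq_lt_sq (h0 i) (by norm_num)
    have h2 : φ (u, a0 u) > 3 / 4 := by
      have := (abs_lt.1 (h1 (a0 u))).1
      simp only [lab1, if_true] at this
      linarith
    have h3 : ∀ i ≠ a0 u, φ (u, i) < 1 / 4 := fun i hi => by
      have := (abs_lt.1 (h1 i)).2
      simp only [lab1, hi, if_false] at this
      linarith
    have h4 : a u = a0 u := by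
      by_contra hne
      have := h3 _ hne
      have := h.best u (a0 u)
      linarith
    rcases h.eq_diff u with h5 | ⟨j, hj, h5⟩
    · rw [h5]
      have : 0 ≤ S2 := sum_nonneg fun l _ => sq_nonneg _
      linarith
    · rw [h4] at hj h5
      have h6 := h3 j hj
      have h7 := h.le_one u
      linarith

/-- the objective of margins coming from `φ` -/
theorem objR_le (E : List (Con V k)) (F : V → ℕ) {H : ℝ} (hH : 0 ≤ H) (h : IsMargin φ a s)
    (a0 : V → Fin k) : objR H E F a s ≤ 24 * H * energy (GH E F) φ +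
      16 * nrm (GH E F) (fun y => φ y - lab1 a0 y) := by
  have h1 : energy (GH E F) φ = (E.map fun c => (F c.1 : ℝ) * F c.2.1 *
      ∑ l, (φ (c.1, l) - φ (c.2.1, c.2.2 l)) ^ 2).sum := by
    unfold GH GF
    rw [energy_gform, sum_map_lift]
    congr 1
    refine List.map_congr_left fun c _ => ?_
    rw [mul_sum]
    exact sum_congr rfl fun l _ => by simp only [hatN, toR]
  have h2 : energy (GF (base E) F) s ≤ 16 * energy (GH E F) φ := by
    have e1 : energy (GF (base E) F) s =
        (E.map fun c => (F c.1 : ℝ) * F c.2.1 * (s c.1 - s c.2.1) ^ 2).sum := by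
      unfold GF
      rw [energy_gform]
      unfold base
      rw [List.map_map]
      rfl
    rw [e1, h1, ← List.sum_map_mul_left]
    refine List.sum_le_sum fun c _ => ?_
    have := h.sq_sub_le c.1 c.2.1 c.2.2
    have h3 : (0 : ℝ) ≤ (F c.1 : ℝ) * F c.2.1 := by positivity
    have := mul_le_mul_of_nonneg_left this h3
    linarith
  have h3 : violR E F a s ≤ 2 * energy (GH E F) φ := by
    rw [h1, ← List.sum_map_mul_left]
    unfold violR
    refine List.sum_le_sum fun c _ => ?_
    have h3 : (0 : ℝ) ≤ (F c.1 : ℝ) * F c.2.1 := by positivity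
    by_cases hc : a c.2.1 = c.2.2 (a c.1)
    · rw [if_pos hc]
      have : 0 ≤ ∑ l, (φ (c.1, l) - φ (c.2.1, c.2.2 l)) ^ 2 := sum_nonneg fun l _ => sq_nonneg _
      positivity
    · rw [if_neg hc]
      have := h.mul_le c.1 c.2.1 c.2.2 hc
      have := mul_le_mul_of_nonneg_left this h3
      linarith
  have h4 : ∑ u, deg (GF (base E) F) u * (1 - s u ^ 2) ≤
      16 * nrm (GH E F) (fun y => φ y - lab1 a0 y) := by
    unfold nrm
    rw [Fintype.sum_prod_type, mul_sum]
    refine sum_le_sum fun u _ => ?_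
    have h5 : ∀ i, deg (GH E F) (u, i) = deg (GF (base E) F) u := fun i =>
      deg_lifted (GH_proj E F) u i
    simp_rw [h5]
    rw [← mul_sum]
    have h6 := mul_le_mul_of_nonneg_left (h.one_sub_le a0 u)
      ((GF_isForm (base E) F).deg_nonneg u)
    linarith
  unfold objR
  have h5 : H * (energy (GF (base E) F) s + 4 * violR E F a s) ≤
      H * (24 * energy (GH E F) φ) := mul_le_mul_of_nonneg_left (by linarith) hH
  linarith

omit [DecidableEq V] in
/-- trivial bound of the objective -/
theorem objR_le_pieceW (E : List (Con V k)) (F : V → ℕ) {H : ℝ} (hH : 0 ≤ H)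
    (hs0 : ∀ u, 0 ≤ s u) (hs1 : ∀ u, s u ≤ 1) [DecidableEq V] :
    objR H E F a s ≤ (5 * H + 1) * pieceW (base E) F := by
  have h1 : energy (GF (base E) F) s ≤ pieceW (base E) F := by
    have e1 : energy (GF (base E) F) s =
        ((base E).map fun c => (F c.1 : ℝ) * F c.2 * (s c.1 - s c.2) ^ 2).sum := by
      unfold GF
      rw [energy_gform]
    rw [e1]
    unfold pieceW
    rw [Nat.cast_list_sum, List.map_map]
    refine List.sum_le_sum fun c _ => ?_
    simp only [Function.comp]
    push_cast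
    have h2 : (s c.1 - s c.2) ^ 2 ≤ 1 := by
      have := hs0 c.1; have := hs1 c.1; have := hs0 c.2; have := hs1 c.2
      rw [sq_le_one_iff_abs_le_one, abs_le]
      constructor <;> linarith
    have h3 : (0 : ℝ) ≤ (F c.1 : ℝ) * F c.2 := by positivity
    have h4 := mul_le_mul_of_nonneg_left h2 h3
    nlinarith [sq_nonneg (F c.1 : ℝ), sq_nonneg (F c.2 : ℝ)]
  have h2 : violR E F a s ≤ pieceW (base E) F := by
    unfold violR pieceW base
    rw [Nat.cast_list_sum, List.map_map, List.map_map]
    refine List.sum_le_sum fun c _ => ?_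
    simp only [Function.comp]
    have h3 : (0 : ℝ) ≤ (F c.1 : ℝ) * F c.2.1 := by positivity
    split_ifs
    · positivity
    · push_cast
      have h4 : s c.1 * s c.2.1 ≤ 1 :=
        mul_le_one₀ (hs1 _) (hs0 _) (hs1 _)
      have := mul_le_mul_of_nonneg_left h4 h3
      nlinarith [sq_nonneg (F c.1 : ℝ), sq_nonneg (F c.2.1 : ℝ)]
  have h3 : ∑ u, deg (GF (base E) F) u * (1 - s u ^ 2) ≤ (pieceW (base E) F : ℝ) := by
    have h4 : tot (GF (base E) F) = pieceW (base E) F := by rw [← totN_cast, totN_eq]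
    rw [← h4]
    unfold tot
    refine sum_le_sum fun u _ => ?_
    have h5 := (GF_isForm (base E) F).deg_nonneg u
    nlinarith [sq_nonneg (s u)]
  unfold objR
  have h5 : H * (energy (GF (base E) F) s + 4 * violR E F a s) ≤
      H * (5 * pieceW (base E) F) := mul_le_mul_of_nonneg_left (by linarith) hH
  linarith

/-- the objective in a leaf of the algorithm -/
theorem leaf_obj {N : ℕ} (E : List (Con V k)) {H : ℕ} (hH : 1 ≤ H) (P : Alg.Num) {x : Leaf V k}
    (hx : LeafOK N E H P x) (hV : Fintype.card V ≤ P.n) (hS : 0 < P.S) (hR : 0 < P.R)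
    (hr : 1 ≤ P.r) (hn : P.n ≤ 2 ^ P.L)
    (hlog : 2 * P.L * Real.exp (-(P.T / (4 * P.R))) ≤ Real.log (4 * P.r))
    (hT : 1 / (P.r : ℝ) ≤ (1 - 1 / (H : ℝ)) ^ P.T) (hcert : (N * k) ^ P.S ≤ P.B)
    (hF : ∀ v t, ¬ Good (prm P) (base E) x.F v t) (a0 : V → Fin k) {τ : ℝ}
    (hτ : 16 * P.r * P.S' ^ 2 / P.S + 1 / P.n + Real.exp (-(2 * (P.S' / P.r : ℝ))) ≤ τ) :
    objR H E x.F x.a x.s ≤ 144 * H * (τ * pieceW (base E) x.F + 2 * pieceV E x.F a0) := by
  set F := x.F with hFdef
  have hM := GF_isForm (base E) F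
  have hMh := GF_isForm (lift E) (hatN k F)
  have htot : tot (GF (base E) F) = pieceW (base E) F := by rw [← totN_cast, totN_eq]
  have hnn : (0 : ℝ) ≤ 16 * P.r * P.S' ^ 2 / P.S + 1 / P.n +
      Real.exp (-(2 * (P.S' / P.r : ℝ))) := by positivity
  have hτ0 : 0 ≤ τ := hnn.trans hτ
  have hHR : (1 : ℝ) ≤ H := by exact_mod_cast hH
  rcases Nat.eq_zero_or_pos (pieceW (base E) F) with h0 | h0
  · have h1 := objR_le_pieceW (a := x.a) E F (H := H) (by linarith) hx.s_nonneg hx.s_le_one
    rw [h0] at h1 ⊢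
    rw [Nat.cast_zero, mul_zero] at h1
    refine h1.trans ?_
    positivity
  · have htot0 : 0 < tot (GF (base E) F) := by
      rw [htot]; exact_mod_cast h0
    have hη : (0 : ℝ) < 1 / (H : ℝ) := by positivity
    have hη1 : 1 / (H : ℝ) ≤ 1 := by rw [div_le_one (by linarith)]; exact hHR
    obtain ⟨y, hy1, hy2⟩ := leaf_sample2 (M := GF (base E) F) (Mh := GH E F) hM
      hMh (GH_proj E F) (n := P.n) (r := P.r) (T := P.T) (S := P.S)
      (S' := P.S') (η := 1 / (H : ℝ)) hV hS htot0 hη hη1 hT (fun v hv hv' => by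
        refine leaf_of_not_good (base E) F (prm P) hR hr hn hlog hF ⟨?_, ?_⟩
        · rw [← degN_cast] at hv
          exact_mod_cast hv
        · rw [← degN_cast, ← totN_cast] at hv'
          exact_mod_cast hv') a0
    obtain ⟨a', s', h1, h2⟩ := hx.best hcert y
    refine h2.trans ?_
    have hmass : massH (GF (base E) F) P.n = (w0N (base E) F P.n : ℝ) := by
      unfold massH w0N heavyN
      rw [Nat.cast_sum]
      refine sum_congr rfl fun v _ => ?_
      have e1 : (0 < deg (GF (base E) F) v ∧ tot (GF (base E) F) ≤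
          (P.n : ℝ) ^ 2 * deg (GF (base E) F) v) ↔
          (0 < degN (base E) F v ∧ totN (base E) F ≤ P.n ^ 2 * degN (base E) F v) := by
        rw [← degN_cast, ← totN_cast]
        norm_cast
      by_cases h : 0 < degN (base E) F v ∧ totN (base E) F ≤ P.n ^ 2 * degN (base E) F v
      · rw [if_pos h, if_pos (e1.2 h), degN_cast]
      · rw [if_neg h, if_neg fun h' => h (e1.1 h'), Nat.cast_zero]
    have h3 : IsMargin (fun z => massH (GF (base E) F) P.n / P.S *
        filt (GH E F) P.T P.S' (seedF (GH E F) y) z) a' s' := by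
      rw [hmass]
      exact h1
    have h4 := objR_le E F (H := H) (by linarith) h3 a0
    have h7 : energy (GH E F) (lab1 a0) = 2 * pieceV E F a0 := by
      rw [← energy_ind]
      rfl
    rw [h7] at hy1 hy2
    set W := tot (GF (base E) F) with hW
    set Vv : ℝ := (pieceV E F a0 : ℝ) with hVv
    have hVv0 : 0 ≤ Vv := Nat.cast_nonneg _
    set τ0 := 16 * (P.r : ℝ) * P.S' ^ 2 / P.S + 1 / P.n + Real.exp (-(2 * (P.S' / P.r : ℝ)))
      with hτ0'
    have g1 : energy (GH E F) (fun z => massH (GF (base E) F) P.n / P.S *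
        filt (GH E F) P.T P.S' (seedF (GH E F) y) z) ≤ 3 * (τ * W + 2 * Vv) := by
      refine hy2.trans ?_
      have : 16 * (P.r : ℝ) * P.S' ^ 2 / P.S + 1 / P.n ≤ τ := by
        have := Real.exp_nonneg (-(2 * (P.S' / P.r : ℝ)))
        linarith
      have := mul_le_mul_of_nonneg_right this htot0.le
      linarith
    have g2 : nrm (GH E F) (fun z => massH (GF (base E) F) P.n / P.S *
        filt (GH E F) P.T P.S' (seedF (GH E F) y) z - lab1 a0 z) ≤
        3 * H * (τ * W + 2 * Vv) := by
      refine hy1.trans ?_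
      have e1 : 3 * (τ0 + 2 * Vv / (1 / (H : ℝ) * W)) * W = 3 * (τ0 * W + H * (2 * Vv)) := by
        field_simp
      rw [e1]
      have e2 : τ0 * W ≤ H * (τ * W) := by
        have e3 : τ0 * W ≤ τ * W := mul_le_mul_of_nonneg_right hτ htot0.le
        have e4 : 0 ≤ τ * W := mul_nonneg hτ0 htot0.le
        nlinarith
      linarith
    rw [← htot]
    have g3 : 0 ≤ H * (τ * W + 2 * Vv) := by positivity
    calc objR H E F a' s' ≤ _ := h4
      _ ≤ 24 * H * (3 * (τ * W + 2 * Vv)) + 16 * (3 * H * (τ * W + 2 * Vv)) := by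
        refine add_le_add (mul_le_mul_of_nonneg_left g1 (by positivity))
          (mul_le_mul_of_nonneg_left g2 (by norm_num))
      _ ≤ 144 * H * (τ * W + 2 * Vv) := by linarith

end Margin

end Vale.Agent.P325.V2
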