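import Vale.Agent.P325.V2.Spec2
import Vale.Agent.P325.V2.Reach2

/-!
# A level of the algorithm follows the process
-/

namespace Vale.Agent.P325.V2

open Finset Vale.Agent.P325 Vale.Agent.P325.Alg Alg2

section
variable {V : Type*} {k N : ℕ} (e : V ≃ Fin N) [Fintype V] [DecidableEq V]

/-- the mass used for the scaling of the seeds -/
def w0N (E : List (V × V)) (F : V → ℕ) (n : ℕ) : ℕ := heavyN (degN E F) (totN E F) n

/-- the leaf has been treated by the best certificate -/
structure LeafOK (N : ℕ) (E : List (Con V k)) (H : ℕ) (P : Alg.Num) (x : Leaf V k) : Prop where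
  d_pos : 0 < x.d
  A_le : ∀ u, x.A u ≤ x.d
  best : (N * k) ^ P.S ≤ P.B → ∀ y : Fin P.S → V × Fin k, ∃ (a' : V → Fin k) (s' : V → ℝ),
    IsMargin (fun z => (w0N (base E) x.F P.n : ℝ) / P.S * (seedSum (GH E x.F) y z -
      ((hp (GH E x.F) P.T)^[P.S'] (seedSum (GH E x.F) y)) z)) a' s' ∧
    objR H E x.F x.a x.s ≤ objR H E x.F a' s'

/-- treatment of a leaf -/
theorem leafL2_eq (hk : 0 < k) (E : List (Con V k)) (H : ℕ) (P : Alg.Num) (hS : 0 < P.S)
    (F : V → ℕ) : ∃ x : Leaf V k, x.F = F ∧ LeafOK N E H P x ∧ ∀ (Sq Hq : V → ℕ) (aT aV : ℕ),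
      leafL2 H k N (conL e E) (enl e F) (enl e (degN (base E) F)) P.n P.T P.S' P.S P.B
        (enl e Sq, enl e Hq, aT, aV) =
      (enl e (fun u => Sq u + x.G u ^ 2), enl e (fun u => Hq u + (x.F u ^ 2 - x.G' u ^ 2)),
        aT + tvN (base E) x.G, aV + pieceV E x.G x.a) := by
  obtain ⟨a, A, h1, h2, h3⟩ := bestOutL_spec e hk E F H (w0N (base E) F P.n) P.T P.S' P.S P.B hS
  have hd : 0 < denL (QpN (lift E) (hatN k F)) P.T P.S' P.S := by
    unfold denL
    have := QpN_pos (lift E) (hatN k F)
    positivity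
  refine ⟨⟨F, A, denL (QpN (lift E) (hatN k F)) P.T P.S' P.S, a⟩, rfl, ⟨hd, h2, h3⟩, ?_⟩
  intro Sq Hq aT aV
  unfold leafL2 leafG
  rw [totN_sum, heavyL_eq]
  have h4 := leafFin_eq e E ⟨F, A, denL (QpN (lift E) (hatN k F)) P.T P.S' P.S, a⟩ hd h2
    Sq Hq aT aV
  rw [← h4]
  simp only
  unfold w0N at h1
  rw [h1]
  congr 1
  rw [liftL_eq, hatL_eq, degL_eq, QpL_eq]

/-! ### The loop -/

omit [Fintype V] [DecidableEq V] in
/-- sum of the `G²` -/
noncomputable def sqA (rs : List (Leaf V k)) (u : V) : ℕ := (rs.map fun x => x.G u ^ 2).sum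

omit [Fintype V] [DecidableEq V] in
/-- sum of the `F² - G'²` -/
noncomputable def hqA (rs : List (Leaf V k)) (u : V) : ℕ :=
  (rs.map fun x => x.F u ^ 2 - x.G' u ^ 2).sum

omit [Fintype V] [DecidableEq V] in
/-- total variation -/
noncomputable def tvA (E : List (Con V k)) (rs : List (Leaf V k)) : ℕ :=
  (rs.map fun x => tvN (base E) x.G).sum

omit [Fintype V] [DecidableEq V] in
/-- violated weight -/
noncomputable def vA (E : List (Con V k)) (rs : List (Leaf V k)) : ℕ :=
  (rs.map fun x => pieceV E x.G x.a).sum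

/-- a state between the levels -/
structure LvS (V : Type*) where
  h : V → ℕ
  Sq : V → ℕ
  aT : ℕ
  aV : ℕ

/-- a state as numbers -/
noncomputable def stL2 (E : List (Con V k)) (z : LvS V) (act : List (Node V))
    (rs : List (Leaf V k)) : StL2 :=
  (act.map (nodeL e), enl e (fun u => z.Sq u + sqA rs u), enl e (hqA rs), z.aT + tvA E rs,
    z.aV + vA E rs)

theorem initL2_eq (E : List (Con V k)) (z : LvS V) :
    initL2 N (conL e E) (enl e z.h) (enl e z.Sq) z.aT z.aV =
      stL2 e E z (initH (base E) z.h).1 [] := by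
  unfold initL2 stL2 initH nodeL
  have h1 : tab N (fun _ => 0) = enl e fun _ => 0 := tab_eq e _
  rw [h1, baseL_eq, degL_eq, totN_sum]
  have h2 : (fun u => z.Sq u + sqA ([] : List (Leaf V k)) u) = z.Sq := by
    funext u; simp [sqA]
  have h3 : hqA ([] : List (Leaf V k)) = fun _ => 0 := by
    funext u; simp [hqA]
  rw [h2, h3]
  simp [tvA, vA]

theorem loopL2_step (hk : 0 < k) (E : List (Con V k)) (H : ℕ) (P : Alg.Num) (hS : 0 < P.S)
    (z : LvS V) (act : List (Node V)) (rs : List (Leaf V k)) (hs : act ≠ [])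
    (hrs : ∀ x ∈ rs, LeafOK N E H P x) :
    ∃ (act' : List (Node V)) (rs' : List (Leaf V k)),
      Step (prm P) (base E) (act, rs.map Leaf.F) (act', rs'.map Leaf.F) ∧
      (∀ x ∈ rs', LeafOK N E H P x) ∧
      loopL2 H k N (conL e E) P (stL2 e E z act rs) = stL2 e E z act' rs' := by
  cases act with
  | nil => exact absurd rfl hs
  | cons x act =>
    obtain ⟨F, wh, j⟩ := x
    have h0 : loopL2 H k N (conL e E) P (stL2 e E z ((F, wh, j) :: act) rs) =
        treatL2 H k N (conL e E) P (enl e F, wh, j) (act.map (nodeL e))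
          (enl e (fun u => z.Sq u + sqA rs u), enl e (hqA rs), z.aT + tvA E rs,
            z.aV + vA E rs) (enl e (degN (base E) F)) := by
      unfold loopL2 stL2
      simp only [List.map_cons, nodeL]
      rw [baseL_eq, degL_eq]
    rw [h0]
    unfold treatL2
    simp only [totN_sum, QpL_eq, baseL_eq]
    by_cases h : P.J ≤ j ∨ totN (base E) F * P.n < wh
    · rw [if_pos h]
      exact ⟨act, rs, Step.drop F wh j act _ h, hrs, rfl⟩
    · rw [if_neg h]
      rcases hf : findL N (edg e (base E)) (enl e F) (enl e (degN (base E) F))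
        (QpN (base E) F) P.n P.L P.r P.R P.T (totN (base E) F) with _ | p
      · obtain ⟨x, h1, h2, h3⟩ := leafL2_eq e hk E H P hS F
        refine ⟨act, x :: rs, ?_, ?_, ?_⟩
        · rw [List.map_cons, h1]
          exact Step.leaf F wh j act _ h (findL_none e (prm P) (base E) F hf)
        · intro y hy
          rcases List.mem_cons.1 hy with rfl | hy
          · exact h2
          · exact hrs y hy
        · simp only [h3]
          unfold stL2
          have e1 : (fun u => z.Sq u + sqA rs u + x.G u ^ 2) =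
              fun u => z.Sq u + sqA (x :: rs) u := by
            funext u; simp only [sqA, List.map_cons, List.sum_cons]; ring
          have e2 : (fun u => hqA rs u + (x.F u ^ 2 - x.G' u ^ 2)) = hqA (x :: rs) := by
            funext u; simp only [hqA, List.map_cons, List.sum_cons]; ring
          have e3 : z.aT + tvA E rs + tvN (base E) x.G = z.aT + tvA E (x :: rs) := by
            simp only [tvA, List.map_cons, List.sum_cons]; ring
          have e4 : z.aV + vA E rs + pieceV E x.G x.a = z.aV + vA E (x :: rs) := by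
            simp only [vA, List.map_cons, List.sum_cons]; ring
          rw [e1, e2, e3, e4]
      · obtain ⟨v, hv, hg⟩ := findL_some e (prm P) (base E) F hf
        have ht : min p.2 P.T = p.2 := min_eq_left (le_of_lt hg.1)
        refine ⟨_, rs, Step.split F wh j act _ h v p.2 hg, hrs, ?_⟩
        simp only [ht, hv, bumpL_eq]
        unfold splitL stL2
        simp only [List.map_cons, nodeL, childLL_eq, childRL_eq, degL_eq, totN_sum]

omit [Fintype V] [DecidableEq V] in
theorem loopL2_nil (E : List (Con V k)) (H : ℕ) (P : Alg.Num) (z : LvS V)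
    (rs : List (Leaf V k)) :
    loopL2 H k N (conL e E) P (stL2 e E z [] rs) = stL2 e E z [] rs := by
  unfold loopL2 stL2
  rfl

/-- the loop follows the process -/
theorem loop_reachH (hk : 0 < k) (E : List (Con V k)) (H : ℕ) (P : Alg.Num) (hS : 0 < P.S)
    (z : LvS V) (i : ℕ) : ∃ (act : List (Node V)) (rs : List (Leaf V k)) (j : ℕ),
    ReachH (prm P) (base E) z.h j (act, rs.map Leaf.F) ∧ (j = i ∨ act = []) ∧
      (∀ x ∈ rs, LeafOK N E H P x) ∧
      (loopL2 H k N (conL e E) P)^[i]
        (initL2 N (conL e E) (enl e z.h) (enl e z.Sq) z.aT z.aV) = stL2 e E z act rs := by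
  induction i with
  | zero => exact ⟨_, [], 0, ReachH.zero, Or.inl rfl, by simp, initL2_eq e E z⟩
  | succ i ih =>
    obtain ⟨act, rs, j, h1, h2, h3, h4⟩ := ih
    rw [Function.iterate_succ_apply', h4]
    by_cases hs : act = []
    · subst hs
      exact ⟨[], rs, j, h1, Or.inr rfl, h3, loopL2_nil e E H P z rs⟩
    · obtain ⟨act', rs', h5, h6, h7⟩ := loopL2_step e hk E H P hS z act rs hs h3
      refine ⟨act', rs', j + 1, ReachH.succ j _ _ h1 h5, Or.inl ?_, h6, h7⟩
      rcases h2 with h2 | h2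
      · rw [h2]
      · exact absurd h2 hs

/-! ### Levels -/

/-- a level as a relation between states -/
def LevelRel (N : ℕ) (E : List (Con V k)) (H : ℕ) (P : Alg.Num) (z z' : LvS V) : Prop :=
  (P.n * totN (base E) z.h < 4 ^ P.b * 4 * E.length ∧ z' = z) ∨
  (4 ^ P.b * 4 * E.length ≤ P.n * totN (base E) z.h ∧ ∃ (rs : List (Leaf V k)) (j : ℕ),
    ReachH (prm P) (base E) z.h j ([], rs.map Leaf.F) ∧ (∀ x ∈ rs, LeafOK N E H P x) ∧
    z' = ⟨fun u => Nat.sqrt (z.h u ^ 2 - hqA rs u), fun u => z.Sq u + sqA rs u,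
      z.aT + tvA E rs, z.aV + vA E rs⟩)

omit [Fintype V] [DecidableEq V] in
/-- a state between the levels as numbers -/
def lvL (z : LvS V) : LvL := (enl e z.h, enl e z.Sq, z.aT, z.aV)

theorem levelL_eq (hk : 0 < k) (E : List (Con V k)) (H : ℕ) (P : Alg.Num) (hS : 0 < P.S)
    (z : LvS V) (hB : 4 ^ P.b * 4 * E.length ≤ P.n * totN (base E) z.h →
      ∀ j s, ReachH (prm P) (base E) z.h j s → j < P.B) :
    ∃ z', LevelRel N E H P z z' ∧ levelL H k N (conL e E) P (lvL e z) = lvL e z' := by
  unfold levelL lvL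
  simp only
  have hlen : (conL e E).length = E.length := by unfold conL; rw [List.length_map]
  rw [baseL_eq, degL_eq, totN_sum, hlen]
  by_cases h : P.n * totN (base E) z.h < 4 ^ P.b * 4 * E.length
  · rw [if_pos h]
    exact ⟨z, Or.inl ⟨h, rfl⟩, rfl⟩
  · rw [if_neg h]
    rw [not_lt] at h
    obtain ⟨act, rs, j, h1, h2, h3, h4⟩ := loop_reachH e hk E H P hS z P.B
    have h5 : act = [] := by
      rcases h2 with h2 | h2
      · have := hB h j _ h1
        omega
      · exact h2
    subst h5
    refine ⟨_, Or.inr ⟨h, rs, j, h1, h3, rfl⟩, ?_⟩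
    rw [h4]
    unfold finL stL2
    simp only
    have e1 : (tab N fun u => Nat.sqrt (gt (enl e z.h) u ^ 2 - gt (enl e (hqA rs)) u)) =
        enl e fun u => Nat.sqrt (z.h u ^ 2 - hqA rs u) := by
      rw [tab_eq e]
      exact enl_congr e fun u => by rw [gt_enl, gt_enl]
    rw [e1]

/-- several levels -/
theorem levels_eq (hk : 0 < k) (E : List (Con V k)) (H : ℕ → ℕ) (P : ℕ → Alg.Num) (M : ℕ)
    (hS : ∀ i < M, 0 < (P i).S) (I : LvS V → Prop)
    (hI : ∀ i < M, ∀ z z', I z → LevelRel N E (H i) (P i) z z' → I z')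
    (hB : ∀ i < M, ∀ z, I z → 4 ^ (P i).b * 4 * E.length ≤ (P i).n * totN (base E) z.h →
      ∀ j s, ReachH (prm (P i)) (base E) z.h j s → j < (P i).B) (z0 : LvS V) (h0 : I z0) :
    ∃ z : ℕ → LvS V, z 0 = z0 ∧ (∀ i ≤ M, I (z i)) ∧
      (∀ i < M, LevelRel N E (H i) (P i) (z i) (z (i + 1))) ∧
      (List.range M).foldl (fun s i => levelL (H i) k N (conL e E) (P i) s) (lvL e z0) =
        lvL e (z M) := by
  induction M with
  | zero => exact ⟨fun _ => z0, rfl, fun _ _ => h0, by simp, rfl⟩
  | succ M ih =>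
    obtain ⟨z, h1, h2, h3, h4⟩ := ih (fun i hi => hS i (by omega)) (fun i hi => hI i (by omega))
      (fun i hi => hB i (by omega))
    obtain ⟨z', h5, h6⟩ := levelL_eq e hk E (H M) (P M) (hS M (by omega)) (z M)
      (hB M (by omega) (z M) (h2 M le_rfl))
    refine ⟨fun i => if i ≤ M then z i else z', ?_, ?_, ?_, ?_⟩
    · simp [h1]
    · intro i hi
      by_cases h : i ≤ M
      · simp only [h, if_true]; exact h2 i h
      · simp only [h, if_false]
        exact hI M (by omega) _ _ (h2 M le_rfl) h5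
    · intro i hi
      by_cases h : i + 1 ≤ M
      · simp only [h, if_true, (by omega : i ≤ M)]
        exact h3 i (by omega)
      · have : i = M := by omega
        subst this
        simp only [le_refl, if_true, (by omega : ¬ i + 1 ≤ i), if_false]
        exact h5
    · rw [List.range_succ, List.foldl_append, h4]
      show levelL (H M) k N (conL e E) (P M) (lvL e (z M)) =
        lvL e (if M + 1 ≤ M then z (M + 1) else z')
      rw [if_neg (by omega : ¬ M + 1 ≤ M)]
      exact h6

end

end Vale.Agent.P325.V2
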