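import Vale.Agent.P325.V2.Facts2
import Vale.Agent.P325.Param

/-!
# The constants of the algorithm with levels
-/

namespace Vale.Agent.P325.V2

open Vale.Agent.P325

/-- the number `cq` -/
def cqOf (q : ℕ) : ℕ := Nat.log 2 (8 * q) + 1

/-- the number `bigD` -/
def dOf (q I : ℕ) : ℕ := 10 ^ 10 * (q * cqOf q * 256 ^ I)

/-- `k1` of level `0` -/
def k0Of (I : ℕ) : ℕ := 48 * 4 ^ I * 64 ^ I

/-- the constants -/
def mkCst2 (k q I : ℕ) : Alg2.Cst2 where
  k := k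
  q := q
  I := I
  n0 := 2 ^ (16 * k0Of I + 8) + 72 * dOf q I
  cq := cqOf q
  L0 := Nat.size (72 * dOf q I)
  CS := 1152 * dOf q I * Nat.size (72 * dOf q I) ^ 2
  C := (5 * q + k) * (1152 * dOf q I * Nat.size (72 * dOf q I) ^ 2) +
    (35 * q * (16 * q * k0Of I) + 5 * q + 4)

theorem bigD_mk (k q I : ℕ) : bigD (mkCst2 k q I) = dOf q I := rfl

theorem k1At_pos (c : Alg2.Cst2) (i : ℕ) : 1 ≤ Alg2.k1At c i := by
  unfold Alg2.k1At
  exact Nat.succ_le_of_lt (by positivity)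

theorem k1At_le (k q I i : ℕ) : Alg2.k1At (mkCst2 k q I) i ≤ k0Of I := by
  unfold Alg2.k1At k0Of
  exact Nat.mul_le_mul_left _ (Nat.pow_le_pow_right (by norm_num) (Nat.sub_le _ _))

theorem dOf_pos {q I : ℕ} (hq : 1 ≤ q) : 1 ≤ dOf q I := by
  unfold dOf cqOf
  exact Nat.succ_le_of_lt (by positivity)

theorem pfacts2 {k q I : ℕ} (hq : 1 ≤ q) {n r B : ℕ}
    (hn : (mkCst2 k q I).n0 ≤ n) (hnr : n ≤ r ^ (4 * q)) (hrn : r ≤ n)
    (hB : (mkCst2 k q I).C * r ^ 4 < Nat.size B) : PFacts2 (mkCst2 k q I) n r B := by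
  set c := mkCst2 k q I with hc
  have hn1 : 2 ^ (16 * k0Of I + 8) ≤ n := le_trans (Nat.le_add_right _ _) hn
  have hn2 : 72 * dOf q I ≤ n := le_trans (Nat.le_add_left _ _) hn
  have h2B : 2 ^ (c.C * r ^ 4) ≤ B := Nat.lt_size.1 hB
  have hk1 : ∀ i, Alg2.k1At c i ≤ k0Of I := fun i => k1At_le k q I i
  have hsm : ∀ i, 2 ^ (16 * Alg2.k1At c i + 8) ≤ n := fun i =>
    le_trans (Nat.pow_le_pow_right (by norm_num) (by have := hk1 i; omega)) hn1
  have hokH : ∀ i, OkH (prm (Alg2.nums2 c n r B i)) c.q (Alg2.k1At c i) := by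
    intro i
    refine ⟨rfl, rfl, hq, k1At_pos c i, hnr, hrn, rfl, ?_, size_small (hsm i)⟩
    show (8 * (16 * c.q * Alg2.k1At c i) + 32) * Nat.size n ≤
      (8 * (16 * c.q * Alg2.k1At c 0) + 32) * Nat.size n
    refine Nat.mul_le_mul_right _ (Nat.add_le_add_right (Nat.mul_le_mul_left _
      (Nat.mul_le_mul_left _ ?_)) _)
    unfold Alg2.k1At
    exact Nat.mul_le_mul_left _ (Nat.pow_le_pow_right (by norm_num) (by omega))
  have hok : ∀ i, Ok ({ prm (Alg2.nums2 c n r B i) with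
      b := (8 * (prm (Alg2.nums2 c n r B i)).J + 32) * (prm (Alg2.nums2 c n r B i)).L } : Prm)
      c.q (Alg2.k1At c i) := fun i => (hokH i).ok
  have hdel := (hok 0).delta (k2 := dOf q I) (S' := c.L0 * r) (S := c.CS * r ^ 3)
    (dOf_pos hq) rfl rfl rfl rfl hn2
  have hsteps : ∀ i, 2 * Nat.size n * (4 * n ^ 5) ^ (Alg2.nums2 c n r B i).J + 2 ≤
      2 ^ (c.C * r ^ 4) := by
    intro i
    refine (hok i).steps (C := c.C) ?_
    show 35 * q * (16 * q * Alg2.k1At c i) + 5 * q + 4 ≤ _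
    have h1 : 35 * q * (16 * q * Alg2.k1At c i) ≤ 35 * q * (16 * q * k0Of I) :=
      Nat.mul_le_mul_left _ (Nat.mul_le_mul_left _ (hk1 i))
    refine le_trans ?_ (Nat.le_add_left _ _)
    omega
  have hnB : n < B := by
    have hJ : (Alg2.nums2 c n r B 0).J ≠ 0 := (hokH 0).J_pos.ne'
    have h1 : n ≤ (4 * n ^ 5) ^ (Alg2.nums2 c n r B 0).J := by
      have h2 : n ≤ 4 * n ^ 5 := by
        calc n ≤ n ^ 5 := Nat.le_self_pow (by norm_num) n
          _ ≤ 4 * n ^ 5 := Nat.le_mul_of_pos_left _ (by norm_num)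
      exact h2.trans (Nat.le_self_pow hJ _)
    have hL : 1 ≤ Nat.size n := (hokH 0).L_pos
    have h3 : (4 * n ^ 5) ^ (Alg2.nums2 c n r B 0).J ≤
        2 * Nat.size n * (4 * n ^ 5) ^ (Alg2.nums2 c n r B 0).J :=
      Nat.le_mul_of_pos_left _ (by omega)
    have h4 := hsteps 0
    omega
  refine ⟨fun i _ => hokH i, hdel.1, fun i _ => (hok i).hlog rfl rfl, fun i _ => ?_,
    fun i _ => ?_, ?_, hnB.le, by omega, ?_, ?_⟩
  · have h1 := ((hok i).eta (cq := c.cq) (η := 1 / (Alg2.hAt c i : ℝ)) rfl rfl ?_).2.2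
    · exact h1
    · unfold Alg2.hAt
      push_cast
      rfl
  · have := hsteps i
    omega
  · refine ((hok 0).cert (k := c.k) (N := n) (CS := c.CS) (S := c.CS * r ^ 3) (C := c.C)
      le_rfl rfl (Nat.le_add_right _ _)).trans h2B
  · show dOf q I ≤ n
    have := dOf_pos (I := I) hq
    omega
  · have h1 := hdel.2
    have hD : (1 : ℝ) ≤ dOf q I := by exact_mod_cast dOf_pos (I := I) hq
    have e : ((prm (Alg2.nums2 c n r B 0)).n : ℝ) = n := rfl
    calc (bigD c : ℝ) * (16 * r * ((c.L0 * r : ℕ) : ℝ) ^ 2 / (c.CS * r ^ 3 : ℕ) + 1 / n +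
          Real.exp (-(2 * (((c.L0 * r : ℕ) : ℝ) / r))))
        ≤ (dOf q I : ℝ) * (1 / (24 * dOf q I)) :=
          mul_le_mul_of_nonneg_left h1 (by positivity)
      _ = 1 / 24 := by field_simp
      _ ≤ 1 := by norm_num

/-- the number of levels -/
theorem exists_I {κ : ℝ} (h0 : 0 < κ) (h1 : κ ≤ 1) : ∃ I : ℕ, 1 ≤ I ∧ 8 < κ * 16 ^ I ∧
    (16 : ℝ) ^ I ≤ 128 / κ := by
  classical
  have hex : ∃ I : ℕ, 8 < κ * 16 ^ I := by
    obtain ⟨I, hI⟩ := pow_unbounded_of_one_lt (8 / κ) (by norm_num : (1 : ℝ) < 16)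
    refine ⟨I, ?_⟩
    rw [div_lt_iff₀ h0] at hI
    linarith
  have hpos : 1 ≤ Nat.find hex := by
    by_contra hcon
    have h2 : Nat.find hex = 0 := by omega
    have h3 := Nat.find_spec hex
    rw [h2, pow_zero, mul_one] at h3
    linarith
  refine ⟨Nat.find hex, hpos, Nat.find_spec hex, ?_⟩
  have h2 := Nat.find_min hex (m := Nat.find hex - 1) (by omega)
  push Not at h2
  obtain ⟨m, hm⟩ : ∃ m, Nat.find hex = m + 1 := ⟨Nat.find hex - 1, by omega⟩
  rw [hm] at h2 ⊢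
  rw [Nat.add_sub_cancel] at h2
  rw [le_div_iff₀ h0, pow_succ]
  linarith

theorem exists_cfacts2 : ∃ c0 : ℝ, 0 < c0 ∧ ∀ (k q : ℕ) (κ : ℝ), 2 ≤ k → 1 ≤ q → 0 < κ →
    κ ≤ 1 → ∃ c : Alg2.Cst2, c.k = k ∧ c.q = q ∧
      CFacts2 c κ (c0 * κ ^ 2 / (q * (1 + Real.log q))) := by
  refine ⟨1 / 10 ^ 15, by norm_num, fun k q κ hk hq hκ hκ1 => ?_⟩
  obtain ⟨I, hI1, hI2, hI3⟩ := exists_I hκ hκ1
  refine ⟨mkCst2 k q I, rfl, rfl, hk, hq, Nat.le_add_left _ _, hI1, hI2, ?_, ?_, ?_⟩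
  · -- the value of `ε`
    have hqR : (1 : ℝ) ≤ q := by exact_mod_cast hq
    have hlogq : 0 ≤ Real.log q := Real.log_nonneg hqR
    have hcq : (cqOf q : ℝ) ≤ 1.45 * (3 * (1 + Real.log q)) := by
      have h1 : 2 ^ cqOf q ≤ 16 * q := by
        unfold cqOf
        rw [pow_succ]
        have := Nat.pow_log_le_self 2 (x := 8 * q) (by omega)
        omega
      have h2 : (2 : ℝ) ^ cqOf q ≤ 16 * q := by exact_mod_cast h1
      have h3 := Real.log_le_log (by positivity) h2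
      rw [Real.log_pow] at h3
      have h4 : (0 : ℝ) ≤ cqOf q := Nat.cast_nonneg _
      have hlog2 : (0.69 : ℝ) ≤ Real.log 2 := by
        have := Real.log_two_gt_d9; linarith
      have h16 : Real.log (16 * q) ≤ 3 * (1 + Real.log q) := by
        rw [Real.log_mul (by norm_num) (by linarith)]
        have h1 : Real.log 16 ≤ 3 := by
          rw [show (16 : ℝ) = 2 ^ 4 by norm_num, Real.log_pow]
          have := Real.log_two_lt_d9
          push_cast
          linarith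
        linarith
      have h5 : (cqOf q : ℝ) * 0.69 ≤ cqOf q * Real.log 2 :=
        mul_le_mul_of_nonneg_left hlog2 h4
      have h6 : 0 ≤ 1 + Real.log q := by linarith
      nlinarith
    have h256 : (256 : ℝ) ^ I ≤ 16384 / κ ^ 2 := by
      have e : (256 : ℝ) ^ I = (16 ^ I) ^ 2 := by
        rw [← pow_mul, mul_comm I 2, pow_mul]; norm_num
      rw [e]
      calc ((16 : ℝ) ^ I) ^ 2 ≤ (128 / κ) ^ 2 := pow_le_pow_left₀ (by positivity) hI3 2
        _ = 16384 / κ ^ 2 := by rw [div_pow]; norm_num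
    rw [bigD_mk]
    unfold dOf
    push_cast
    have hden : (0 : ℝ) < q * (1 + Real.log q) := by positivity
    have hprod : (cqOf q : ℝ) * 256 ^ I ≤ 1.45 * (3 * (1 + Real.log q)) * (16384 / κ ^ 2) :=
      mul_le_mul hcq h256 (by positivity) (by positivity)
    calc (10000000000 : ℝ) * (q * cqOf q * 256 ^ I) *
          (1 / 10 ^ 15 * κ ^ 2 / (q * (1 + Real.log q)))
        = (10 ^ 10 * (1 / 10 ^ 15) * κ ^ 2 / (1 + Real.log q)) * (cqOf q * 256 ^ I) := by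
          field_simp
          norm_num
          ring
      _ ≤ (10 ^ 10 * (1 / 10 ^ 15) * κ ^ 2 / (1 + Real.log q)) *
          (1.45 * (3 * (1 + Real.log q)) * (16384 / κ ^ 2)) :=
          mul_le_mul_of_nonneg_left hprod (by positivity)
      _ = 1.45 * 3 * 16384 / 10 ^ 5 := by
          field_simp
      _ ≤ 1 := by norm_num
  · show 1 ≤ 2 ^ (16 * k0Of I + 8) + 72 * dOf q I
    have := Nat.one_le_two_pow (n := 16 * k0Of I + 8)
    omega
  · intro n r B h1 h2 h3 _ h5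
    exact pfacts2 hq h1 h2 h3 h5

end Vale.Agent.P325.V2
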