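import Vale.Agent.P325.V2.Alg2
import Vale.Agent.P325.AlgSpec3
import Vale.Agent.P325.Split

/-!
# The list functions of the algorithm with levels compute the right things
-/

namespace Vale.Agent.P325.V2

open Finset Vale.Agent.P325 Vale.Agent.P325.Alg Alg2

section
variable {V : Type*} {k N : ℕ} (e : V ≃ Fin N)

/-! ### Margins -/

/-- margins of a labeling, from the scores `A - B` -/
def marginN (k Bq w0 : ℕ) (A B : V × Fin k → ℕ) (a : V → Fin k) (u : V) : ℕ :=
  ((List.finRange k).map fun j => if j = a u then Bq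
    else 2 * w0 * ((A (u, a u) + B (u, j)) - (A (u, j) + B (u, a u)))).foldl min Bq

theorem marginL_eq (Bq w0 : ℕ) (A B : V × Fin k → ℕ) (a : V → Fin k) :
    marginL k N Bq w0 (enl (eh e k) A, enl (eh e k) B) (enl e fun u => (a u : ℕ)) =
      enl e (marginN k Bq w0 A B a) := by
  unfold marginL
  rw [tab_eq e]
  refine enl_congr e fun u => ?_
  unfold marginAt marginN
  rw [gt_enl, range_map_eq]
  congr 1
  refine List.map_congr_left fun j _ => ?_
  unfold diffL
  simp only [← idx_eh, gt_enl, ← Fin.ext_iff]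

theorem marginN_le (Bq w0 : ℕ) (A B : V × Fin k → ℕ) (a : V → Fin k) (u : V) :
    marginN k Bq w0 A B a u ≤ Bq := (foldl_min_spec _ _).2.1

theorem marginN_le_diff (Bq w0 : ℕ) (A B : V × Fin k → ℕ) (a : V → Fin k) (u : V) {j : Fin k}
    (hj : j ≠ a u) : marginN k Bq w0 A B a u ≤
      2 * w0 * ((A (u, a u) + B (u, j)) - (A (u, j) + B (u, a u))) := by
  refine (foldl_min_spec _ _).2.2 _ (List.mem_map.2 ⟨j, List.mem_finRange j, ?_⟩)
  rw [if_neg hj]

theorem marginN_eq (Bq w0 : ℕ) (A B : V × Fin k → ℕ) (a : V → Fin k) (u : V) :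
    marginN k Bq w0 A B a u = Bq ∨ ∃ j ≠ a u, marginN k Bq w0 A B a u =
      2 * w0 * ((A (u, a u) + B (u, j)) - (A (u, j) + B (u, a u))) := by
  rcases (foldl_min_spec ((List.finRange k).map fun j => if j = a u then Bq
    else 2 * w0 * ((A (u, a u) + B (u, j)) - (A (u, j) + B (u, a u)))) Bq).1 with h | h
  · exact Or.inl h
  · rw [List.mem_map] at h
    obtain ⟨j, _, h⟩ := h
    by_cases hj : j = a u
    · rw [if_pos hj] at h
      exact Or.inl h.symm
    · rw [if_neg hj] at h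
      exact Or.inr ⟨j, hj, h.symm⟩

/-- what the margins `s` of a labeling `a` have to satisfy -/
structure IsMargin (φ : V × Fin k → ℝ) (a : V → Fin k) (s : V → ℝ) : Prop where
  best : ∀ u i, φ (u, i) ≤ φ (u, a u)
  nonneg : ∀ u, 0 ≤ s u
  le_one : ∀ u, s u ≤ 1
  le_diff : ∀ u j, j ≠ a u → s u ≤ 2 * (φ (u, a u) - φ (u, j))
  eq_diff : ∀ u, s u = 1 ∨ ∃ j ≠ a u, s u = 2 * (φ (u, a u) - φ (u, j))

variable [Fintype V] [DecidableEq V]

/-- total mass of the heavy vertices -/
def heavyN (D : V → ℕ) (w n : ℕ) : ℕ := ∑ v, if 0 < D v ∧ w ≤ n ^ 2 * D v then D v else 0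

omit [DecidableEq V] in
theorem heavyL_eq (D : V → ℕ) (w n : ℕ) : heavyL N (enl e D) w n = heavyN D w n := by
  unfold heavyL heavyN
  rw [sumR_eq e]
  exact sum_congr rfl fun v _ => by rw [gt_enl]

/-- labels and margins of the certificate of the seeds `x` -/
theorem certOutL_spec (hk : 0 < k) (E : List (Con V k)) (F : V → ℕ) (w0 T S' S : ℕ) (hS : 0 < S)
    (x : Fin S → V × Fin k) : ∃ (a : V → Fin k) (A : V → ℕ),
    certOutL k N w0 (edg (eh e k) (lift E)) (enl (eh e k) (hatN k F))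
      (enl (eh e k) (degN (lift E) (hatN k F))) (QpN (lift E) (hatN k F)) T S' S
      (finFunctionFinEquiv (fun s => eh e k (x s)) : Fin ((N * k) ^ S)) =
        (enl e (fun u => (a u : ℕ)), enl e A) ∧
    (∀ u, A u ≤ denL (QpN (lift E) (hatN k F)) T S' S) ∧
    IsMargin (fun y => (w0 : ℝ) / S * (seedSum (GH E F) x y -
      ((hp (GH E F) T)^[S'] (seedSum (GH E F) x)) y)) a
      (fun u => (A u : ℝ) / denL (QpN (lift E) (hatN k F)) T S' S) := by
  unfold certOutL outL scoresL
  rw [psiL_eq, Vale.Agent.P325.filtL_eq]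
  unfold scoreL addL
  rw [tab_eq (eh e k)]
  simp only [gt_enl]
  set Qh := QpN (lift E) (hatN k F) with hQh
  set psi : V × Fin k → ℕ := fun y => ∑ s, if y = x s then Qh / degN (lift E) (hatN k F) y else 0
    with hpsi
  set p := (filtStepN (lift E) (hatN k F) T)^[S'] (psi, fun _ => 0) with hp'
  obtain ⟨a, ha, ha'⟩ := labelL_val e hk (enl (eh e k) (fun y => Qh ^ (T * S') * psi y + p.2 y),
    enl (eh e k) p.1)
  rw [ha, marginL_eq]
  set A := marginN k (denL Qh T S' S) w0 (fun y => Qh ^ (T * S') * psi y + p.2 y) p.1 a with hA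
  have hcast : ∀ y, ((Qh ^ (T * S') * psi y + p.2 y : ℕ) : ℝ) - p.1 y =
      (Qh : ℝ) ^ (T * S' + 1) * (seedSum (GH E F) x y -
        ((hp (GH E F) T)^[S'] (seedSum (GH E F) x)) y) := by
    intro y
    have h3 := filtN_cast (lift E) (hatN k F) T S' psi y
    rw [← hp', psi_cast (lift E) (hatN k F) x, hp_iter_smul] at h3
    have h4 : (psi y : ℝ) = Qh * seedSum (GH E F) x y :=
      congrFun (psi_cast (lift E) (hatN k F) x) y
    push_cast
    rw [h4]
    have h5 : (p.2 y : ℝ) - p.1 y = - ((Qh : ℝ) ^ (T * S') *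
      (Qh * ((hp (GH E F) T)^[S'] (seedSum (GH E F) x)) y)) := by
      rw [← h3]; ring
    rw [pow_succ]
    linear_combination h5
  have hQ : (0 : ℝ) < (Qh : ℝ) ^ (T * S' + 1) := by
    have : (0 : ℝ) < Qh := by exact_mod_cast QpN_pos _ _
    positivity
  have hSR : (0 : ℝ) < S := by exact_mod_cast hS
  have hden : (denL Qh T S' S : ℝ) = S * (Qh : ℝ) ^ (T * S' + 1) := by
    unfold denL; push_cast; rfl
  have hden0 : (0 : ℝ) < denL Qh T S' S := by rw [hden]; positivity
  set ψ : V × Fin k → ℝ := fun y => seedSum (GH E F) x y -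
    ((hp (GH E F) T)^[S'] (seedSum (GH E F) x)) y with hψ
  -- the best label
  have hbest : ∀ u i, ψ (u, i) ≤ ψ (u, a u) := by
    intro u i
    have h1 := ha' u (exists_best e hk _ _ u)
    rw [bestAtL_iff] at h1
    have h2 := h1 i
    rw [hcast, hcast] at h2
    exact le_of_mul_le_mul_left h2 hQ
  have hdiff : ∀ u j, ((2 * w0 * (((Qh ^ (T * S') * psi (u, a u) + p.2 (u, a u)) + p.1 (u, j)) -
      ((Qh ^ (T * S') * psi (u, j) + p.2 (u, j)) + p.1 (u, a u))) : ℕ) : ℝ) =
      denL Qh T S' S * (2 * ((w0 : ℝ) / S * ψ (u, a u) - (w0 : ℝ) / S * ψ (u, j))) := by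
    intro u j
    have h1 := hcast (u, a u)
    have h2 := hcast (u, j)
    have h3 : (Qh ^ (T * S') * psi (u, j) + p.2 (u, j)) + p.1 (u, a u) ≤
        (Qh ^ (T * S') * psi (u, a u) + p.2 (u, a u)) + p.1 (u, j) := by
      have h4 := mul_le_mul_of_nonneg_left (hbest u j) hQ.le
      rw [← h1, ← h2] at h4
      have h5 : (((Qh ^ (T * S') * psi (u, j) + p.2 (u, j)) + p.1 (u, a u) : ℕ) : ℝ) ≤
        (((Qh ^ (T * S') * psi (u, a u) + p.2 (u, a u)) + p.1 (u, j) : ℕ) : ℝ) := by
        push_cast at h4 ⊢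
        linarith
      exact_mod_cast h5
    rw [Nat.cast_mul, Nat.cast_sub h3, hden]
    have h6 : (S : ℝ) * (Qh : ℝ) ^ (T * S' + 1) *
        (2 * ((w0 : ℝ) / S * ψ (u, a u) - (w0 : ℝ) / S * ψ (u, j))) =
        2 * w0 * ((Qh : ℝ) ^ (T * S' + 1) * ψ (u, a u) -
          (Qh : ℝ) ^ (T * S' + 1) * ψ (u, j)) := by
      field_simp
    rw [h6, ← h1, ← h2]
    push_cast
    ring
  refine ⟨a, A, rfl, fun u => marginN_le _ _ _ _ _ u, ⟨?_, ?_, ?_, ?_, ?_⟩⟩
  · intro u i
    exact mul_le_mul_of_nonneg_left (hbest u i) (by positivity)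
  · intro u
    positivity
  · intro u
    rw [div_le_one hden0]
    exact_mod_cast marginN_le _ _ _ _ _ u
  · intro u j hj
    rw [div_le_iff₀ hden0]
    have h1 := marginN_le_diff (denL Qh T S' S) w0 (fun y => Qh ^ (T * S') * psi y + p.2 y) p.1
      a u hj
    have h2 : (A u : ℝ) ≤ ((2 * w0 * (((Qh ^ (T * S') * psi (u, a u) + p.2 (u, a u)) + p.1 (u, j)) -
      ((Qh ^ (T * S') * psi (u, j) + p.2 (u, j)) + p.1 (u, a u))) : ℕ) : ℝ) := by
      exact_mod_cast h1
    rw [hdiff] at h2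
    linarith
  · intro u
    rcases marginN_eq (denL Qh T S' S) w0 (fun y => Qh ^ (T * S') * psi y + p.2 y) p.1 a u with
      h | ⟨j, hj, h⟩
    · left
      have h2 : (A u : ℝ) = denL Qh T S' S := by exact_mod_cast h
      show (A u : ℝ) / _ = 1
      rw [h2, div_self hden0.ne']
    · right
      refine ⟨j, hj, ?_⟩
      have h2 : (A u : ℝ) = ((2 * w0 * (((Qh ^ (T * S') * psi (u, a u) + p.2 (u, a u)) +
        p.1 (u, j)) - ((Qh ^ (T * S') * psi (u, j) + p.2 (u, j)) + p.1 (u, a u))) : ℕ) : ℝ) := by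
        exact_mod_cast h
      show (A u : ℝ) / _ = _
      rw [h2, hdiff, mul_div_cancel_left₀ _ hden0.ne']

omit [Fintype V] [DecidableEq V] in
/-- labels and margins of any certificate -/
theorem certOutL_val (hk : 0 < k) (w0 : ℕ) (Eh : List (ℕ × ℕ)) (Fh Dh : List ℕ)
    (Q T S' S c : ℕ) : ∃ (a : V → Fin k) (A : V → ℕ),
    certOutL k N w0 Eh Fh Dh Q T S' S c = (enl e (fun u => (a u : ℕ)), enl e A) ∧
    ∀ u, A u ≤ denL Q T S' S := by
  unfold certOutL outL
  obtain ⟨a, ha, _⟩ := labelL_val e hk (scoresL k N Eh Fh Dh Q T S' S c)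
  refine ⟨a, fun u => marginAt k (denL Q T S' S) w0 (scoresL k N Eh Fh Dh Q T S' S c) (idx e u)
    (a u), ?_, fun u => (foldl_min_spec _ _).2.1⟩
  rw [ha]
  unfold marginL
  rw [tab_eq e]
  simp only [gt_enl]

/-! ### The objective -/

omit [Fintype V] [DecidableEq V] in
/-- violated weight of a pair of functions -/
noncomputable def violR (E : List (Con V k)) (F : V → ℕ) (a : V → Fin k) (s : V → ℝ) : ℝ :=
  (E.map fun c => if a c.2.1 = c.2.2 (a c.1) then 0
    else (F c.1 * F c.2.1 * (s c.1 * s c.2.1) : ℝ)).sum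

/-- the objective, as a real number -/
noncomputable def objR (H : ℝ) (E : List (Con V k)) (F : V → ℕ) (a : V → Fin k) (s : V → ℝ) : ℝ :=
  H * (energy (GF (base E) F) s + 4 * violR E F a s) +
    ∑ u, deg (GF (base E) F) u * (1 - s u ^ 2)

theorem objL_eq (H : ℕ) (E : List (Con V k)) (F : V → ℕ) {Bq : ℕ} (hB : 0 < Bq)
    (a : V → Fin k) (A : V → ℕ) (hA : ∀ u, A u ≤ Bq) :
    (objL H N (conL e E) (enl e F) (enl e (degN (base E) F)) Bq
      (enl e (fun u => (a u : ℕ)), enl e A) : ℝ) =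
      (Bq : ℝ) ^ 2 * objR H E F a fun u => (A u : ℝ) / Bq := by
  unfold objL objR
  simp only
  have hBR : (0 : ℝ) < Bq := by exact_mod_cast hB
  have h1 : energy (GF (base E) F) (toR A) =
      (Bq : ℝ) ^ 2 * energy (GF (base E) F) fun u => (A u : ℝ) / Bq := by
    rw [← energy_smul]
    congr 1
    funext u
    show (A u : ℝ) = Bq * (A u / Bq)
    field_simp
  have h2 : (viol2L (conL e E) (enl e F) (enl e fun u => (a u : ℕ)) (enl e A) : ℝ) =
      (Bq : ℝ) ^ 2 * violR E F a fun u => (A u : ℝ) / Bq := by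
    unfold viol2L conL violR
    rw [List.map_map, Nat.cast_list_sum, List.map_map, ← List.sum_map_mul_left]
    congr 1
    refine List.map_congr_left fun c _ => ?_
    simp only [Function.comp, gt_enl, gt_ofFn, ← Fin.ext_iff]
    split_ifs
    · simp
    · push_cast
      field_simp
  have h3 : ((sumR N fun u => gt (enl e (degN (base E) F)) u * (Bq ^ 2 - gt (enl e A) u ^ 2) : ℕ)
      : ℝ) = (Bq : ℝ) ^ 2 * ∑ u, deg (GF (base E) F) u * (1 - ((A u : ℝ) / Bq) ^ 2) := by
    rw [sumR_eq e, Nat.cast_sum, mul_sum]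
    refine sum_congr rfl fun u _ => ?_
    rw [gt_enl, gt_enl, Nat.cast_mul, degN_cast, Nat.cast_sub (Nat.pow_le_pow_left (hA u) 2)]
    push_cast
    field_simp
  rw [Nat.cast_add, Nat.cast_mul, Nat.cast_add, baseL_eq, energyL_eq, energyN_cast, h1,
    Nat.cast_mul, h2, h3]
  push_cast
  ring

/-- the best certificate -/
theorem bestOutL_spec (hk : 0 < k) (E : List (Con V k)) (F : V → ℕ) (H w0 T S' S B : ℕ)
    (hS : 0 < S) : ∃ (a : V → Fin k) (A : V → ℕ),
    bestOutL H k N w0 (conL e E) (enl e F) (enl e (degN (base E) F)) (liftL k (conL e E))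
      (hatL k N (enl e F)) (degL (N * k) (liftL k (conL e E)) (hatL k N (enl e F)))
      (QpL (degL (N * k) (liftL k (conL e E)) (hatL k N (enl e F)))) T S' S B =
        (enl e (fun u => (a u : ℕ)), enl e A) ∧
    (∀ u, A u ≤ denL (QpN (lift E) (hatN k F)) T S' S) ∧
    ((N * k) ^ S ≤ B → ∀ x : Fin S → V × Fin k, ∃ (a' : V → Fin k) (s' : V → ℝ),
      IsMargin (fun y => (w0 : ℝ) / S * (seedSum (GH E F) x y -
        ((hp (GH E F) T)^[S'] (seedSum (GH E F) x)) y)) a' s' ∧
      objR H E F a (fun u => (A u : ℝ) / denL (QpN (lift E) (hatN k F)) T S' S) ≤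
        objR H E F a' s') := by
  rw [liftL_eq, hatL_eq, degL_eq, QpL_eq]
  unfold bestOutL
  set Eh := edg (eh e k) (lift E) with hEh
  set Fh := enl (eh e k) (hatN k F) with hFh
  set Dh := enl (eh e k) (degN (lift E) (hatN k F)) with hDh
  set Q := QpN (lift E) (hatN k F) with hQ
  set D := enl e (degN (base E) F) with hD
  have hQ0 : 0 < Q := QpN_pos _ _
  have hden : 0 < denL Q T S' S := by unfold denL; positivity
  have hdenR : (0 : ℝ) < denL Q T S' S := by exact_mod_cast hden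
  set f := fun c => certObjL H k N w0 (conL e E) (enl e F) D Eh Fh Dh Q T S' S c with hf
  have hmin : minObjL H k N w0 (conL e E) (enl e F) D Eh Fh Dh Q T S' S B =
      ((List.range B).map f).foldl min (f 0) := rfl
  set m := minObjL H k N w0 (conL e E) (enl e F) D Eh Fh Dh Q T S' S B with hm
  set c := bestCertL H k N w0 (conL e E) (enl e F) D Eh Fh Dh Q T S' S B m with hc
  obtain ⟨a, A, h1, h2⟩ := certOutL_val (V := V) e hk w0 Eh Fh Dh Q T S' S c
  refine ⟨a, A, h1, h2, fun hB x => ?_⟩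
  -- the objective of the chosen certificate is minimal
  obtain ⟨g1, g2, g3⟩ := foldl_min_spec ((List.range B).map f) (f 0)
  rw [← hmin] at g1 g2 g3
  have hBpos : 0 < B := by
    have : Nonempty (Fin S) := ⟨⟨0, hS⟩⟩
    have h3 : 0 < N * k := by
      have h4 := (eh e k (x ⟨0, hS⟩)).isLt
      omega
    have h5 : 0 < (N * k) ^ S := by positivity
    omega
  have hfc : f c ≤ m := by
    have h3 : ∃ c' ∈ List.range B, f c' ≤ m := by
      rcases g1 with g1 | g1
      · exact ⟨0, List.mem_range.2 hBpos, g1.ge⟩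
      · rw [List.mem_map] at g1
        obtain ⟨c', h4, h5⟩ := g1
        exact ⟨c', h4, h5.le⟩
    have h4 : ((List.range B).find? fun c' => decide (f c' ≤ m)).isSome := by
      rw [List.find?_isSome]
      obtain ⟨c', h5, h6⟩ := h3
      exact ⟨c', h5, by simpa using h6⟩
    obtain ⟨c', h5⟩ := Option.isSome_iff_exists.1 h4
    have h6 : c = c' := by
      show ((List.range B).find? fun c' => decide (f c' ≤ m)).getD 0 = c'
      rw [h5]; rfl
    rw [h6]
    have := List.find?_some h5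
    simpa using this
  obtain ⟨a', A', h3, h4, h5⟩ := certOutL_spec e hk E F w0 T S' S hS x
  set cx : ℕ := ((finFunctionFinEquiv (fun s => eh e k (x s)) : Fin ((N * k) ^ S)) : ℕ) with hcx
  refine ⟨a', _, h5, ?_⟩
  have h6 : m ≤ f cx := g3 _ (List.mem_map.2 ⟨cx, List.mem_range.2
    ((Fin.is_lt _).trans_le hB), rfl⟩)
  have h7 : f c ≤ f cx := hfc.trans h6
  have h8 : (f c : ℝ) = (denL Q T S' S : ℝ) ^ 2 *
      objR H E F a fun u => (A u : ℝ) / denL Q T S' S := by
    rw [← objL_eq e H E F hden a A h2, ← h1]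
    rfl
  have h9 : (f cx : ℝ) = (denL Q T S' S : ℝ) ^ 2 *
      objR H E F a' fun u => (A' u : ℝ) / denL Q T S' S := by
    rw [← objL_eq e H E F hden a' A' h4, ← h3]
    rfl
  have h10 : (f c : ℝ) ≤ f cx := by exact_mod_cast h7
  rw [h8, h9] at h10
  exact le_of_mul_le_mul_left h10 (by positivity)

/-! ### Accumulated data -/

/-- a treated leaf: piece, scaled margins, denominator, labels -/
structure Leaf (V : Type*) (k : ℕ) where
  F : V → ℕ
  A : V → ℕ
  d : ℕ
  a : V → Fin k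

namespace Leaf

omit [Fintype V] [DecidableEq V]

/-- the margins -/
noncomputable def s (x : Leaf V k) (u : V) : ℝ := (x.A u : ℝ) / x.d

/-- the labelled part -/
noncomputable def G (x : Leaf V k) : V → ℕ := partL x.F x.s

/-- the leftover -/
noncomputable def G' (x : Leaf V k) : V → ℕ := partR x.F x.s

end Leaf

/-- total variation of `G²` -/
def tvN (E : List (V × V)) (G : V → ℕ) : ℕ :=
  (E.map fun e => (G e.1 ^ 2 - G e.2 ^ 2) + (G e.2 ^ 2 - G e.1 ^ 2)).sum

omit [Fintype V] [DecidableEq V] in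
theorem tvL_eq (E : List (V × V)) (G : V → ℕ) : tvL (edg e E) (enl e G) = tvN E G := by
  unfold tvL tvN edg
  rw [List.map_map]
  congr 1
  refine List.map_congr_left fun p _ => ?_
  simp only [Function.comp, gt_enl]

omit [Fintype V] [DecidableEq V] in
theorem leafFin_eq (E : List (Con V k)) (x : Leaf V k) (hd : 0 < x.d) (hA : ∀ u, x.A u ≤ x.d)
    (Sq Hq : V → ℕ) (aT aV : ℕ) :
    leafFin N (conL e E) (enl e x.F) (enl e (fun u => (x.a u : ℕ)), enl e x.A) x.d
      (enl e Sq, enl e Hq, aT, aV) =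
      (enl e (fun u => Sq u + x.G u ^ 2), enl e (fun u => Hq u + (x.F u ^ 2 - x.G' u ^ 2)),
        aT + tvN (base E) x.G, aV + pieceV E x.G x.a) := by
  have hG : childLL N (enl e x.F) (enl e x.A) x.d = enl e x.G := by
    unfold childLL
    rw [tab_eq e]
    refine enl_congr e fun u => ?_
    rw [gt_enl, gt_enl]
    exact (partL_eq_div (F := x.F) (s := x.s) (a := x.A u) (b := x.d) (v := u) hd rfl).symm
  have hG' : childRL N (enl e x.F) (enl e x.A) x.d = enl e x.G' := by
    unfold childRL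
    rw [tab_eq e]
    refine enl_congr e fun u => ?_
    rw [gt_enl, gt_enl]
    exact (partR_eq_div (F := x.F) (s := x.s) (a := x.A u) (b := x.d) (v := u) hd (hA u) rfl).symm
  have h1 : (tab N fun u => gt (enl e Sq) u + gt (enl e x.G) u ^ 2) =
      enl e (fun u => Sq u + x.G u ^ 2) := by
    rw [tab_eq e]
    exact enl_congr e fun u => by rw [gt_enl, gt_enl]
  have h2 : (tab N fun u => gt (enl e Hq) u + (gt (enl e x.F) u ^ 2 - gt (enl e x.G') u ^ 2)) =
      enl e (fun u => Hq u + (x.F u ^ 2 - x.G' u ^ 2)) := by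
    rw [tab_eq e]
    exact enl_congr e fun u => by rw [gt_enl, gt_enl, gt_enl]
  unfold leafFin accL
  simp only
  rw [hG, hG', baseL_eq, tvL_eq, costL_eq, h1, h2]

end

end Vale.Agent.P325.V2
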